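import Vale.Agent.P211.Bdl.S0

set_option linter.all false

/-! P211, block L-ANA (helper56): calculus in a `Geo2`: divergences, Laplacians of products and
compositions, the second derivative test. -/

namespace Vale.Agent.P211.H56

open Topology Filter MeasureTheory Set
open scoped ContDiff
open Vale.Agent.P211 Vale.Agent.P211.S4

variable {M 𝒪 V : Type*} [TopologicalSpace M] [CommRing 𝒪] [Algebra ℝ 𝒪]
    [AddCommGroup V] [Module 𝒪 V] {G : Geo2 M 𝒪 V}

theorem g_zero_left (X : V) : G.g 0 X = 0 := by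
  have := G.g_smul_left 0 0 X
  simpa using this

theorem g_zero_right (X : V) : G.g X 0 = 0 := by rw [G.g_symm]; exact g_zero_left X

theorem g_add_right (X Y Z : V) : G.g X (Y + Z) = G.g X Y + G.g X Z := by
  rw [G.g_symm, G.g_add_left, G.g_symm Y, G.g_symm Z]

theorem g_smul_right (a : 𝒪) (X Y : V) : G.g X (a • Y) = a * G.g X Y := by
  rw [G.g_symm, G.g_smul_left, G.g_symm]

theorem g_neg_left (X Y : V) : G.g (-X) Y = - G.g X Y := by
  have := G.g_smul_left (-1) X Y
  simpa using this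

theorem g_sub_left (X Y Z : V) : G.g (X - Y) Z = G.g X Z - G.g Y Z := by
  rw [sub_eq_add_neg, G.g_add_left, g_neg_left]; ring

/-- derivatives: rules -/
theorem D_zero_left (f : 𝒪) : G.D 0 f = 0 := by
  have := G.D_smul_left 0 0 f
  simpa using this

theorem D_neg_left (X : V) (f : 𝒪) : G.D (-X) f = - G.D X f := by
  have := G.D_smul_left (-1) X f
  simpa using this

theorem D_sub_left (X Y : V) (f : 𝒪) : G.D (X - Y) f = G.D X f - G.D Y f := by
  rw [sub_eq_add_neg, G.D_add_left, D_neg_left]; ring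

theorem D_alg (X : V) (c : ℝ) : G.D X (algebraMap ℝ 𝒪 c) = 0 := G.D_const X c

theorem D_zero (X : V) : G.D X 0 = 0 := by
  have := G.D_const X 0
  simpa using this

theorem D_neg (X : V) (f : 𝒪) : G.D X (-f) = - G.D X f := by
  have h := G.D_add X f (-f)
  rw [add_neg_cancel, D_zero] at h
  linear_combination - h

theorem D_sub (X : V) (f h : 𝒪) : G.D X (f - h) = G.D X f - G.D X h := by
  rw [sub_eq_add_neg, G.D_add, D_neg]; ring

theorem D_smul_real (X : V) (c : ℝ) (f : 𝒪) : G.D X (c • f) = c • G.D X f := by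
  rw [Algebra.smul_def, G.D_mul, D_alg, Algebra.smul_def]; ring

/-- divergences -/
theorem dv_smul' (a : 𝒪) (X : V) : G.dv (a • X) = G.D X a + a * G.dv X := by
  apply G.ev_ext
  intro p
  obtain ⟨F, hF⟩ := G.frame p
  have hexp := G.toGeom.expand (p := p) (F := F) hF
    ⟨⟨fun X => G.D X a, fun Y Z => G.D_add_left Y Z a⟩, fun b Y => G.D_smul_left b Y a⟩ X
  have hexp' : G.ev p (G.D X a) = ∑ i, G.ev p (G.g X (F i)) * G.ev p (G.D (F i) a) := hexp
  rw [G.dv_spec _ p F hF, map_add, map_mul, G.dv_spec _ p F hF, hexp', Finset.mul_sum,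
    ← Finset.sum_add_distrib]
  refine Finset.sum_congr rfl fun i _ => ?_
  rw [G.nab_smul, G.g_add_left, G.g_smul_left, G.g_smul_left, map_add, map_mul, map_mul]
  ring

theorem dv_add (X Y : V) : G.dv (X + Y) = G.dv X + G.dv Y := by
  apply G.ev_ext
  intro p
  obtain ⟨F, hF⟩ := G.frame p
  rw [G.dv_spec _ p F hF, map_add, G.dv_spec _ p F hF, G.dv_spec _ p F hF,
    ← Finset.sum_add_distrib]
  refine Finset.sum_congr rfl fun i _ => ?_
  rw [G.nab_add, G.g_add_left, map_add]

/-- vector fields orthogonal to everything have divergence zero -/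
theorem dv_null {Z : V} (hZ : ∀ Y, G.g Z Y = 0) : G.dv Z = 0 := by
  apply G.ev_ext
  intro p
  obtain ⟨F, hF⟩ := G.frame p
  rw [G.dv_spec _ p F hF, map_zero]
  refine Finset.sum_eq_zero fun i _ => ?_
  have h := G.metric (F i) Z (F i)
  rw [hZ (F i), D_zero, hZ (G.nab (F i) (F i)), add_zero] at h
  rw [← h, map_zero]

theorem dv_congr {X Y : V} (h : ∀ Z, G.g X Z = G.g Y Z) : G.dv X = G.dv Y := by
  have h1 : G.dv (X - Y) = 0 := dv_null fun Z => by rw [g_sub_left, h Z, sub_self]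
  have h2 := dv_add (G := G) (X - Y) Y
  rw [sub_add_cancel, h1, zero_add] at h2
  exact h2

/-- Laplacian of a function whose differential is `k df`. -/
theorem lap_of {f h k : 𝒪} (hd : ∀ X, G.D X h = k * G.D X f) :
    G.lap h = k * G.lap f + G.D (G.grad f) k := by
  have h1 : G.dv (G.grad h) = G.dv (k • G.grad f) := dv_congr fun Z => by
    rw [G.grad_spec, hd, G.g_smul_left, G.grad_spec]
  unfold Geo2.lap
  rw [h1, dv_smul']
  ring

/-- Laplacian of a function whose differential is `k df + l dh`. -/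
theorem lap_of2 {f h k l u : 𝒪} (hd : ∀ X, G.D X u = k * G.D X f + l * G.D X h) :
    G.lap u = k * G.lap f + G.D (G.grad f) k + (l * G.lap h + G.D (G.grad h) l) := by
  have h1 : G.dv (G.grad u) = G.dv (k • G.grad f + l • G.grad h) := dv_congr fun Z => by
    rw [G.grad_spec, hd, G.g_add_left, G.g_smul_left, G.grad_spec, G.g_smul_left, G.grad_spec]
  unfold Geo2.lap
  rw [h1, dv_add, dv_smul', dv_smul']
  ring

theorem lap_add (f h : 𝒪) : G.lap (f + h) = G.lap f + G.lap h := by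
  rw [lap_of2 (f := f) (h := h) (k := 1) (l := 1) fun X => by rw [G.D_add]; ring]
  have h1 : ∀ X : V, G.D X (1 : 𝒪) = 0 := fun X => by
    have := G.D_const X 1
    simpa using this
  rw [h1, h1]; ring

theorem lap_mul (f h : 𝒪) : G.lap (f * h) = h * G.lap f + f * G.lap h + 2 * G.g (G.grad f) (G.grad h) := by
  rw [lap_of2 (f := f) (h := h) (k := h) (l := f) fun X => by rw [G.D_mul]; ring]
  rw [← G.grad_spec f (G.grad h), ← G.grad_spec h (G.grad f), G.g_symm (G.grad h) (G.grad f)]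
  ring

theorem D_grad_symm (f h : 𝒪) : G.D (G.grad f) h = G.D (G.grad h) f := by
  rw [← G.grad_spec h, ← G.grad_spec f, G.g_symm]

theorem lap_alg' (c : ℝ) : G.lap (algebraMap ℝ 𝒪 c) = 0 := by
  unfold Geo2.lap
  apply dv_null
  intro Y
  rw [G.grad_spec, D_alg]

theorem lap_neg (f : 𝒪) : G.lap (-f) = - G.lap f := by
  have h := lap_add (G := G) f (-f)
  have h0 : G.lap (0 : 𝒪) = 0 := by
    have := lap_alg' (G := G) 0
    simpa using this
  rw [add_neg_cancel, h0] at h
  linear_combination - h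

theorem lap_sub (f h : 𝒪) : G.lap (f - h) = G.lap f - G.lap h := by
  rw [sub_eq_add_neg, lap_add, lap_neg]; ring

theorem lap_smul (c : ℝ) (f : 𝒪) : G.lap (c • f) = c • G.lap f := by
  rw [lap_of (f := f) (k := algebraMap ℝ 𝒪 c) fun X => by
    rw [D_smul_real, Algebra.smul_def], D_alg, Algebra.smul_def]
  ring

/-- the Laplacian is local -/
theorem lap_local {p : M} {f h : 𝒪} (hfh : ∀ᶠ q in 𝓝 p, G.ev q f = G.ev q h) :
    G.ev p (G.lap f) = G.ev p (G.lap h) := by
  obtain ⟨F₀, hF₀⟩ := G.frame p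
  obtain ⟨F, h1, -, h3⟩ := G.sync p F₀ hF₀
  have hS : G.Sync p F := ⟨h1, h3⟩
  rw [lap_sync f hS, lap_sync h hS]
  refine Finset.sum_congr rfl fun i _ => ?_
  apply G.D_local
  filter_upwards [hfh.eventually_nhds] with q hq
  exact G.D_local q f h hq (F i)

/-- the second derivative test for the Laplacian -/
theorem lap_nonneg_of_min {p : M} {f : 𝒪} (hf : IsLocalMin (fun q => G.ev q f) p) :
    0 ≤ G.ev p (G.lap f) := by
  obtain ⟨F₀, hF₀⟩ := G.frame p
  obtain ⟨F, h1, -, h3⟩ := G.sync p F₀ hF₀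
  have hS : G.Sync p F := ⟨h1, h3⟩
  rw [lap_sync f hS]
  exact Finset.sum_nonneg fun i _ => (G.min_test p f hf (F i)).2

theorem D_zero_of_min {p : M} {f : 𝒪} (hf : IsLocalMin (fun q => G.ev q f) p) (X : V) :
    G.ev p (G.D X f) = 0 := (G.min_test p f hf X).1

theorem contDiffAt_deriv {γ : ℝ → ℝ} {x : ℝ} (h : ContDiffAt ℝ ∞ γ x) :
    ContDiffAt ℝ ∞ (deriv γ) x := by
  have h1 : ContDiffAt ℝ ∞ (fderiv ℝ γ) x := h.fderiv_right (by simp)
  have h2 : deriv γ = fun x => fderiv ℝ γ x 1 := by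
    ext x; exact (fderiv_apply_one_eq_deriv).symm
  rw [h2]
  exact h1.clm_apply contDiffAt_const

/-- composition with a function of one variable: value, differential, Laplacian. -/
theorem comp_lap (f : 𝒪) (γ : ℝ → ℝ) (hγ : ∀ q, ContDiffAt ℝ ∞ γ (G.ev q f)) :
    ∃ h : 𝒪, (∀ q, G.ev q h = γ (G.ev q f)) ∧
      (∀ q X, G.ev q (G.D X h) = deriv γ (G.ev q f) * G.ev q (G.D X f)) ∧
      ∀ q, G.ev q (G.lap h) = deriv γ (G.ev q f) * G.ev q (G.lap f) +
        deriv (deriv γ) (G.ev q f) * G.ev q (G.g (G.grad f) (G.grad f)) := by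
  obtain ⟨h, hh⟩ := G.comp f γ hγ
  obtain ⟨k, hk⟩ := G.comp f (deriv γ) fun q => contDiffAt_deriv (hγ q)
  refine ⟨h, fun q => (hh q).1, fun q X => (hh q).2 X, fun q => ?_⟩
  have h1 : ∀ X, G.D X h = k * G.D X f := fun X => G.ev_ext _ _ fun q => by
    rw [(hh q).2, map_mul, (hk q).1]
  rw [lap_of h1, map_add, map_mul, (hk q).1, (hk q).2, ← G.grad_spec f (G.grad f)]

end Vale.Agent.P211.H56
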