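import Vale.Agent.P211.H56.Sec
import Vale.Agent.P211.H56.Calc

set_option linter.all false

/-! P211, block L-ANA (helper56): the opposite orientation; the functions `n = |W⁺|²/6`,
`m = |W⁻|²/6`. -/

namespace Vale.Agent.P211.H56

open Topology Filter MeasureTheory Set
open scoped ContDiff
open Vale.Agent.P211 Vale.Agent.P211.S4

variable {M 𝒪 V : Type*} [TopologicalSpace M] [CommRing 𝒪] [Algebra ℝ 𝒪]
    [AddCommGroup V] [Module 𝒪 V] {G : Geo2 M 𝒪 V} {om : V → V → V → V → 𝒪}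

/-- reflected frame -/
def refl (F : Fin 4 → V) : Fin 4 → V := ![-F 0, F 1, F 2, F 3]

/-- opposite orientation -/
def omn (om : V → V → V → V → 𝒪) : V → V → V → V → 𝒪 := fun X Y Z W => - om X Y Z W

theorem t4_neg1 {T : V → V → V → V → 𝒪} (h : IsT4 T) (X Y Z W : V) :
    T (-X) Y Z W = - T X Y Z W := by
  have := h.smul1 (-1) X Y Z W
  simpa using this

theorem t4_neg4 {T : V → V → V → V → 𝒪} (h : IsT4 T) (X Y Z W : V) :
    T X Y Z (-W) = - T X Y Z W := by
  have := h.smul4 (-1) X Y Z W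
  simpa using this

theorem refl_on {p : M} {F : Fin 4 → V} (hF : G.ON p F) : G.ON p (refl F) := by
  have gl : ∀ X Y : V, G.g (-X) Y = - G.g X Y := g_neg_left
  have gr : ∀ X Y : V, G.g X (-Y) = - G.g X Y := fun X Y => by rw [G.g_symm, gl, G.g_symm]
  intro i j
  have h := hF i j
  fin_cases i <;> fin_cases j <;>
    simp only [refl, Fin.isValue, Matrix.cons_val_zero, Matrix.cons_val_one,
      Matrix.cons_val, Fin.zero_eta, Fin.mk_one, Fin.reduceFinMk, gl, gr, map_neg, neg_neg] at h ⊢ <;>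
    simp_all

theorem refl_refl (F : Fin 4 → V) : refl (refl F) = F := by
  ext i
  fin_cases i <;> simp [refl]

theorem Ab_refl (p : M) (F : Fin 4 → V) (i j : Fin 3) :
    S4.Ab (G.rr p (refl F)) i j = Bb (G.rr p F) i j := by
  have hR4 := G.isT4_Rm
  fin_cases i <;> fin_cases j <;>
    simp only [S4.Ab, Bb, Pm, Sm, Geom.rr, refl, Fin.isValue, Matrix.cons_val_zero,
      Matrix.cons_val_one, Matrix.cons_val, Fin.zero_eta, Fin.mk_one, Fin.reduceFinMk,
      t4_neg1 hR4, t4_neg4 hR4, neg_neg, map_neg] <;> ring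

theorem nA_refl (p : M) (F : Fin 4 → V) : nA (G.rr p (refl F)) = nB (G.rr p F) := by
  unfold nA nB
  simp only [Ab_refl]

theorem nB_refl (p : M) (F : Fin 4 → V) : nB (G.rr p (refl F)) = nA (G.rr p F) := by
  rw [← nA_refl, refl_refl]

theorem orient_neg (ho : Orient G om) : Orient G (omn om) where
  t4 := by
    constructor
    · intro X X' Y Z W; simp only [omn]; rw [ho.t4.add1]; ring
    · intro X Y Y' Z W; simp only [omn]; rw [ho.t4.add2]; ring
    · intro X Y Z Z' W; simp only [omn]; rw [ho.t4.add3]; ring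
    · intro X Y Z W W'; simp only [omn]; rw [ho.t4.add4]; ring
    · intro a X Y Z W; simp only [omn]; rw [ho.t4.smul1]; ring
    · intro a X Y Z W; simp only [omn]; rw [ho.t4.smul2]; ring
    · intro a X Y Z W; simp only [omn]; rw [ho.t4.smul3]; ring
    · intro a X Y Z W; simp only [omn]; rw [ho.t4.smul4]; ring
  a12 X Y Z W := by simp only [omn]; rw [ho.a12]
  a23 X Y Z W := by simp only [omn]; rw [ho.a23]
  a34 X Y Z W := by simp only [omn]; rw [ho.a34]
  unit p F hF := by simp only [omn, map_neg]; rw [neg_sq]; exact ho.unit p F hF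

theorem pos_neg_iff (ho : Orient G om) {p : M} {F : Fin 4 → V} :
    Pos G (omn om) p (refl F) ↔ Pos G om p F := by
  have h1 : G.ev p (omn om (refl F 0) (refl F 1) (refl F 2) (refl F 3)) =
      G.ev p (om (F 0) (F 1) (F 2) (F 3)) := by
    simp only [omn, refl, Fin.isValue, Matrix.cons_val_zero, Matrix.cons_val_one, Matrix.cons_val]
    rw [t4_neg1 ho.t4, neg_neg]
  constructor
  · rintro ⟨a, b⟩
    refine ⟨?_, by rw [← h1]; exact b⟩
    have := refl_on a
    rwa [refl_refl] at this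
  · rintro ⟨a, b⟩
    exact ⟨refl_on a, by rw [h1]; exact b⟩

theorem exists_pos (ho : Orient G om) (p : M) : ∃ F, Pos G om p F := by
  obtain ⟨F, hF⟩ := G.frame p
  have hF' : G.ON p F := hF
  have hu := ho.unit p F hF'
  rcases mul_eq_zero.1 (show (G.ev p (om (F 0) (F 1) (F 2) (F 3)) - 1) *
    (G.ev p (om (F 0) (F 1) (F 2) (F 3)) + 1) = 0 by linear_combination hu) with h | h
  · exact ⟨F, hF', by linarith only [h]⟩
  · refine ⟨refl F, refl_on hF', ?_⟩
    simp only [refl, Fin.isValue, Matrix.cons_val_zero, Matrix.cons_val_one, Matrix.cons_val]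
    rw [t4_neg1 ho.t4, map_neg]
    linarith only [h]

/-- what part I gives for one of the functions `|W±|²/6`. -/
structure NFun (G : Geo2 M 𝒪 V) (n : 𝒪) : Prop where
  nonneg : ∀ p, 0 ≤ G.ev p n
  le : ∀ p, G.ev p n ≤ 4
  ineq : ∀ p, 12 * G.ev p n * (G.ev p n - G.ev p n * Real.sqrt (G.ev p n))
        + 3 / 4 * G.ev p (G.g (G.grad n) (G.grad n)) ≤ G.ev p n * G.ev p (G.lap n)

/-- the functions `n = |W⁺|²/6`, `m = |W⁻|²/6`. -/
theorem exists_nm (hE : G.Einstein 3) (hK : G.SecGe 0) (ho : Orient G om) :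
    ∃ n m : 𝒪, (∀ p F, Pos G om p F → 6 * G.ev p n + 3 = nA (G.rr p F)) ∧
      (∀ p F, Pos G om p F → 6 * G.ev p m + 3 = nB (G.rr p F)) ∧ NFun G n ∧ NFun G m := by
  obtain ⟨n, h1, h2, h3⟩ := partI hE hK ho
  obtain ⟨m, k1, k2, k3⟩ := partI hE hK (orient_neg ho)
  refine ⟨n, m, h1, fun p F hF => ?_, ⟨fun p => (h2 p).1, fun p => (h2 p).2, h3⟩,
    ⟨fun p => (k2 p).1, fun p => (k2 p).2, k3⟩⟩
  rw [k1 p (refl F) ((pos_neg_iff ho).2 hF), nA_refl]

/-- `N + M ≤ 2` -/
theorem sqrt_add_le (hE : G.Einstein 3) (hK : G.SecGe 0) (ho : Orient G om) {n m : 𝒪}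
    (hn : ∀ p F, Pos G om p F → 6 * G.ev p n + 3 = nA (G.rr p F))
    (hm : ∀ p F, Pos G om p F → 6 * G.ev p m + 3 = nB (G.rr p F))
    (hn0 : ∀ p, 0 ≤ G.ev p n) (hm0 : ∀ p, 0 ≤ G.ev p m) (p : M) :
    Real.sqrt (G.ev p n) + Real.sqrt (G.ev p m) ≤ 2 := by
  obtain ⟨F, hF⟩ := exists_pos ho p
  exact add_le_two hE hK hF.1 (Real.sqrt_nonneg _) (Real.sqrt_nonneg _)
    (by rw [Real.sq_sqrt (hn0 p)]; exact hn p F hF) (by rw [Real.sq_sqrt (hm0 p)]; exact hm p F hF)

end Vale.Agent.P211.H56
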