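import Vale.Agent.P211.H626.Id7
import Vale.Agent.P211.H210.Syl4

set_option linter.all false

/-!
P211 (helper56): leaves with exactly eliminated multiplier: six control matrices (degree two in
`p`, degree one in `κ`) per leaf, tested by `syl4`, and the relation for the number of the leaf.
-/

namespace Vale.Agent.P211.H237

open MvPolynomial

/-! ### forced evaluation -/

/-- evaluate all members of a list -/
noncomputable def frcL (l : List ℕ) : (List ℕ → Bool) → Bool :=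
  List.rec (motive := fun _ => (List ℕ → Bool) → Bool) (fun k => k [])
    (fun a _ ih k => frc a fun v => ih fun r => k (v :: r)) l

theorem frcL_eq (l : List ℕ) : ∀ k, frcL l k = k l := by
  induction l with
  | nil => intro k; rfl
  | cons a l ih =>
    intro k
    show frc a (fun v => frcL l fun r => k (v :: r)) = _
    rw [frc_eq, ih]

/-- rows of powers, forced -/
noncomputable def rowC (W y : ℕ) (n : ℕ) : ℕ → (List ℕ → Bool) → Bool :=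
  Nat.rec (motive := fun _ => ℕ → (List ℕ → Bool) → Bool) (fun a k => k [a])
    (fun _ ih a k => frc (Nat.mod (Nat.mul a y) W) fun b => ih b fun r => k (a :: r)) n

theorem rowC_eq (W y : ℕ) : ∀ (n a : ℕ) (k), rowC W y n a k = k (rowN W y n a) := by
  intro n
  induction n with
  | zero => intro a k; rfl
  | succ n ih =>
    intro a k
    show frc (Nat.mod (Nat.mul a y) W) (fun b => rowC W y n b fun r => k (a :: r)) = _
    rw [frc_eq, ih]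
    rfl

noncomputable def rowsC (W E x y : ℕ) (n : ℕ) : ℕ → (List (List ℕ) → Bool) → Bool :=
  Nat.rec (motive := fun _ => ℕ → (List (List ℕ) → Bool) → Bool)
    (fun a k => rowC W y E a fun r => k [r])
    (fun _ ih a k => rowC W y E a fun r =>
      frc (Nat.mod (Nat.mul a x) W) fun b => ih b fun rs => k (r :: rs)) n

theorem rowsC_eq (W E x y : ℕ) : ∀ (n a : ℕ) (k), rowsC W E x y n a k = k (rowsN W E x y n a) := by
  intro n
  induction n with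
  | zero =>
    intro a k
    show rowC W y E a (fun r => k [r]) = _
    rw [rowC_eq]; rfl
  | succ n ih =>
    intro a k
    show rowC W y E a (fun r => frc (Nat.mod (Nat.mul a x) W) fun b =>
      rowsC W E x y n b fun rs => k (r :: rs)) = _
    rw [rowC_eq, frc_eq, ih]
    rfl

/-- outputs, forced -/
noncomputable def mapC (W s0 : ℕ) (ms : List (List ℕ)) (cf : List (List (List Sg))) :
    (List ℕ → Bool) → Bool :=
  List.rec (motive := fun _ => (List ℕ → Bool) → Bool) (fun k => k [])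
    (fun c _ ih k => frc (Nat.mod (Nat.mul (Nat.mod (dot2N W c ms) W) s0) W) fun v =>
      ih fun r => k (v :: r)) cf

theorem mapC_eq (W s0 : ℕ) (ms : List (List ℕ)) (cf : List (List (List Sg))) :
    ∀ k, mapC W s0 ms cf k = k (mapO W s0 ms cf) := by
  induction cf with
  | nil => intro k; rfl
  | cons c cf ih =>
    intro k
    show frc (Nat.mod (Nat.mul (Nat.mod (dot2N W c ms) W) s0) W) (fun v =>
      mapC W s0 ms cf fun r => k (v :: r)) = _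
    rw [frc_eq, ih]
    rfl

/-- all outputs on a cell, forced -/
noncomputable def Tab.outsC (T : Tab) (W : ℕ) (c : CellP) (k : List ℕ → Bool) : Bool :=
  frc (T.fam.s0 c) fun s0 => frc (T.fam.xr c) fun xr => frc (T.fam.yr c) fun yr =>
    rowsC W T.E xr yr T.D 1 fun ms => mapC W s0 ms T.cf k

theorem Tab.outsC_eq (T : Tab) (W : ℕ) (c : CellP) (k : List ℕ → Bool) :
    T.outsC W c k = k (T.outs W c) := by
  unfold Tab.outsC
  rw [frc_eq, frc_eq, frc_eq, rowsC_eq, mapC_eq]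
  rfl

/-! ### the format -/

structure Fmt7 where
  T : Tab
  I : Id7
  /-- denominators of the four variables -/
  xq : ℕ
  yq : ℕ
  pq : ℕ
  kq : ℕ
  /-- denominator of the numbers of the leaves -/
  ld : ℕ
  /-- bound for the sums of the weights -/
  nw : ℕ
  /-- bound for the lengths of the lists -/
  lm : ℕ
  /-- index of the constant `1`, for exclusions -/
  one : ℕ
  /-- a small rational `1/ce` for exclusions -/
  ce : ℕ

/-- boxes -/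
structure Bx7 where
  xa : ℤ
  xb : ℤ
  ya : ℤ
  yb : ℤ
  pa : ℕ
  pb : ℕ
  ka : ℤ
  kb : ℤ

def Bx7.In (b : Bx7) (xq yq pq kq : ℕ) (x y p k : ℝ) : Prop :=
  (b.xa : ℝ) ≤ xq * x ∧ xq * x ≤ b.xb ∧ (b.ya : ℝ) ≤ yq * y ∧ yq * y ≤ b.yb ∧
    (b.pa : ℝ) ≤ pq * p ∧ pq * p ≤ b.pb ∧ (b.ka : ℝ) ≤ kq * k ∧ kq * k ≤ b.kb

def Bx7.cell (b : Bx7) (xq yq : ℕ) : CellP := ⟨b.xa, b.xb, xq, b.ya, b.yb, yq⟩

/-- lists of items are affine in `κ` and not too long -/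
def ok7 (m : ℕ) (l : List (ℕ × ℕ × ℕ)) : Bool :=
  Nat.ble l.length m && l.all fun t => Nat.ble t.2.1 1

def Tm7.okB (t : Tm7) (m : ℕ) : Bool :=
  ok7 m t.a11 && ok7 m t.a12 && ok7 m t.a13 && ok7 m t.a14 && ok7 m t.a22 && ok7 m t.a23 &&
  ok7 m t.a24 && ok7 m t.a33 && ok7 m t.a34 && ok7 m t.a44

/-- entry of a control matrix -/
noncomputable def ent7N (W : ℕ) (outs : List ℕ) (A0 A1 A2 : ℕ) (K0 : ℕ) (K1 : Sg)
    (l : List (ℕ × ℕ × ℕ)) : ℕ :=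
  Nat.mod (zsN W outs (sel A0 A1 A2) (sel (Sg.p K0) K1 K1) l 0) W

/-- control matrix; the last entry has its own weights -/
noncomputable def mat7 (t : Tm7) (W : ℕ) (outs : List ℕ) (A0 A1 A2 B0 B1 B2 : ℕ) (K0 : ℕ)
    (K1 : Sg) : Q4 :=
  ⟨ent7N W outs A0 A1 A2 K0 K1 t.a11, ent7N W outs A0 A1 A2 K0 K1 t.a12,
    ent7N W outs A0 A1 A2 K0 K1 t.a13, ent7N W outs A0 A1 A2 K0 K1 t.a14,
    ent7N W outs A0 A1 A2 K0 K1 t.a22, ent7N W outs A0 A1 A2 K0 K1 t.a23,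
    ent7N W outs A0 A1 A2 K0 K1 t.a24, ent7N W outs A0 A1 A2 K0 K1 t.a33,
    ent7N W outs A0 A1 A2 K0 K1 t.a34, ent7N W outs B0 B1 B2 K0 K1 t.a44⟩

/-- the global numbers: modulus, mask, digits, `B = 2^K`, modulus of the signed residues, its half,
offset, number of digits -/
structure G7 where
  W : ℕ
  m : ℕ
  K : ℕ
  B : ℕ
  Z : ℕ
  H : ℕ
  hc : ℕ
  n : ℕ

def Fam.g7 (F : Fam) : G7 :=
  ⟨F.W, F.msk, F.β + 1, 2 ^ (F.β + 1), F.Zs, F.Hs, F.Zs - 2 ^ F.β, (F.D + 1) * (F.E + 1)⟩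

/-- one control matrix with its bound -/
noncomputable def ctl7 (t : Tm7) (lm nw : ℕ) (g : G7) (outs : List ℕ) (ld nn A0 A1 A2 : ℕ)
    (K0 : ℕ) (K1 : Sg) : Bool :=
  Nat.ble (Nat.mul lm (Nat.mul (Nat.mul (Nat.add ld nn) (Nat.add A0 (Nat.add A1 A2)))
    (Nat.add K0 (Sg.absN K1)))) nw &&
  (frc (Nat.mul ld A0) fun a0 => frc (Nat.mul ld A1) fun a1 => frc (Nat.mul ld A2) fun a2 =>
    frc (Nat.mul nn A0) fun b0 => frc (Nat.mul nn A1) fun b1 => frc (Nat.mul nn A2) fun b2 =>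
      syl4 g.W g.m g.K g.B g.Z g.H g.hc g.n (mat7 t g.W outs a0 a1 a2 b0 b1 b2 K0 K1))

/-- an `Id6` with the relation -/
def Id7.toId6 (I : Id7) : Id6 :=
  ⟨⟨[], [], [], [], [], [], [], [], [], []⟩, [], 0, [], I.r0, I.ss, 0, []⟩

noncomputable def rel7 (I : Id7) (nw : ℕ) (g : G7) (outs : List ℕ) (K0 : ℕ) (K1 K2 : Sg) (L : ℕ)
    (S : Sg) : Bool :=
  Nat.ble (relB K0 K1 K2 L S) nw && Nat.beq (Nat.land (relN I.toId6 g.W g.m outs K0 K1 K2 L S) g.m)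
    g.m

/-- product of two signed numbers and sum of two signed numbers -/
noncomputable def Sg.add' (a b : Sg) : Sg :=
  Sg.rec (fun n => Sg.rec (fun k => Sg.p (Nat.add n k)) (fun k => Sg.ofSub n k) b)
    (fun n => Sg.rec (fun k => Sg.ofSub k n) (fun k => Sg.m (Nat.add n k)) b) a

theorem Sg.val_add' (a b : Sg) : (a.add' b).val = a.val + b.val := by
  cases a with
  | p n =>
    cases b with
    | p k => show ((n + k : ℕ) : ℤ) = (n : ℤ) + k; push_cast; rfl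
    | m k => show (Sg.ofSub n k).val = (n : ℤ) + -(k : ℤ); rw [Sg.val_ofSub]; ring
  | m n =>
    cases b with
    | p k => show (Sg.ofSub k n).val = -(n : ℤ) + (k : ℤ); rw [Sg.val_ofSub]; ring
    | m k => show (-((n + k : ℕ) : ℤ)) = -(n : ℤ) + -(k : ℤ); push_cast; ring

/-- the leaf with number `nn / ld` -/
noncomputable def leaf7 (f : Fmt7) (g : G7) (outs : List ℕ) (pa pb : ℕ) (k0 k1 : Sg) (nn : ℕ) :
    Bool :=
  Nat.blt 0 nn &&
  rel7 f.I f.nw g outs (Nat.mul 2 (Nat.mul f.kq f.kq)) (Sg.nmul (Nat.mul 2 f.kq) k0)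
    (Sg.nmul 2 (Sg.mul k0 k0)) (Nat.mul (Nat.mul 2 (Nat.mul f.kq f.kq)) f.ld) (Sg.m nn) &&
  rel7 f.I f.nw g outs (Nat.mul 2 (Nat.mul f.kq f.kq)) (Sg.nmul f.kq (Sg.add' k0 k1))
    (Sg.nmul 2 (Sg.mul k0 k1)) (Nat.mul (Nat.mul 2 (Nat.mul f.kq f.kq)) f.ld) (Sg.m nn) &&
  rel7 f.I f.nw g outs (Nat.mul 2 (Nat.mul f.kq f.kq)) (Sg.nmul (Nat.mul 2 f.kq) k1)
    (Sg.nmul 2 (Sg.mul k1 k1)) (Nat.mul (Nat.mul 2 (Nat.mul f.kq f.kq)) f.ld) (Sg.m nn) &&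
  ctl7 f.I.tm f.lm f.nw g outs f.ld nn (Nat.mul f.pq f.pq) (Nat.mul f.pq pa) (Nat.mul pa pa)
    f.kq k0 &&
  ctl7 f.I.tm f.lm f.nw g outs f.ld nn (Nat.mul f.pq f.pq) (Nat.mul f.pq pa) (Nat.mul pa pa)
    f.kq k1 &&
  ctl7 f.I.tm f.lm f.nw g outs f.ld nn (Nat.mul 2 (Nat.mul f.pq f.pq))
    (Nat.mul f.pq (Nat.add pa pb)) (Nat.mul 2 (Nat.mul pa pb)) f.kq k0 &&
  ctl7 f.I.tm f.lm f.nw g outs f.ld nn (Nat.mul 2 (Nat.mul f.pq f.pq))
    (Nat.mul f.pq (Nat.add pa pb)) (Nat.mul 2 (Nat.mul pa pb)) f.kq k1 &&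
  ctl7 f.I.tm f.lm f.nw g outs f.ld nn (Nat.mul f.pq f.pq) (Nat.mul f.pq pb) (Nat.mul pb pb)
    f.kq k0 &&
  ctl7 f.I.tm f.lm f.nw g outs f.ld nn (Nat.mul f.pq f.pq) (Nat.mul f.pq pb) (Nat.mul pb pb)
    f.kq k1

/-- one corner of an exclusion -/
noncomputable def exc7 (f : Fmt7) (g : G7) (outs : List ℕ) (i : ℕ × ℕ × ℕ) (p : ℕ) (k : Sg) :
    Bool :=
  Nat.ble (lsB [(i.1, Sg.m (Nat.mul f.ce (Nat.mul f.kq f.pq))),
    (i.2.1, Sg.m (Nat.mul f.ce (Nat.mul f.kq p))),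
    (i.2.2, Sg.nmul (Nat.mul f.ce f.pq) (Sg.neg k)), (f.one, Sg.m 1)]) f.nw &&
  Nat.beq (Nat.land (slinN g.W g.m outs [(i.1, Sg.m (Nat.mul f.ce (Nat.mul f.kq f.pq))),
    (i.2.1, Sg.m (Nat.mul f.ce (Nat.mul f.kq p))),
    (i.2.2, Sg.nmul (Nat.mul f.ce f.pq) (Sg.neg k)), (f.one, Sg.m 1)]) g.m) g.m

noncomputable def excl7 (f : Fmt7) (g : G7) (outs : List ℕ) (i : ℕ × ℕ × ℕ) (pa pb : ℕ)
    (k0 k1 : Sg) : Bool :=
  exc7 f g outs i pa k0 && exc7 f g outs i pa k1 && exc7 f g outs i pb k0 && exc7 f g outs i pb k1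

/-- validity -/
def Fmt7.Valid (f : Fmt7) : Prop :=
  0 < f.kq ∧ 0 < f.ld ∧ 0 < f.pq ∧ 0 < f.ce ∧ f.T.okB = true ∧
    f.nw * f.T.n0 * (f.T.nx ^ f.T.D * f.T.ny ^ f.T.E) < 2 ^ f.T.β ∧
    f.I.tm.okB f.lm = true ∧ f.I.ss.length ≤ 16 ∧ ∀ x y, f.T.vals x y f.one = 1

variable {F : Fam} {c : CellP} {C : Ctx F c}

/-! ### soundness of one control matrix -/

theorem rep_ent7 {outs : List ℕ} {pol : ℕ → MP} {n0 : ℕ} {w : ℕ → ℝ} {x y : ℝ}
    (ho : ∀ i, Rep C (outs.getD i 0) (pol i) n0) (hw : ∀ i, rev x y (pol i) = w i)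
    (A0 A1 A2 K0 : ℕ) (K1 : Sg) (l : List (ℕ × ℕ × ℕ)) {lm a nw : ℕ} (hl : l.length ≤ lm)
    (ha : A0 + (A1 + A2) ≤ a) (hb : lm * (a * (K0 + K1.abs)) ≤ nw) :
    ∃ P : MP, Rep C (ent7N F.W outs A0 A1 A2 K0 K1 l) P (nw * n0) ∧
      rev x y P = zsV w (sel (A0 : ℝ) A1 A2) (sel (K0 : ℝ) (K1.val : ℝ) (K1.val : ℝ)) l := by
  have hA : ∀ i, sel A0 A1 A2 i ≤ a := fun i => (sel_le A0 A1 A2 i).trans ha
  have hK : ∀ i, (sel (Sg.p K0) K1 K1 i).abs ≤ K0 + K1.abs := by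
    intro i
    match i with
    | 0 => show K0 ≤ _; omega
    | 1 => show K1.abs ≤ _; omega
    | _ + 2 => show K1.abs ≤ _; omega
  obtain ⟨P, hP, hr⟩ := zsN_spec (b0 := 0) ho hw (sel A0 A1 A2) (sel (Sg.p K0) K1 K1) hA hK
    (v0 := 0) (P0 := 0) (by rw [Nat.zero_mul]; exact Rep'.zero) l
  refine ⟨P, ?_, ?_⟩
  · refine hP.red.mono (Nat.mul_le_mul_right _ ?_)
    rw [Nat.add_zero]
    exact (Nat.mul_le_mul_right _ hl).trans hb
  · rw [hr, rev_zero, add_zero]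
    have e1 : (fun i => ((sel A0 A1 A2 i : ℕ) : ℝ)) = sel (A0 : ℝ) A1 A2 :=
      funext fun i => sel_cast A0 A1 A2 i
    have e2 : (fun i => ((sel (Sg.p K0) K1 K1 i).val : ℝ))
        = sel (K0 : ℝ) (K1.val : ℝ) (K1.val : ℝ) := by
      funext i
      rw [sel_val]
      have : (((Sg.p K0).val : ℤ) : ℝ) = (K0 : ℝ) := by simp [Sg.val]
      rw [this]
    rw [e1, e2]

/-- value of the control form -/
noncomputable def cf7 (t : Tm7) (w : ℕ → ℝ) (c d a0 a1 a2 k0 k1 z1 z2 z3 z4 : ℝ) : ℝ :=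
  form4 (zsV w (sel (c * a0) (c * a1) (c * a2)) (sel k0 k1 k1) t.a11)
    (zsV w (sel (c * a0) (c * a1) (c * a2)) (sel k0 k1 k1) t.a12)
    (zsV w (sel (c * a0) (c * a1) (c * a2)) (sel k0 k1 k1) t.a13)
    (zsV w (sel (c * a0) (c * a1) (c * a2)) (sel k0 k1 k1) t.a14)
    (zsV w (sel (c * a0) (c * a1) (c * a2)) (sel k0 k1 k1) t.a22)
    (zsV w (sel (c * a0) (c * a1) (c * a2)) (sel k0 k1 k1) t.a23)
    (zsV w (sel (c * a0) (c * a1) (c * a2)) (sel k0 k1 k1) t.a24)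
    (zsV w (sel (c * a0) (c * a1) (c * a2)) (sel k0 k1 k1) t.a33)
    (zsV w (sel (c * a0) (c * a1) (c * a2)) (sel k0 k1 k1) t.a34)
    (zsV w (sel (d * a0) (d * a1) (d * a2)) (sel k0 k1 k1) t.a44) z1 z2 z3 z4

theorem ok7_len {m : ℕ} {l : List (ℕ × ℕ × ℕ)} (h : ok7 m l = true) : l.length ≤ m := by
  unfold ok7 at h
  rw [Bool.and_eq_true, Nat.ble_eq] at h
  exact h.1

theorem ok7_lin {m : ℕ} {l : List (ℕ × ℕ × ℕ)} (h : ok7 m l = true) : ∀ t ∈ l, t.2.1 ≤ 1 := by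
  unfold ok7 at h
  rw [Bool.and_eq_true, List.all_eq_true] at h
  intro t ht
  exact Nat.le_of_ble_eq_true (h.2 t ht)

theorem ctl7_sound {outs : List ℕ} {pol : ℕ → MP} {n0 nw lm : ℕ} {w : ℕ → ℝ} {x y : ℝ}
    (ho : ∀ i, Rep C (outs.getD i 0) (pol i) n0)
    (hn : nw * n0 * (F.nx ^ F.D * F.ny ^ F.E) < 2 ^ F.β)
    (hw : ∀ i, rev x y (pol i) = w i) (hxy : c.In x y) (t : Tm7) (ht : t.okB lm = true)
    (ld nn A0 A1 A2 K0 : ℕ) (K1 : Sg)
    (h : ctl7 t lm nw F.g7 outs ld nn A0 A1 A2 K0 K1 = true) (z1 z2 z3 z4 : ℝ) :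
    0 ≤ cf7 t w ld nn A0 A1 A2 K0 K1.val z1 z2 z3 z4 := by
  unfold ctl7 at h
  rw [Bool.and_eq_true] at h
  obtain ⟨hb, h⟩ := h
  simp only [frc_eq] at h
  have hb' : lm * ((ld + nn) * (A0 + (A1 + A2)) * (K0 + K1.abs)) ≤ nw := by
    have := Nat.le_of_ble_eq_true hb
    rw [Sg.absN_eq] at this
    exact this
  unfold Tm7.okB at ht
  simp only [Bool.and_eq_true] at ht
  obtain ⟨⟨⟨⟨⟨⟨⟨⟨⟨l1, l2⟩, l3⟩, l4⟩, l5⟩, l6⟩, l7⟩, l8⟩, l9⟩, l10⟩ := ht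
  have hA : Nat.mul ld A0 + (Nat.mul ld A1 + Nat.mul ld A2) ≤ (ld + nn) * (A0 + (A1 + A2)) := by
    show ld * A0 + (ld * A1 + ld * A2) ≤ _
    rw [← Nat.mul_add, ← Nat.mul_add]
    exact Nat.mul_le_mul_right _ (Nat.le_add_right _ _)
  have hB : Nat.mul nn A0 + (Nat.mul nn A1 + Nat.mul nn A2) ≤ (ld + nn) * (A0 + (A1 + A2)) := by
    show nn * A0 + (nn * A1 + nn * A2) ≤ _
    rw [← Nat.mul_add, ← Nat.mul_add]
    exact Nat.mul_le_mul_right _ (Nat.le_add_left _ _)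
  have cA : ∀ a b : ℕ, ((Nat.mul a b : ℕ) : ℝ) = (a : ℝ) * b := fun a b => by
    have : Nat.mul a b = a * b := rfl
    rw [this]; push_cast; rfl
  obtain ⟨P1, r1, e1⟩ := rep_ent7 (C := C) ho hw _ _ _ K0 K1 t.a11 (ok7_len l1) hA hb'
  obtain ⟨P2, r2, e2⟩ := rep_ent7 (C := C) ho hw _ _ _ K0 K1 t.a12 (ok7_len l2) hA hb'
  obtain ⟨P3, r3, e3⟩ := rep_ent7 (C := C) ho hw _ _ _ K0 K1 t.a13 (ok7_len l3) hA hb'
  obtain ⟨P4, r4, e4⟩ := rep_ent7 (C := C) ho hw _ _ _ K0 K1 t.a14 (ok7_len l4) hA hb'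
  obtain ⟨P5, r5, e5⟩ := rep_ent7 (C := C) ho hw _ _ _ K0 K1 t.a22 (ok7_len l5) hA hb'
  obtain ⟨P6, r6, e6⟩ := rep_ent7 (C := C) ho hw _ _ _ K0 K1 t.a23 (ok7_len l6) hA hb'
  obtain ⟨P7, r7, e7⟩ := rep_ent7 (C := C) ho hw _ _ _ K0 K1 t.a24 (ok7_len l7) hA hb'
  obtain ⟨P8, r8, e8⟩ := rep_ent7 (C := C) ho hw _ _ _ K0 K1 t.a33 (ok7_len l8) hA hb'
  obtain ⟨P9, r9, e9⟩ := rep_ent7 (C := C) ho hw _ _ _ K0 K1 t.a34 (ok7_len l9) hA hb'
  obtain ⟨P10, r10, e10⟩ := rep_ent7 (C := C) ho hw _ _ _ K0 K1 t.a44 (ok7_len l10) hB hb'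
  have key := syl4_sound (C := C)
    (q := mat7 t F.W outs (Nat.mul ld A0) (Nat.mul ld A1) (Nat.mul ld A2) (Nat.mul nn A0)
      (Nat.mul nn A1) (Nat.mul nn A2) K0 K1)
    r1 r2 r3 r4 r5 r6 r7 r8 r9 r10 hn h x y hxy z1 z2 z3 z4
  rw [e1, e2, e3, e4, e5, e6, e7, e8, e9, e10] at key
  simp only [cA] at key
  exact key

/-! ### combination of the control forms -/

theorem zsV_aff (w : ℕ → ℝ) (A : ℕ → ℝ) (a b c c' : ℝ) (l : List (ℕ × ℕ × ℕ))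
    (h : ∀ t ∈ l, t.2.1 ≤ 1) : zsV w A (sel a b c) l = zsV w A (sel a b c') l := by
  induction l with
  | nil => rfl
  | cons t l ih =>
    rw [zsV_cons, zsV_cons, ih fun s hs => h s (List.mem_cons_of_mem _ hs)]
    have h1 := h t List.mem_cons_self
    congr 2
    rcases Nat.lt_succ_iff_lt_or_eq.mp (Nat.lt_succ_of_le h1) with h2 | h2
    · have h3 : t.2.1 = 0 := by omega
      rw [h3]; rfl
    · rw [h2]; rfl

theorem ent_key (w : ℕ → ℝ) {s t u v q r p k p0 p1 k0 k1 c : ℝ} (hst : s + t = 1)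
    (huv : u + v = 1) (hp : s * p0 + t * p1 = q * p) (hk : u * k0 + v * k1 = r * k)
    (l : List (ℕ × ℕ × ℕ)) (hl : ∀ t ∈ l, t.2.1 ≤ 1) :
    c * (q ^ 2 * r) * ent7 w p k l =
      s ^ 2 * u * zsV w (sel (c * (q * q)) (c * (q * p0)) (c * (p0 * p0))) (sel r k0 k0) l
      + s ^ 2 * v * zsV w (sel (c * (q * q)) (c * (q * p0)) (c * (p0 * p0))) (sel r k1 k1) l
      + s * t * u * zsV w (sel (c * (2 * (q * q))) (c * (q * (p0 + p1))) (c * (2 * (p0 * p1))))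
        (sel r k0 k0) l
      + s * t * v * zsV w (sel (c * (2 * (q * q))) (c * (q * (p0 + p1))) (c * (2 * (p0 * p1))))
        (sel r k1 k1) l
      + t ^ 2 * u * zsV w (sel (c * (q * q)) (c * (q * p1)) (c * (p1 * p1))) (sel r k0 k0) l
      + t ^ 2 * v * zsV w (sel (c * (q * q)) (c * (q * p1)) (c * (p1 * p1))) (sel r k1 k1) l := by
  have B := zsV_bilin w l (s ^ 2) (s * t) (t ^ 2) u v 0
    (sel (c * (q * q)) (c * (q * p0)) (c * (p0 * p0)))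
    (sel (c * (2 * (q * q))) (c * (q * (p0 + p1))) (c * (2 * (p0 * p1))))
    (sel (c * (q * q)) (c * (q * p1)) (c * (p1 * p1)))
    (sel r k0 k0) (sel r k1 k1) (sel 0 0 0)
  rw [LF6.fun_sel, LF6.fun_sel] at B
  have st2 : (s + t) * (s + t) = 1 := by rw [hst, one_mul]
  have z1 : s ^ 2 * (c * (q * q)) + s * t * (c * (2 * (q * q))) + t ^ 2 * (c * (q * q))
      = (c * q ^ 2) * 1 := by rw [← st2]; ring
  have z2 : s ^ 2 * (c * (q * p0)) + s * t * (c * (q * (p0 + p1))) + t ^ 2 * (c * (q * p1))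
      = (c * q ^ 2) * p := by
    have : (c * q ^ 2) * p = c * q * ((s + t) * (q * p)) := by rw [hst]; ring
    rw [this, ← hp]; ring
  have z3 : s ^ 2 * (c * (p0 * p0)) + s * t * (c * (2 * (p0 * p1))) + t ^ 2 * (c * (p1 * p1))
      = (c * q ^ 2) * p ^ 2 := by
    have : (c * q ^ 2) * p ^ 2 = c * ((q * p) * (q * p)) := by ring
    rw [this, ← hp]; ring
  have w1 : u * r + v * r + 0 * 0 = r * 1 := by
    have : u * r + v * r + 0 * 0 = (u + v) * r := by ring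
    rw [this, huv]; ring
  have w2 : u * k0 + v * k1 + 0 * 0 = r * k := by rw [← hk]; ring
  rw [z1, z2, z3, w1, w2, ← LF6.fun_selm] at B
  have e1 : zsV w (fun i => c * q ^ 2 * sel 1 p (p ^ 2) i) (sel (r * 1) (r * k) (r * k)) l =
      c * (q ^ 2 * r) * ent7 w p k l := by
    rw [zsV_aff w _ (r * 1) (r * k) (r * k) (r * (k ^ 2)) l hl, ← LF6.fun_selm, zsV_mul]
    unfold ent7
    ring
  rw [← e1, B]
  ring

theorem form_key (t : Tm7) {lm : ℕ} (ht : t.okB lm = true) (w : ℕ → ℝ)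
    {s t' u v q r p k p0 p1 k0 k1 c d n : ℝ} (hst : s + t' = 1)
    (huv : u + v = 1) (hp : s * p0 + t' * p1 = q * p) (hk : u * k0 + v * k1 = r * k)
    (hn : c * n = d) (z1 z2 z3 z4 : ℝ) :
    c * (q ^ 2 * r) * t.form w p k n z1 z2 z3 z4 =
      s ^ 2 * u * cf7 t w c d (q * q) (q * p0) (p0 * p0) r k0 z1 z2 z3 z4
      + s ^ 2 * v * cf7 t w c d (q * q) (q * p0) (p0 * p0) r k1 z1 z2 z3 z4
      + s * t' * u * cf7 t w c d (2 * (q * q)) (q * (p0 + p1)) (2 * (p0 * p1)) r k0 z1 z2 z3 z4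
      + s * t' * v * cf7 t w c d (2 * (q * q)) (q * (p0 + p1)) (2 * (p0 * p1)) r k1 z1 z2 z3 z4
      + t' ^ 2 * u * cf7 t w c d (q * q) (q * p1) (p1 * p1) r k0 z1 z2 z3 z4
      + t' ^ 2 * v * cf7 t w c d (q * q) (q * p1) (p1 * p1) r k1 z1 z2 z3 z4 := by
  unfold Tm7.okB at ht
  simp only [Bool.and_eq_true] at ht
  obtain ⟨⟨⟨⟨⟨⟨⟨⟨⟨l1, l2⟩, l3⟩, l4⟩, l5⟩, l6⟩, l7⟩, l8⟩, l9⟩, l10⟩ := ht
  have E1 := ent_key w (c := c) hst huv hp hk t.a11 (ok7_lin l1)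
  have E2 := ent_key w (c := c) hst huv hp hk t.a12 (ok7_lin l2)
  have E3 := ent_key w (c := c) hst huv hp hk t.a13 (ok7_lin l3)
  have E4 := ent_key w (c := c) hst huv hp hk t.a14 (ok7_lin l4)
  have E5 := ent_key w (c := c) hst huv hp hk t.a22 (ok7_lin l5)
  have E6 := ent_key w (c := c) hst huv hp hk t.a23 (ok7_lin l6)
  have E7 := ent_key w (c := c) hst huv hp hk t.a24 (ok7_lin l7)
  have E8 := ent_key w (c := c) hst huv hp hk t.a33 (ok7_lin l8)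
  have E9 := ent_key w (c := c) hst huv hp hk t.a34 (ok7_lin l9)
  have E10 := ent_key w (c := d) hst huv hp hk t.a44 (ok7_lin l10)
  have E10' : c * (q ^ 2 * r) * (n * ent7 w p k t.a44) = d * (q ^ 2 * r) * ent7 w p k t.a44 := by
    rw [← hn]; ring
  unfold Tm7.form cf7 form4
  generalize ent7 w p k t.a11 = x1 at *
  generalize ent7 w p k t.a12 = x2 at *
  generalize ent7 w p k t.a13 = x3 at *
  generalize ent7 w p k t.a14 = x4 at *
  generalize ent7 w p k t.a22 = x5 at *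
  generalize ent7 w p k t.a23 = x6 at *
  generalize ent7 w p k t.a24 = x7 at *
  generalize ent7 w p k t.a33 = x8 at *
  generalize ent7 w p k t.a34 = x9 at *
  generalize ent7 w p k t.a44 = x10 at *
  linear_combination z1 ^ 2 * E1 + 2 * z1 * z2 * E2 + 2 * z1 * z3 * E3 + 2 * z1 * z4 * E4
    + z2 ^ 2 * E5 + 2 * z2 * z3 * E6 + 2 * z2 * z4 * E7 + z3 ^ 2 * E8 + 2 * z3 * z4 * E9
    + z4 ^ 2 * E10' + z4 ^ 2 * E10

/-! ### the relation -/

theorem rel7_sound {outs : List ℕ} {pol : ℕ → MP} {n0 nw : ℕ} {w : ℕ → ℝ} {x y : ℝ}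
    (ho : ∀ i, Rep C (outs.getD i 0) (pol i) n0)
    (hn : nw * n0 * (F.nx ^ F.D * F.ny ^ F.E) < 2 ^ F.β)
    (hw : ∀ i, rev x y (pol i) = w i) (hxy : c.In x y) (I : Id7) (hs : I.ss.length ≤ 16)
    (K0 : ℕ) (K1 K2 : Sg) (L : ℕ) (S : Sg)
    (h : rel7 I nw F.g7 outs K0 K1 K2 L S = true) :
    0 ≤ L * w I.r0 + S.val * msV w (sel (K0 : ℝ) (K1.val : ℝ) (K2.val : ℝ)) I.ss := by
  unfold rel7 at h
  rw [Bool.and_eq_true, Nat.ble_eq] at h
  exact relN_sound (C := C) ho hn hw hxy I.toId6 hs K0 K1 K2 L S h.1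
    (Nat.eq_of_beq_eq_true h.2)

theorem rel7_key (w : ℕ → ℝ) (ss : List (ℕ × ℕ)) {r0 : ℕ} {u v r k k0 k1 d n : ℝ}
    (hu : 0 ≤ u) (hv : 0 ≤ v) (huv : u + v = 1) (hk : u * k0 + v * k1 = r * k) (hr : 0 < r)
    (hd : 0 < d)
    (h1 : 0 ≤ 2 * (r * r) * d * w r0
      + -n * msV w (sel (2 * (r * r)) (2 * r * k0) (2 * (k0 * k0))) ss)
    (h2 : 0 ≤ 2 * (r * r) * d * w r0
      + -n * msV w (sel (2 * (r * r)) (r * (k0 + k1)) (2 * (k0 * k1))) ss)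
    (h3 : 0 ≤ 2 * (r * r) * d * w r0
      + -n * msV w (sel (2 * (r * r)) (2 * r * k1) (2 * (k1 * k1))) ss) :
    n / d * msV w (sel 1 k (k ^ 2)) ss ≤ w r0 := by
  have B := msV_lin w ss (u ^ 2) (2 * u * v) (v ^ 2)
    (sel (2 * (r * r)) (2 * r * k0) (2 * (k0 * k0)))
    (sel (2 * (r * r)) (r * (k0 + k1)) (2 * (k0 * k1)))
    (sel (2 * (r * r)) (2 * r * k1) (2 * (k1 * k1)))
  rw [LF6.fun_sel] at B
  have uv2 : (u + v) * (u + v) = 1 := by rw [huv, one_mul]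
  have w1 : u ^ 2 * (2 * (r * r)) + 2 * u * v * (2 * (r * r)) + v ^ 2 * (2 * (r * r))
      = 2 * r ^ 2 * 1 := by rw [← uv2]; ring
  have w2 : u ^ 2 * (2 * r * k0) + 2 * u * v * (r * (k0 + k1)) + v ^ 2 * (2 * r * k1)
      = 2 * r ^ 2 * k := by
    have : 2 * r ^ 2 * k = 2 * r * ((u + v) * (r * k)) := by rw [huv]; ring
    rw [this, ← hk]; ring
  have w3 : u ^ 2 * (2 * (k0 * k0)) + 2 * u * v * (2 * (k0 * k1)) + v ^ 2 * (2 * (k1 * k1))
      = 2 * r ^ 2 * k ^ 2 := by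
    have : 2 * r ^ 2 * k ^ 2 = 2 * ((r * k) * (r * k)) := by ring
    rw [this, ← hk]; ring
  rw [w1, w2, w3, ← LF6.fun_selm, msV_mul] at B
  have key : 2 * r ^ 2 * (d * w r0 - n * msV w (sel 1 k (k ^ 2)) ss) =
      u ^ 2 * (2 * (r * r) * d * w r0
        + -n * msV w (sel (2 * (r * r)) (2 * r * k0) (2 * (k0 * k0))) ss)
      + 2 * u * v * (2 * (r * r) * d * w r0
        + -n * msV w (sel (2 * (r * r)) (r * (k0 + k1)) (2 * (k0 * k1))) ss)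
      + v ^ 2 * (2 * (r * r) * d * w r0
        + -n * msV w (sel (2 * (r * r)) (2 * r * k1) (2 * (k1 * k1))) ss) := by
    have e : 2 * r ^ 2 * (d * w r0 - n * msV w (sel 1 k (k ^ 2)) ss) =
        (u + v) * (u + v) * (2 * r ^ 2 * d * w r0)
        - n * (2 * r ^ 2 * msV w (sel 1 k (k ^ 2)) ss) := by rw [uv2]; ring
    rw [e, B]
    ring
  have hpos : 0 ≤ 2 * r ^ 2 * (d * w r0 - n * msV w (sel 1 k (k ^ 2)) ss) := by
    rw [key]
    have := mul_nonneg hu hv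
    positivity
  have h4 := nonneg_of_mul_nonneg_right hpos (by positivity)
  rw [div_mul_eq_mul_div, div_le_iff₀ hd]
  linarith

/-! ### the leaf -/

theorem leaf7_sound (f : Fmt7) (hV : f.Valid) (h : f.T.fam.okC c = true) (pa pb : ℕ)
    (k0 k1 : Sg) (nn : ℕ)
    (hl : leaf7 f f.T.fam.g7 (f.T.outs f.T.fam.W c) pa pb k0 k1 nn = true)
    (x y : ℝ) (hxy : c.In x y) (s t u v p k : ℝ) (hs : 0 ≤ s) (ht : 0 ≤ t) (hst : s + t = 1)
    (hp : s * pa + t * pb = f.pq * p) (hu : 0 ≤ u) (hv : 0 ≤ v) (huv : u + v = 1)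
    (hk : u * k0.val + v * k1.val = f.kq * k) :
    ∃ n : ℝ, 0 < n ∧ (∀ z1 z2 z3 z4, 0 ≤ f.I.tm.form (f.T.vals x y) p k n z1 z2 z3 z4) ∧
      n * msV (f.T.vals x y) (sel 1 k (k ^ 2)) f.I.ss ≤ f.T.vals x y f.I.r0 := by
  obtain ⟨hkq, hld, hpq, hce, hF, hn, hB, hss, -⟩ := hV
  unfold leaf7 at hl
  simp only [Bool.and_eq_true, Nat.blt_eq] at hl
  obtain ⟨⟨⟨⟨⟨⟨⟨⟨⟨hnn, r1⟩, r2⟩, r3⟩, m1⟩, m2⟩, m3⟩, m4⟩, m5⟩, m6⟩ := hl
  have ho := fun i => Tab.rep_outs hF h i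
  have hrev := fun i => f.T.rev_pol x y i
  have q1 := rel7_sound (C := f.T.fam.ctx c h) ho hn hrev hxy f.I hss _ _ _ _ _ r1
  have q2 := rel7_sound (C := f.T.fam.ctx c h) ho hn hrev hxy f.I hss _ _ _ _ _ r2
  have q3 := rel7_sound (C := f.T.fam.ctx c h) ho hn hrev hxy f.I hss _ _ _ _ _ r3
  have F1 := ctl7_sound (C := f.T.fam.ctx c h) ho hn hrev hxy f.I.tm hB _ _ _ _ _ _ _ m1
  have F2 := ctl7_sound (C := f.T.fam.ctx c h) ho hn hrev hxy f.I.tm hB _ _ _ _ _ _ _ m2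
  have F3 := ctl7_sound (C := f.T.fam.ctx c h) ho hn hrev hxy f.I.tm hB _ _ _ _ _ _ _ m3
  have F4 := ctl7_sound (C := f.T.fam.ctx c h) ho hn hrev hxy f.I.tm hB _ _ _ _ _ _ _ m4
  have F5 := ctl7_sound (C := f.T.fam.ctx c h) ho hn hrev hxy f.I.tm hB _ _ _ _ _ _ _ m5
  have F6 := ctl7_sound (C := f.T.fam.ctx c h) ho hn hrev hxy f.I.tm hB _ _ _ _ _ _ _ m6
  clear r1 r2 r3 m1 m2 m3 m4 m5 m6 ho hrev
  have mulc : ∀ a b : ℕ, ((Nat.mul a b : ℕ) : ℝ) = a * b := fun a b => by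
    have : Nat.mul a b = a * b := rfl
    rw [this]; push_cast; ring
  have addc : ∀ a b : ℕ, ((Nat.add a b : ℕ) : ℝ) = a + b := fun a b => by
    have : Nat.add a b = a + b := rfl
    rw [this]; push_cast; ring
  have nmc : ∀ (a : ℕ) (b : Sg), (((Sg.nmul a b).val : ℤ) : ℝ) = a * b.val := fun a b => by
    rw [Sg.val_nmul]; push_cast; ring
  have smc : ∀ (a b : Sg), (((Sg.mul a b).val : ℤ) : ℝ) = a.val * b.val := fun a b => by
    rw [Sg.val_mul]; push_cast; ring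
  have sac : ∀ (a b : Sg), (((Sg.add' a b).val : ℤ) : ℝ) = a.val + b.val := fun a b => by
    rw [Sg.val_add']; push_cast; ring
  have negc : (((Sg.m nn).val : ℤ) : ℝ) = -(nn : ℝ) := by simp [Sg.val]
  simp only [mulc, addc, nmc, smc, sac, negc, Nat.cast_ofNat] at q1 q2 q3
  simp only [mulc, addc, Nat.cast_ofNat] at F1 F2 F3
  simp only [mulc, addc, Nat.cast_ofNat] at F4 F5 F6
  have hkq' : (0 : ℝ) < f.kq := by exact_mod_cast hkq
  have hld' : (0 : ℝ) < f.ld := by exact_mod_cast hld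
  have hpq' : (0 : ℝ) < f.pq := by exact_mod_cast hpq
  have hnn' : (0 : ℝ) < nn := by exact_mod_cast hnn
  refine ⟨(nn : ℝ) / f.ld, by positivity, fun z1 z2 z3 z4 => ?_, ?_⟩
  · have key := form_key f.I.tm hB (f.T.vals x y) (c := f.ld) (d := nn) (n := (nn : ℝ) / f.ld)
      hst huv hp hk (by field_simp) z1 z2 z3 z4
    have hpos : 0 ≤ (f.ld : ℝ) * ((f.pq : ℝ) ^ 2 * f.kq) *
        f.I.tm.form (f.T.vals x y) p k ((nn : ℝ) / f.ld) z1 z2 z3 z4 := by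
      rw [key]
      have a1 := F1 z1 z2 z3 z4
      have a2 := F2 z1 z2 z3 z4
      have a3 := F3 z1 z2 z3 z4
      have a4 := F4 z1 z2 z3 z4
      have a5 := F5 z1 z2 z3 z4
      have a6 := F6 z1 z2 z3 z4
      positivity
    exact nonneg_of_mul_nonneg_right hpos (by positivity)
  · exact rel7_key (f.T.vals x y) f.I.ss hu hv huv hk hkq' hld' (by
      refine q1.trans (le_of_eq ?_); ring_nf) (by
      refine q2.trans (le_of_eq ?_); ring_nf) (by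
      refine q3.trans (le_of_eq ?_); ring_nf)

/-! ### exclusions -/

theorem exc7_sound (f : Fmt7) (hV : f.Valid) (h : f.T.fam.okC c = true) (i : ℕ × ℕ × ℕ) (p : ℕ)
    (k : Sg) (hl : exc7 f f.T.fam.g7 (f.T.outs f.T.fam.W c) i p k = true)
    (x y : ℝ) (hxy : c.In x y) :
    f.ce * (f.kq * f.pq * f.T.vals x y i.1 + f.kq * p * f.T.vals x y i.2.1
      + f.pq * k.val * f.T.vals x y i.2.2) + 1 ≤ 0 := by
  obtain ⟨hkq, hld, hpq, hce, hF, hn, hB, hss, hone⟩ := hV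
  unfold exc7 at hl
  rw [Bool.and_eq_true, Nat.ble_eq] at hl
  have ho := fun i => Tab.rep_outs hF h i
  have hrev := fun i => f.T.rev_pol x y i
  have key := slin_sound (C := f.T.fam.ctx c h) ho hn hrev _ hl.1
    (Nat.eq_of_beq_eq_true hl.2) hxy
  unfold lsR at key
  simp only [List.foldr] at key
  have mulc : ∀ a b : ℕ, Nat.mul a b = a * b := fun a b => rfl
  have e1 : ∀ a : ℕ, (((Sg.m a).val : ℤ) : ℝ) = -(a : ℝ) := fun a => by simp [Sg.val]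
  rw [e1, e1, e1, Sg.val_nmul, Sg.val_neg, hone x y] at key
  simp only [mulc] at key
  push_cast at key
  nlinarith

theorem excl7_sound (f : Fmt7) (hV : f.Valid) (h : f.T.fam.okC c = true) (i : ℕ × ℕ × ℕ)
    (pa pb : ℕ) (k0 k1 : Sg)
    (hl : excl7 f f.T.fam.g7 (f.T.outs f.T.fam.W c) i pa pb k0 k1 = true)
    (x y : ℝ) (hxy : c.In x y) (s t u v p k : ℝ) (hs : 0 ≤ s) (ht : 0 ≤ t) (hst : s + t = 1)
    (hp : s * pa + t * pb = f.pq * p) (hu : 0 ≤ u) (hv : 0 ≤ v) (huv : u + v = 1)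
    (hk : u * k0.val + v * k1.val = f.kq * k) :
    f.T.vals x y i.1 + p * f.T.vals x y i.2.1 + k * f.T.vals x y i.2.2 < 0 := by
  unfold excl7 at hl
  simp only [Bool.and_eq_true] at hl
  obtain ⟨⟨⟨g1, g2⟩, g3⟩, g4⟩ := hl
  have q1 := exc7_sound f hV h i pa k0 g1 x y hxy
  have q2 := exc7_sound f hV h i pa k1 g2 x y hxy
  have q3 := exc7_sound f hV h i pb k0 g3 x y hxy
  have q4 := exc7_sound f hV h i pb k1 g4 x y hxy
  obtain ⟨hkq, hld, hpq, hce, -⟩ := hV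
  have h1q : (0 : ℝ) < f.kq := by exact_mod_cast hkq
  have h2q : (0 : ℝ) < f.ce := by exact_mod_cast hce
  have h3q : (0 : ℝ) < f.pq := by exact_mod_cast hpq
  set w := f.T.vals x y
  have e : f.ce * (f.kq * f.pq * (w i.1 + p * w i.2.1 + k * w i.2.2)) + 1 =
      s * u * (f.ce * (f.kq * f.pq * w i.1 + f.kq * pa * w i.2.1 + f.pq * k0.val * w i.2.2) + 1)
      + s * v * (f.ce * (f.kq * f.pq * w i.1 + f.kq * pa * w i.2.1 + f.pq * k1.val * w i.2.2) + 1)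
      + t * u * (f.ce * (f.kq * f.pq * w i.1 + f.kq * pb * w i.2.1 + f.pq * k0.val * w i.2.2) + 1)
      + t * v * (f.ce * (f.kq * f.pq * w i.1 + f.kq * pb * w i.2.1 + f.pq * k1.val * w i.2.2)
        + 1) := by
    have e1 : f.ce * (f.kq * f.pq * (w i.1 + p * w i.2.1 + k * w i.2.2)) + 1 =
      f.ce * (f.kq * f.pq * w i.1 * ((s + t) * (u + v)) + f.kq * (f.pq * p) * w i.2.1 * (u + v)
        + f.pq * (f.kq * k) * w i.2.2 * (s + t)) + (s + t) * (u + v) := by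
      rw [hst, huv]; ring
    rw [e1, ← hk, ← hp]
    ring
  have h5 : f.ce * (f.kq * f.pq * (w i.1 + p * w i.2.1 + k * w i.2.2)) + 1 ≤ 0 := by
    rw [e]
    have a1 := mul_nonneg (mul_nonneg hs hu) (neg_nonneg.mpr q1)
    have a2 := mul_nonneg (mul_nonneg hs hv) (neg_nonneg.mpr q2)
    have a3 := mul_nonneg (mul_nonneg ht hu) (neg_nonneg.mpr q3)
    have a4 := mul_nonneg (mul_nonneg ht hv) (neg_nonneg.mpr q4)
    linarith
  have h6 : 0 < (f.ce : ℝ) * (f.kq * f.pq) := by positivity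
  by_contra hc
  push Not at hc
  have := mul_nonneg h6.le hc
  linarith

/-! ### trees -/

/-- trees in `(p, κ)` -/
inductive Pt7
  /-- leaf with its number (numerator) -/
  | lf (n : ℕ)
  /-- exclusion by the constraint with indices `a b c` -/
  | ex (i : ℕ)
  | sp (m : ℕ) (a b : Pt7)
  | sk (m : ℤ) (a b : Pt7)

/-- trees in `(x, y, p, κ)`; the outputs are computed at `cl` -/
inductive Tree7
  | cl (t : Pt7)
  | sx (m : ℤ) (a b : Tree7)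
  | sy (m : ℤ) (a b : Tree7)
  | sp (m : ℕ) (a b : Tree7)
  | sk (m : ℤ) (a b : Tree7)

/-- member of the list of constraints -/
noncomputable def nthc (l : List (ℕ × ℕ × ℕ)) : ℕ → (ℕ × ℕ × ℕ → Bool) → Bool :=
  List.rec (motive := fun _ => ℕ → (ℕ × ℕ × ℕ → Bool) → Bool) (fun _ _ => false)
    (fun a _ ih i k => Nat.rec (motive := fun _ => Bool) (k a) (fun j _ => ih j k) i) l

theorem nthc_sound (l : List (ℕ × ℕ × ℕ)) : ∀ (i : ℕ) (k : ℕ × ℕ × ℕ → Bool), nthc l i k = true →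
    ∃ a ∈ l, k a = true := by
  induction l with
  | nil => intro i k h; exact absurd h (by simp [nthc])
  | cons a l ih =>
    intro i k h
    cases i with
    | zero => exact ⟨a, List.mem_cons_self, h⟩
    | succ i =>
      obtain ⟨b, hb, hk⟩ := ih i k h
      exact ⟨b, List.mem_cons_of_mem _ hb, hk⟩

noncomputable def Pt7.ok (f : Fmt7) (g : G7) (outs : List ℕ) (t : Pt7) : ℕ → ℕ → ℤ → ℤ → Bool :=
  Pt7.rec (motive := fun _ => ℕ → ℕ → ℤ → ℤ → Bool)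
    (fun n pa pb ka kb => leaf7 f g outs pa pb (Sg.ofInt ka) (Sg.ofInt kb) n)
    (fun i pa pb ka kb => nthc f.I.cons i fun c =>
      excl7 f g outs c pa pb (Sg.ofInt ka) (Sg.ofInt kb))
    (fun m _ _ ia ib pa pb ka kb => ia pa m ka kb && ib m pb ka kb)
    (fun m _ _ ia ib pa pb ka kb => ia pa pb ka m && ib pa pb m kb) t

/-- the check of a cell -/
noncomputable def cell7 (f : Fmt7) (g : G7) (c : CellP) (t : Pt7) (pa pb : ℕ) (ka kb : ℤ) : Bool :=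
  f.T.fam.okC c && f.T.outsC g.W c fun outs => t.ok f g outs pa pb ka kb

noncomputable def Tree7.ok (f : Fmt7) (g : G7) (t : Tree7) : ℤ → ℤ → ℤ → ℤ → ℕ → ℕ → ℤ → ℤ → Bool :=
  Tree7.rec (motive := fun _ => ℤ → ℤ → ℤ → ℤ → ℕ → ℕ → ℤ → ℤ → Bool)
    (fun t xa xb ya yb pa pb ka kb => cell7 f g ⟨xa, xb, f.xq, ya, yb, f.yq⟩ t pa pb ka kb)
    (fun m _ _ ia ib xa xb ya yb pa pb ka kb =>
      ia xa m ya yb pa pb ka kb && ib m xb ya yb pa pb ka kb)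
    (fun m _ _ ia ib xa xb ya yb pa pb ka kb =>
      ia xa xb ya m pa pb ka kb && ib xa xb m yb pa pb ka kb)
    (fun m _ _ ia ib xa xb ya yb pa pb ka kb =>
      ia xa xb ya yb pa m ka kb && ib xa xb ya yb m pb ka kb)
    (fun m _ _ ia ib xa xb ya yb pa pb ka kb =>
      ia xa xb ya yb pa pb ka m && ib xa xb ya yb pa pb m kb) t

/-- the whole check, with forced global numbers -/
noncomputable def Fmt7.run (f : Fmt7) (t : Tree7) (b : Bx7) : Bool :=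
  (frc f.T.fam.W fun W => frc f.T.fam.msk fun m => frc (f.T.fam.β + 1) fun K =>
    frc (2 ^ (f.T.fam.β + 1)) fun B => frc f.T.fam.Zs fun Z => frc f.T.fam.Hs fun H =>
    frc (f.T.fam.Zs - 2 ^ f.T.fam.β) fun hc => frc ((f.T.fam.D + 1) * (f.T.fam.E + 1)) fun n =>
    t.ok f ⟨W, m, K, B, Z, H, hc, n⟩ b.xa b.xb b.ya b.yb b.pa b.pb b.ka b.kb)

/-- the conclusion on a box -/
def Fmt7.Cov (f : Fmt7) (b : Bx7) : Prop :=
  ∀ x y p k : ℝ, b.In f.xq f.yq f.pq f.kq x y p k → f.I.Good (f.T.vals x y) p k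

theorem seg {a b z : ℝ} (h1 : a ≤ z) (h2 : z ≤ b) :
    ∃ s t : ℝ, 0 ≤ s ∧ 0 ≤ t ∧ s + t = 1 ∧ s * a + t * b = z := by
  rcases (h1.trans h2).lt_or_eq with h | h
  · have h3 : 0 < b - a := by linarith
    refine ⟨(b - z) / (b - a), (z - a) / (b - a), div_nonneg (by linarith) h3.le,
      div_nonneg (by linarith) h3.le, ?_, ?_⟩
    · field_simp; ring
    · field_simp; ring
  · refine ⟨1, 0, zero_le_one, le_rfl, by ring, ?_⟩
    rw [h] at h1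
    linarith

theorem Pt7.ok_sound (f : Fmt7) (hV : f.Valid) (h : f.T.fam.okC c = true) (t : Pt7) :
    ∀ (pa pb : ℕ) (ka kb : ℤ), t.ok f f.T.fam.g7 (f.T.outs f.T.fam.W c) pa pb ka kb = true →
    ∀ x y p k : ℝ, c.In x y → (pa : ℝ) ≤ f.pq * p → f.pq * p ≤ pb → (ka : ℝ) ≤ f.kq * k →
    f.kq * k ≤ kb → f.I.Good (f.T.vals x y) p k := by
  induction t with
  | lf n =>
    intro pa pb ka kb hl x y p k hxy h1 h2 h3 h4
    obtain ⟨s, t, hs, ht, hst, hp⟩ := seg h1 h2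
    obtain ⟨u, v, hu, hv, huv, hk⟩ := seg h3 h4
    intro _
    exact leaf7_sound f hV h pa pb (Sg.ofInt ka) (Sg.ofInt kb) n hl x y hxy s t u v p k hs ht hst
      hp hu hv huv (by rw [Sg.val_ofInt, Sg.val_ofInt]; exact hk)
  | ex i =>
    intro pa pb ka kb hl x y p k hxy h1 h2 h3 h4
    obtain ⟨s, t, hs, ht, hst, hp⟩ := seg h1 h2
    obtain ⟨u, v, hu, hv, huv, hk⟩ := seg h3 h4
    intro hcons
    obtain ⟨a, ha, hx⟩ := nthc_sound f.I.cons i _ hl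
    have := excl7_sound f hV h a pa pb (Sg.ofInt ka) (Sg.ofInt kb) hx x y hxy s t u v p k hs ht
      hst hp hu hv huv (by rw [Sg.val_ofInt, Sg.val_ofInt]; exact hk)
    exact absurd (hcons a ha) (not_le.mpr this)
  | sp m a b iha ihb =>
    intro pa pb ka kb hl x y p k hxy h1 h2 h3 h4
    have hl' : (a.ok f f.T.fam.g7 (f.T.outs f.T.fam.W c) pa m ka kb &&
      b.ok f f.T.fam.g7 (f.T.outs f.T.fam.W c) m pb ka kb) = true := hl
    rw [Bool.and_eq_true] at hl'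
    rcases le_total (f.pq * p : ℝ) m with hm | hm
    · exact iha pa m ka kb hl'.1 x y p k hxy h1 hm h3 h4
    · exact ihb m pb ka kb hl'.2 x y p k hxy hm h2 h3 h4
  | sk m a b iha ihb =>
    intro pa pb ka kb hl x y p k hxy h1 h2 h3 h4
    have hl' : (a.ok f f.T.fam.g7 (f.T.outs f.T.fam.W c) pa pb ka m &&
      b.ok f f.T.fam.g7 (f.T.outs f.T.fam.W c) pa pb m kb) = true := hl
    rw [Bool.and_eq_true] at hl'
    rcases le_total (f.kq * k : ℝ) m with hm | hm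
    · exact iha pa pb ka m hl'.1 x y p k hxy h1 h2 h3 hm
    · exact ihb pa pb m kb hl'.2 x y p k hxy h1 h2 hm h4

theorem Tree7.ok_sound (f : Fmt7) (hV : f.Valid) (t : Tree7) :
    ∀ (xa xb ya yb : ℤ) (pa pb : ℕ) (ka kb : ℤ),
    t.ok f f.T.fam.g7 xa xb ya yb pa pb ka kb = true →
    f.Cov ⟨xa, xb, ya, yb, pa, pb, ka, kb⟩ := by
  induction t with
  | cl t =>
    intro xa xb ya yb pa pb ka kb hl x y p k hb
    have hl' : (f.T.fam.okC ⟨xa, xb, f.xq, ya, yb, f.yq⟩ &&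
      f.T.outsC f.T.fam.W ⟨xa, xb, f.xq, ya, yb, f.yq⟩ fun outs =>
        t.ok f f.T.fam.g7 outs pa pb ka kb) = true := hl
    rw [Bool.and_eq_true, Tab.outsC_eq] at hl'
    obtain ⟨h1, h2, h3, h4, h5, h6, h7, h8⟩ := hb
    exact Pt7.ok_sound f hV hl'.1 t pa pb ka kb hl'.2 x y p k ⟨h1, h2, h3, h4⟩ h5 h6 h7 h8
  | sx m a b iha ihb =>
    intro xa xb ya yb pa pb ka kb hl x y p k hb
    have hl' : (a.ok f f.T.fam.g7 xa m ya yb pa pb ka kb &&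
      b.ok f f.T.fam.g7 m xb ya yb pa pb ka kb) = true := hl
    rw [Bool.and_eq_true] at hl'
    obtain ⟨h1, h2, h3⟩ := hb
    rcases le_total (f.xq * x : ℝ) m with hm | hm
    · exact iha xa m ya yb pa pb ka kb hl'.1 x y p k ⟨h1, hm, h3⟩
    · exact ihb m xb ya yb pa pb ka kb hl'.2 x y p k ⟨hm, h2, h3⟩
  | sy m a b iha ihb =>
    intro xa xb ya yb pa pb ka kb hl x y p k hb
    have hl' : (a.ok f f.T.fam.g7 xa xb ya m pa pb ka kb &&
      b.ok f f.T.fam.g7 xa xb m yb pa pb ka kb) = true := hl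
    rw [Bool.and_eq_true] at hl'
    obtain ⟨h1, h2, h3, h4, h5⟩ := hb
    rcases le_total (f.yq * y : ℝ) m with hm | hm
    · exact iha xa xb ya m pa pb ka kb hl'.1 x y p k ⟨h1, h2, h3, hm, h5⟩
    · exact ihb xa xb m yb pa pb ka kb hl'.2 x y p k ⟨h1, h2, hm, h4, h5⟩
  | sp m a b iha ihb =>
    intro xa xb ya yb pa pb ka kb hl x y p k hb
    have hl' : (a.ok f f.T.fam.g7 xa xb ya yb pa m ka kb &&
      b.ok f f.T.fam.g7 xa xb ya yb m pb ka kb) = true := hl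
    rw [Bool.and_eq_true] at hl'
    obtain ⟨h1, h2, h3, h4, h5, h6, h7⟩ := hb
    rcases le_total (f.pq * p : ℝ) m with hm | hm
    · exact iha xa xb ya yb pa m ka kb hl'.1 x y p k ⟨h1, h2, h3, h4, h5, hm, h7⟩
    · exact ihb xa xb ya yb m pb ka kb hl'.2 x y p k ⟨h1, h2, h3, h4, hm, h6, h7⟩
  | sk m a b iha ihb =>
    intro xa xb ya yb pa pb ka kb hl x y p k hb
    have hl' : (a.ok f f.T.fam.g7 xa xb ya yb pa pb ka m &&
      b.ok f f.T.fam.g7 xa xb ya yb pa pb m kb) = true := hl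
    rw [Bool.and_eq_true] at hl'
    obtain ⟨h1, h2, h3, h4, h5, h6, h7, h8⟩ := hb
    rcases le_total (f.kq * k : ℝ) m with hm | hm
    · exact iha xa xb ya yb pa pb ka m hl'.1 x y p k ⟨h1, h2, h3, h4, h5, h6, h7, hm⟩
    · exact ihb xa xb ya yb pa pb m kb hl'.2 x y p k ⟨h1, h2, h3, h4, h5, h6, hm, h8⟩

/-- **the check of a box** -/
theorem Fmt7.cov (f : Fmt7) (hV : f.Valid) (t : Tree7) (b : Bx7) (h : f.run t b = true) :
    f.Cov b := by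
  unfold Fmt7.run at h
  simp only [frc_eq] at h
  exact Tree7.ok_sound f hV t b.xa b.xb b.ya b.yb b.pa b.pb b.ka b.kb h

/-! ### glueing of boxes -/

theorem Fmt7.Cov.sx {f : Fmt7} {xa xb ya yb : ℤ} {pa pb : ℕ} {ka kb : ℤ} (m : ℤ)
    (h1 : f.Cov ⟨xa, m, ya, yb, pa, pb, ka, kb⟩) (h2 : f.Cov ⟨m, xb, ya, yb, pa, pb, ka, kb⟩) :
    f.Cov ⟨xa, xb, ya, yb, pa, pb, ka, kb⟩ := by
  intro x y p k hb
  obtain ⟨g1, g2, g3⟩ := hb
  rcases le_total (f.xq * x : ℝ) m with hm | hm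
  · exact h1 x y p k ⟨g1, hm, g3⟩
  · exact h2 x y p k ⟨hm, g2, g3⟩

theorem Fmt7.Cov.sy {f : Fmt7} {xa xb ya yb : ℤ} {pa pb : ℕ} {ka kb : ℤ} (m : ℤ)
    (h1 : f.Cov ⟨xa, xb, ya, m, pa, pb, ka, kb⟩) (h2 : f.Cov ⟨xa, xb, m, yb, pa, pb, ka, kb⟩) :
    f.Cov ⟨xa, xb, ya, yb, pa, pb, ka, kb⟩ := by
  intro x y p k hb
  obtain ⟨g1, g2, g3, g4, g5⟩ := hb
  rcases le_total (f.yq * y : ℝ) m with hm | hm
  · exact h1 x y p k ⟨g1, g2, g3, hm, g5⟩
  · exact h2 x y p k ⟨g1, g2, hm, g4, g5⟩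

theorem Fmt7.Cov.sp {f : Fmt7} {xa xb ya yb : ℤ} {pa pb : ℕ} {ka kb : ℤ} (m : ℕ)
    (h1 : f.Cov ⟨xa, xb, ya, yb, pa, m, ka, kb⟩) (h2 : f.Cov ⟨xa, xb, ya, yb, m, pb, ka, kb⟩) :
    f.Cov ⟨xa, xb, ya, yb, pa, pb, ka, kb⟩ := by
  intro x y p k hb
  obtain ⟨g1, g2, g3, g4, g5, g6, g7⟩ := hb
  rcases le_total (f.pq * p : ℝ) m with hm | hm
  · exact h1 x y p k ⟨g1, g2, g3, g4, g5, hm, g7⟩
  · exact h2 x y p k ⟨g1, g2, g3, g4, hm, g6, g7⟩

theorem Fmt7.Cov.sk {f : Fmt7} {xa xb ya yb : ℤ} {pa pb : ℕ} {ka kb : ℤ} (m : ℤ)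
    (h1 : f.Cov ⟨xa, xb, ya, yb, pa, pb, ka, m⟩) (h2 : f.Cov ⟨xa, xb, ya, yb, pa, pb, m, kb⟩) :
    f.Cov ⟨xa, xb, ya, yb, pa, pb, ka, kb⟩ := by
  intro x y p k hb
  obtain ⟨g1, g2, g3, g4, g5, g6, g7, g8⟩ := hb
  rcases le_total (f.kq * k : ℝ) m with hm | hm
  · exact h1 x y p k ⟨g1, g2, g3, g4, g5, g6, g7, hm⟩
  · exact h2 x y p k ⟨g1, g2, g3, g4, g5, g6, hm, g8⟩

/-- the constant table `1` -/
theorem Tab.vals_one (T : Tab) (i : ℕ) (h : T.cf.getD i [] = [[Sg.p 1]]) (x y : ℝ) :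
    T.vals x y i = 1 := by
  unfold Tab.vals
  rw [h]
  have e : ∀ n : ℕ, dot2 [[Sg.p 1]] (rows T.E x y n 1) = 1 := by
    intro n
    have e1 : ∀ m : ℕ, dot [Sg.p 1] (row y m 1) = 1 := by
      intro m
      cases m <;> simp [row, dot, Sg.val]
    cases n with
    | zero => simp only [rows, dot2, e1, add_zero]
    | succ n => simp only [rows, dot2, e1, add_zero]
  exact e T.D

/-- is it the table of the constant `1`? -/
def isOne7 : List (List Sg) → Bool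
  | [[Sg.p 1]] => true
  | _ => false

theorem isOne7_sound {l : List (List Sg)} (h : isOne7 l = true) : l = [[Sg.p 1]] := by
  unfold isOne7 at h
  split at h
  · rfl
  · exact absurd h (by simp)

/-- decidable form of validity -/
def Fmt7.validB (f : Fmt7) : Bool :=
  Nat.blt 0 f.kq && Nat.blt 0 f.ld && Nat.blt 0 f.pq && Nat.blt 0 f.ce && f.T.okB &&
  Nat.blt (f.nw * f.T.n0 * (f.T.nx ^ f.T.D * f.T.ny ^ f.T.E)) (2 ^ f.T.β) &&
  f.I.tm.okB f.lm && Nat.ble f.I.ss.length 16 && isOne7 (f.T.cf.getD f.one [])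

theorem Fmt7.valid (f : Fmt7) (h : f.validB = true) : f.Valid := by
  unfold Fmt7.validB at h
  simp only [Bool.and_eq_true, Nat.blt_eq, Nat.ble_eq] at h
  obtain ⟨⟨⟨⟨⟨⟨⟨⟨h1, h2⟩, h3⟩, h4⟩, h5⟩, h6⟩, h7⟩, h8⟩, h9⟩ := h
  exact ⟨h1, h2, h3, h4, h5, h6, h7, h8, fun x y => Tab.vals_one _ _ (isOne7_sound h9) x y⟩

end Vale.Agent.P211.H237
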