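import Vale.Agent.P211.H56.Skel
import Mathlib.Topology.ContinuousMap.Weierstrass

set_option linter.all false

/-! P211, block L-ANA (helper56): functions of one variable of class `C¹` of `√(n+e²)`. -/

namespace Vale.Agent.P211.H56

open Topology Filter MeasureTheory Set
open scoped ContDiff
open Vale.Agent.P211 Vale.Agent.P211.S4

theorem exists_antideriv (p : Polynomial ℝ) : ∃ q : Polynomial ℝ, Polynomial.derivative q = p := by
  induction p using Polynomial.induction_on' with
  | add p q hp hq =>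
    obtain ⟨a, ha⟩ := hp
    obtain ⟨b, hb⟩ := hq
    exact ⟨a + b, by rw [Polynomial.derivative_add, ha, hb]⟩
  | monomial n a =>
    refine ⟨Polynomial.monomial (n + 1) (a / (n + 1)), ?_⟩
    rw [Polynomial.derivative_monomial]
    have : ((n : ℝ) + 1) ≠ 0 := by positivity
    simp
    field_simp

theorem approx_C1 {γ γ' : ℝ → ℝ} (hγ : ∀ x, HasDerivAt γ (γ' x) x) (hc : Continuous γ') {R : ℝ}
    (hR : 0 ≤ R) {ε : ℝ} (hε : 0 < ε) : ∃ Q : Polynomial ℝ, ∀ x ∈ Icc 0 R,
      |Q.eval x - γ x| ≤ ε ∧ |(Polynomial.derivative Q).eval x - γ' x| ≤ ε := by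
  obtain ⟨η, hη⟩ : ∃ η, η = ε / (R + 1) := ⟨_, rfl⟩
  have hη0 : 0 < η := by rw [hη]; positivity
  have hηε : η ≤ ε := by rw [hη]; exact div_le_self hε.le (by linarith)
  have hηR : η * R ≤ ε := by
    rw [hη, div_mul_eq_mul_div, div_le_iff₀ (by positivity)]
    nlinarith
  obtain ⟨p, hp⟩ := exists_polynomial_near_of_continuousOn 0 R γ' hc.continuousOn η hη0
  obtain ⟨q, hq⟩ := exists_antideriv p
  refine ⟨q + Polynomial.C (γ 0 - q.eval 0), fun x hx => ⟨?_, ?_⟩⟩
  · have h1 : ∀ y ∈ Icc 0 R, HasDerivWithinAt (fun y => q.eval y - γ y) (p.eval y - γ' y) (Icc 0 R) y :=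
      fun y hy => by
        have := (q.hasDerivAt y).sub (hγ y)
        rw [hq] at this
        exact this.hasDerivWithinAt
    have h2 := Convex.norm_image_sub_le_of_norm_hasDerivWithin_le (C := η) h1
      (fun y hy => by rw [Real.norm_eq_abs]; exact (hp y hy).le) (convex_Icc 0 R)
      (left_mem_Icc.2 hR) hx
    simp only [Real.norm_eq_abs, Polynomial.eval_add, Polynomial.eval_C, sub_zero] at h2 ⊢
    have h3 : Polynomial.eval x q - γ x - (Polynomial.eval 0 q - γ 0) =
      Polynomial.eval x q + (γ 0 - Polynomial.eval 0 q) - γ x := by ring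
    rw [h3] at h2
    refine h2.trans ?_
    rw [abs_of_nonneg hx.1]
    exact (mul_le_mul_of_nonneg_left hx.2 hη0.le).trans hηR
  · rw [Polynomial.derivative_add, Polynomial.derivative_C, add_zero, hq]
    exact (hp x hx).le.trans hηε

end Vale.Agent.P211.H56
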