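import Vale.Agent.P211.H56.Calc

set_option linter.all false

/-! P211, block L-ANA (helper56): the strong maximum principle. -/

namespace Vale.Agent.P211.H56

open Topology Filter MeasureTheory Set
open scoped ContDiff
open Vale.Agent.P211 Vale.Agent.P211.S4

variable {M 𝒪 V : Type*} [TopologicalSpace M] [CommRing 𝒪] [Algebra ℝ 𝒪]
    [AddCommGroup V] [Module 𝒪 V] {G : Geo2 M 𝒪 V}

/-- Closed sets, neither empty nor everything, are touched from outside at a single point by a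
domain `ρ < ρ z` with smooth boundary (true on connected manifolds). -/
def Touch (G : Geo2 M 𝒪 V) : Prop :=
  ∀ Z : Set M, IsClosed Z → Z.Nonempty → Z ≠ univ → ∃ z ∈ Z, ∃ ρ : 𝒪,
    0 < G.ev z (G.g (G.grad ρ) (G.grad ρ)) ∧
    ∀ᶠ y in 𝓝 z, y ∈ Z → y ≠ z → G.ev z ρ < G.ev y ρ

/-- the barrier -/
theorem exists_barrier (ρ : 𝒪) (z : M) (C : ℝ) (h : 0 < G.ev z (G.g (G.grad ρ) (G.grad ρ))) :
    ∃ b : 𝒪, G.ev z b = 0 ∧ (∀ y, G.ev z ρ < G.ev y ρ → G.ev y b < 0) ∧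
      ∀ᶠ y in 𝓝 z, C * G.ev y b < G.ev y (G.lap b) := by
  obtain ⟨s0, hs0⟩ : ∃ s0, s0 = G.ev z ρ := ⟨_, rfl⟩
  obtain ⟨g0, hg0⟩ : ∃ g0, g0 = G.ev z (G.g (G.grad ρ) (G.grad ρ)) := ⟨_, rfl⟩
  obtain ⟨L, hL⟩ : ∃ L, L = G.ev z (G.lap ρ) := ⟨_, rfl⟩
  rw [← hg0] at h
  obtain ⟨α, hα0, hα⟩ : ∃ α : ℝ, 0 < α ∧ L < α * g0 := by
    refine ⟨(|L| + 1) / g0, by positivity, ?_⟩
    rw [div_mul_cancel₀ _ h.ne']
    linarith [le_abs_self L]
  have hsm : ContDiff ℝ ∞ (fun s : ℝ => Real.exp (-α * (s - s0)) - 1) := by fun_prop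
  have hd1 : deriv (fun s : ℝ => Real.exp (-α * (s - s0)) - 1)
      = fun s => -α * Real.exp (-α * (s - s0)) := by
    ext s
    have : HasDerivAt (fun s : ℝ => Real.exp (-α * (s - s0)) - 1)
        (Real.exp (-α * (s - s0)) * (-α * 1)) s :=
      ((((hasDerivAt_id s).sub_const s0).const_mul (-α)).exp).sub_const 1
    rw [this.deriv]; ring
  have hd2 : deriv (fun s : ℝ => -α * Real.exp (-α * (s - s0)))
      = fun s => α ^ 2 * Real.exp (-α * (s - s0)) := by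
    ext s
    have : HasDerivAt (fun s : ℝ => -α * Real.exp (-α * (s - s0)))
        (-α * (Real.exp (-α * (s - s0)) * (-α * 1))) s :=
      ((((hasDerivAt_id s).sub_const s0).const_mul (-α)).exp).const_mul (-α)
    rw [this.deriv]; ring
  obtain ⟨b, hb0, -, hb2⟩ := comp_lap (G := G) ρ _ fun q => hsm.contDiffAt
  rw [hd1] at hb2
  rw [hd2] at hb2
  have hbz : G.ev z b = 0 := by
    rw [hb0, ← hs0]; simp
  refine ⟨b, hbz, ?_, ?_⟩
  · intro y hy
    rw [hb0]
    have h1 : Real.exp (-α * (G.ev y ρ - s0)) < 1 := by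
      rw [Real.exp_lt_one_iff]
      rw [← hs0] at hy
      nlinarith
    linarith
  · have h1 : ContinuousAt (fun y => G.ev y (G.lap b) - C * G.ev y b) z :=
      ((G.ev_cont _).sub (continuous_const.mul (G.ev_cont _))).continuousAt
    have h2 : 0 < G.ev z (G.lap b) - C * G.ev z b := by
      rw [hbz, hb2, ← hs0, ← hg0, ← hL]
      simp only [sub_self, mul_zero, Real.exp_zero, mul_one, sub_zero]
      nlinarith
    filter_upwards [h1.eventually (lt_mem_nhds h2)] with y hy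
    linarith

/-- **Strong maximum principle.** -/
theorem smp [CompactSpace M] [T2Space M] (hT : Touch G) (f : 𝒪) (C : ℝ) (hC : 0 ≤ C)
    (hf : ∀ q, 0 ≤ G.ev q f)
    (hlap : ∀ q, G.ev q f = 0 → ∀ᶠ y in 𝓝 q, G.ev y (G.lap f) ≤ C * G.ev y f) :
    (∀ q, 0 < G.ev q f) ∨ ∀ q, G.ev q f = 0 := by
  by_contra hcon
  push Not at hcon
  obtain ⟨⟨q1, hq1⟩, ⟨q2, hq2⟩⟩ := hcon
  obtain ⟨Z, hZ⟩ : ∃ Z : Set M, Z = {q | G.ev q f = 0} := ⟨_, rfl⟩
  have hZc : IsClosed Z := by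
    rw [hZ]; exact isClosed_eq (G.ev_cont f) continuous_const
  have hZn : Z.Nonempty := ⟨q1, by rw [hZ]; exact le_antisymm hq1 (hf q1)⟩
  have hZu : Z ≠ univ := by
    intro h
    apply hq2
    have : q2 ∈ Z := by rw [h]; exact mem_univ _
    rw [hZ] at this; exact this
  obtain ⟨z, hz, ρ, hρ, hev⟩ := hT Z hZc hZn hZu
  have hz0 : G.ev z f = 0 := by rw [hZ] at hz; exact hz
  obtain ⟨b, hbz, hbneg, hblap⟩ := exists_barrier ρ z C hρ
  -- a compact neighbourhood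
  obtain ⟨K, ⟨hKn, hKc⟩, hKs⟩ := (closed_nhds_basis z).mem_iff.1 ((hev.and hblap).and (hlap z hz0))
  have hKs' : ∀ y ∈ K, (y ∈ Z → y ≠ z → G.ev z ρ < G.ev y ρ) ∧
      C * G.ev y b < G.ev y (G.lap b) ∧ G.ev y (G.lap f) ≤ C * G.ev y f := fun y hy =>
    ⟨(hKs hy).1.1, (hKs hy).1.2, (hKs hy).2⟩
  have hzK : z ∈ interior K := mem_interior_iff_mem_nhds.2 hKn
  -- choice of epsilon
  obtain ⟨ε, hε, hεB⟩ : ∃ ε : ℝ, 0 < ε ∧ ∀ y ∈ K \ interior K, 0 < G.ev y f - ε * G.ev y b := by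
    have hBc : IsClosed ((K \ interior K) ∩ {y | 0 ≤ G.ev y b}) :=
      (hKc.sdiff isOpen_interior).inter (isClosed_le continuous_const (G.ev_cont b))
    obtain ⟨H, hH⟩ : ∃ H : ℝ, ∀ y, G.ev y b ≤ H := by
      have h1 : IsCompact (range fun y => G.ev y b) := isCompact_range (G.ev_cont b)
      obtain ⟨H, hH⟩ := h1.bddAbove
      exact ⟨H, fun y => hH (mem_range_self y)⟩
    have hpos : ∀ y ∈ (K \ interior K) ∩ {y | 0 ≤ G.ev y b}, 0 < G.ev y f := by
      rintro y ⟨⟨hyK, hyi⟩, hyb⟩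
      rcases (hf y).lt_or_eq with h | h
      · exact h
      · exfalso
        have h1 : y ∈ Z := by rw [hZ]; exact h.symm
        have h2 : y ≠ z := fun h => hyi (h ▸ hzK)
        have h3 := hbneg y ((hKs' y hyK).1 h1 h2)
        exact absurd hyb (not_le.2 h3)
    obtain ⟨δ, hδ, hδ2⟩ : ∃ δ : ℝ, 0 < δ ∧
        ∀ y ∈ (K \ interior K) ∩ {y | 0 ≤ G.ev y b}, δ ≤ G.ev y f := by
      rcases ((K \ interior K) ∩ {y | 0 ≤ G.ev y b}).eq_empty_or_nonempty with h | h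
      · exact ⟨1, one_pos, fun y hy => by rw [h] at hy; exact absurd hy (notMem_empty y)⟩
      · obtain ⟨y0, hy0, hmin⟩ := hBc.isCompact.exists_isMinOn h (G.ev_cont f).continuousOn
        exact ⟨G.ev y0 f, hpos y0 hy0, fun y hy => hmin hy⟩
    refine ⟨δ / (|H| + 1) / 2, by positivity, ?_⟩
    rintro y ⟨hyK, hyi⟩
    rcases le_or_gt 0 (G.ev y b) with h | h
    · have h1 := hδ2 y ⟨⟨hyK, hyi⟩, h⟩
      have h2 : G.ev y b ≤ |H| + 1 := (hH y).trans (by linarith [le_abs_self H])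
      have h3 : δ / (|H| + 1) / 2 * G.ev y b ≤ δ / 2 := by
        have h4 : δ / (|H| + 1) / 2 * (|H| + 1) = δ / 2 := by
          have : (|H| + 1) ≠ 0 := by positivity
          field_simp
        rw [← h4]
        exact mul_le_mul_of_nonneg_left h2 (by positivity)
      linarith
    · have h1 := hf y
      have h2 : 0 < δ / (|H| + 1) / 2 := by positivity
      nlinarith
  -- the minimum
  have hcont : Continuous (fun y => G.ev y f - ε * G.ev y b) :=
    (G.ev_cont f).sub (continuous_const.mul (G.ev_cont b))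
  obtain ⟨y0, hy0, hmin⟩ := hKc.isCompact.exists_isMinOn ⟨z, interior_subset hzK⟩
    hcont.continuousOn
  have hle : G.ev y0 f - ε * G.ev y0 b ≤ 0 := by
    have : G.ev y0 f - ε * G.ev y0 b ≤ G.ev z f - ε * G.ev z b := hmin (interior_subset hzK)
    rw [hz0, hbz] at this
    linarith
  have hyint : y0 ∈ interior K := by
    by_contra h
    have := hεB y0 ⟨hy0, h⟩
    linarith
  have hloc : IsLocalMin (fun q => G.ev q (f - ε • b)) y0 := by
    have h1 : K ∈ 𝓝 y0 := mem_interior_iff_mem_nhds.1 hyint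
    filter_upwards [h1] with y hy
    have := hmin hy
    simp only [mem_setOf_eq] at this
    simp only [map_sub, map_smul, smul_eq_mul]
    exact this
  have hL := lap_nonneg_of_min hloc
  rw [lap_sub, lap_smul, map_sub, map_smul, smul_eq_mul] at hL
  obtain ⟨-, h2, h3⟩ := hKs' y0 hy0
  have h4 : ε * (C * G.ev y0 b) < ε * G.ev y0 (G.lap b) := mul_lt_mul_of_pos_left h2 hε
  have h5 : C * (G.ev y0 f) ≤ C * (ε * G.ev y0 b) := mul_le_mul_of_nonneg_left (by linarith) hC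
  nlinarith

end Vale.Agent.P211.H56
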