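import Vale.Agent.P211.H56.Orient2
import Vale.Agent.P211.H56.Smp

set_option linter.all false

/-! P211, block L-ANA (helper56): either `n = m = 1` everywhere or nowhere. -/

namespace Vale.Agent.P211.H56

open Topology Filter MeasureTheory Set
open scoped ContDiff
open Vale.Agent.P211 Vale.Agent.P211.S4

variable {M 𝒪 V : Type*} [TopologicalSpace M] [CommRing 𝒪] [Algebra ℝ 𝒪]
    [AddCommGroup V] [Module 𝒪 V] {G : Geo2 M 𝒪 V}

/-- a smooth function which is the fourth root for large arguments -/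
noncomputable def root4 (s : ℝ) : ℝ := Real.smoothTransition (8 * s - 1) * Real.sqrt (Real.sqrt s)

theorem root4_smooth (s : ℝ) : ContDiffAt ℝ ∞ root4 s := by
  rcases lt_or_ge s (1 / 8) with h | h
  · have h1 : root4 =ᶠ[𝓝 s] fun _ => 0 := by
      filter_upwards [gt_mem_nhds h] with t ht
      unfold root4
      rw [Real.smoothTransition.zero_of_nonpos (by linarith), zero_mul]
    exact contDiffAt_const.congr_of_eventuallyEq h1
  · have h0 : s ≠ 0 := by linarith
    have h1 : Real.sqrt s ≠ 0 := by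
      have : 0 < Real.sqrt s := Real.sqrt_pos.2 (by linarith)
      exact this.ne'
    unfold root4
    refine ContDiffAt.mul ?_ ?_
    · exact (Real.smoothTransition.contDiff.contDiffAt).comp s (by fun_prop)
    · exact (Real.contDiffAt_sqrt h0).sqrt h1

theorem root4_nonneg (s : ℝ) : 0 ≤ root4 s :=
  mul_nonneg (Real.smoothTransition.nonneg _) (Real.sqrt_nonneg _)

theorem root4_le (s : ℝ) : root4 s ≤ Real.sqrt (Real.sqrt s) := by
  unfold root4
  have := Real.smoothTransition.le_one (8 * s - 1)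
  have h2 := Real.sqrt_nonneg (Real.sqrt s)
  nlinarith

theorem root4_eq {s : ℝ} (h : 1 / 4 ≤ s) : root4 s = Real.sqrt (Real.sqrt s) := by
  unfold root4
  rw [Real.smoothTransition.one_of_one_le (by linarith), one_mul]

/-- `Δ n^{1/4} ≥ 3 n^{1/4} (1 - n^{1/2})` where `n > 1/4`. -/
theorem lap_root4 {n X : 𝒪} (hn : NFun G n) (hX : ∀ q, G.ev q X = root4 (G.ev q n)) {q : M}
    (hq : 1 / 4 < G.ev q n) :
    3 * G.ev q X * (1 - G.ev q X ^ 2) ≤ G.ev q (G.lap X) := by
  have hsq : ∀ {t : ℝ}, 0 ≤ t → Real.sqrt (Real.sqrt t) ^ 4 = t := by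
    intro t ht
    have : Real.sqrt (Real.sqrt t) ^ 4 = (Real.sqrt (Real.sqrt t) ^ 2) ^ 2 := by ring
    rw [this, Real.sq_sqrt (Real.sqrt_nonneg _), Real.sq_sqrt ht]
  have hev : ∀ᶠ y in 𝓝 q, G.ev y n = G.ev y ((X * X) * (X * X)) := by
    have h1 : ∀ᶠ y in 𝓝 q, 1 / 4 < G.ev y n := (G.ev_cont n).continuousAt.eventually (lt_mem_nhds hq)
    filter_upwards [h1] with y hy
    simp only [map_mul]
    rw [hX, root4_eq hy.le]
    have := hsq (hn.nonneg y)
    linear_combination -this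
  have hx0 : 0 < G.ev q X := by
    rw [hX, root4_eq hq.le]
    exact Real.sqrt_pos.2 (Real.sqrt_pos.2 (by linarith))
  have hn4 : G.ev q n = G.ev q X ^ 4 := by
    rw [hev.self_of_nhds]; simp only [map_mul]; ring
  have hs : Real.sqrt (G.ev q n) = G.ev q X ^ 2 := by
    rw [hn4, show G.ev q X ^ 4 = (G.ev q X ^ 2) ^ 2 by ring]
    exact Real.sqrt_sq (by positivity)
  have hl : G.ev q (G.lap n) = 4 * G.ev q X ^ 3 * G.ev q (G.lap X) +
      12 * G.ev q X ^ 2 * G.ev q (G.g (G.grad X) (G.grad X)) := by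
    rw [lap_local hev, lap_mul, lap_mul]
    have hg : G.g (G.grad (X * X)) (G.grad (X * X)) = 4 * X * X * G.g (G.grad X) (G.grad X) := by
      rw [G.grad_spec, G.D_mul, ← G.grad_spec X, G.g_symm, G.grad_spec, G.D_mul, ← G.grad_spec X]
      ring
    rw [hg]
    have h2 : G.ev q (2 : 𝒪) = 2 := map_ofNat _ 2
    have h4 : G.ev q (4 : 𝒪) = 4 := map_ofNat _ 4
    simp only [map_mul, map_add, h2, h4]
    ring
  have hgr : G.ev q (G.g (G.grad n) (G.grad n)) = 16 * G.ev q X ^ 6 *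
      G.ev q (G.g (G.grad X) (G.grad X)) := by
    obtain ⟨F, hF⟩ := G.frame q
    have hF' : G.ON q F := hF
    rw [grad_sq n hF', grad_sq X hF', Finset.mul_sum]
    refine Finset.sum_congr rfl fun i _ => ?_
    rw [G.D_local q n _ hev, G.D_mul, G.D_mul]
    simp only [map_mul, map_add]
    ring
  have h := hn.ineq q
  rw [hs, hl, hgr, hn4] at h
  have hx := hx0
  have h7 : 0 < 4 * G.ev q X ^ 7 := by positivity
  have h8 : 0 ≤ 4 * G.ev q X ^ 7 * (G.ev q (G.lap X) - 3 * G.ev q X * (1 - G.ev q X ^ 2)) := by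
    linear_combination h
  have h9 := nonneg_of_mul_nonneg_right h8 h7
  linarith

theorem dich_alg {a b : ℝ} (a0 : 0 ≤ a) (b0 : 0 ≤ b) (c0 : a ^ 2 + b ^ 2 ≤ 2)
    (f0 : 0 ≤ 2 - a - b) :
    0 ≤ 3 * a * (1 - a ^ 2) + 3 * b * (1 - b ^ 2) + 12 * (2 - a - b) := by
  have h5 : 0 ≤ (a + b) * (2 - (a ^ 2 + b ^ 2)) := mul_nonneg (by linarith) (by linarith)
  have h6 : 0 ≤ (2 - a - b) * (8 - (a + b) * (2 + (a + b))) := by
    apply mul_nonneg (by linarith)
    nlinarith
  nlinarith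

/-- **Dichotomy.** -/
theorem dichotomy [CompactSpace M] [T2Space M] (hT : Touch G) {n m : 𝒪} (hn : NFun G n)
    (hm : NFun G m) (h2 : ∀ q, Real.sqrt (G.ev q n) + Real.sqrt (G.ev q m) ≤ 2) :
    (∀ q, G.ev q n = 1 ∧ G.ev q m = 1) ∨ ∀ q, ¬ (G.ev q n = 1 ∧ G.ev q m = 1) := by
  obtain ⟨X, hX⟩ := G.comp n root4 fun q => root4_smooth _
  obtain ⟨Y, hY⟩ := G.comp m root4 fun q => root4_smooth _
  have hX0 : ∀ q, G.ev q X = root4 (G.ev q n) := fun q => (hX q).1
  have hY0 : ∀ q, G.ev q Y = root4 (G.ev q m) := fun q => (hY q).1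
  have hXle : ∀ q, G.ev q X ^ 2 ≤ Real.sqrt (G.ev q n) := fun q => by
    rw [hX0, ← Real.sq_sqrt (Real.sqrt_nonneg (G.ev q n))]
    exact pow_le_pow_left₀ (root4_nonneg _) (root4_le _) 2
  have hYle : ∀ q, G.ev q Y ^ 2 ≤ Real.sqrt (G.ev q m) := fun q => by
    rw [hY0, ← Real.sq_sqrt (Real.sqrt_nonneg (G.ev q m))]
    exact pow_le_pow_left₀ (root4_nonneg _) (root4_le _) 2
  have hXY : ∀ q, G.ev q X ^ 2 + G.ev q Y ^ 2 ≤ 2 := fun q => by
    linarith [hXle q, hYle q, h2 q]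
  have hXn : ∀ q, 0 ≤ G.ev q X := fun q => by rw [hX0]; exact root4_nonneg _
  have hYn : ∀ q, 0 ≤ G.ev q Y := fun q => by rw [hY0]; exact root4_nonneg _
  have hev2 : ∀ q, G.ev q (algebraMap ℝ 𝒪 2) = 2 := fun q => by rw [AlgHom.commutes]; simp
  obtain ⟨f, hf⟩ : ∃ f : 𝒪, f = algebraMap ℝ 𝒪 2 - X - Y := ⟨_, rfl⟩
  have hfe : ∀ q, G.ev q f = 2 - G.ev q X - G.ev q Y := fun q => by
    rw [hf, map_sub, map_sub, hev2]
  have hf0 : ∀ q, 0 ≤ G.ev q f := fun q => by
    rw [hfe]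
    nlinarith [hXY q, sq_nonneg (G.ev q X - 1), sq_nonneg (G.ev q Y - 1)]
  -- zeros of f
  have hz : ∀ q, G.ev q f = 0 ↔ (G.ev q n = 1 ∧ G.ev q m = 1) := by
    intro q
    constructor
    · intro h
      rw [hfe] at h
      have hx1 : G.ev q X = 1 := by
        nlinarith [hXY q, sq_nonneg (G.ev q X - 1), sq_nonneg (G.ev q Y - 1)]
      have hy1 : G.ev q Y = 1 := by linarith
      have e1 : 1 ≤ Real.sqrt (G.ev q n) := by have := hXle q; rw [hx1] at this; linarith
      have e2 : 1 ≤ Real.sqrt (G.ev q m) := by have := hYle q; rw [hy1] at this; linarith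
      have e3 := h2 q
      have e4 : Real.sqrt (G.ev q n) = 1 := by linarith
      have e5 : Real.sqrt (G.ev q m) = 1 := by linarith
      have e6 := Real.sq_sqrt (hn.nonneg q)
      have e7 := Real.sq_sqrt (hm.nonneg q)
      rw [e4] at e6
      rw [e5] at e7
      exact ⟨by linarith, by linarith⟩
    · rintro ⟨h1, h3⟩
      rw [hfe, hX0, hY0, h1, h3, root4_eq (by norm_num)]
      simp only [Real.sqrt_one]
      norm_num
  have hlap : ∀ q, G.ev q f = 0 → ∀ᶠ y in 𝓝 q, G.ev y (G.lap f) ≤ 12 * G.ev y f := by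
    intro q hq
    obtain ⟨h1, h3⟩ := (hz q).1 hq
    have e1 : ∀ᶠ y in 𝓝 q, 1 / 4 < G.ev y n :=
      (G.ev_cont n).continuousAt.eventually (lt_mem_nhds (show 1 / 4 < G.ev q n by rw [h1]; norm_num))
    have e2 : ∀ᶠ y in 𝓝 q, 1 / 4 < G.ev y m :=
      (G.ev_cont m).continuousAt.eventually (lt_mem_nhds (show 1 / 4 < G.ev q m by rw [h3]; norm_num))
    filter_upwards [e1, e2] with y hy1 hy2
    have k1 := lap_root4 hn hX0 hy1
    have k2 := lap_root4 hm hY0 hy2
    have k3 : G.ev y (G.lap f) = - G.ev y (G.lap X) - G.ev y (G.lap Y) := by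
      rw [hf, lap_sub, lap_sub, lap_alg', map_sub, map_sub, map_zero]; ring
    rw [k3, hfe]
    have a0 := hXn y
    have b0 := hYn y
    have c0 := hXY y
    have f0 := hf0 y
    rw [hfe] at f0
    have key := dich_alg a0 b0 c0 f0
    linarith
  rcases smp hT f 12 (by norm_num) hf0 hlap with h | h
  · right
    intro q hq
    exact (h q).ne' ((hz q).2 hq)
  · left
    intro q
    exact (hz q).1 (h q)

end Vale.Agent.P211.H56
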