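import Vale.Agent.P211.H56.CoreOf

set_option linter.all false

/-! P211 (helper56): from the certificate to the trichotomy, with additional a-priori information
and with the ratio at least one. -/

namespace Vale.Agent.P211.H56

open Topology Filter MeasureTheory Set
open scoped ContDiff
open Vale.Agent.P211 Vale.Agent.P211.S4

variable {M 𝒪 V : Type*} [TopologicalSpace M] [CommRing 𝒪] [Algebra ℝ 𝒪]
    [AddCommGroup V] [Module 𝒪 V] {G : Geo2 M 𝒪 V} {om : V → V → V → V → 𝒪}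

/-- `P` is a family of pointwise data at `q`. -/
def AtP (G : Geo2 M 𝒪 V) (n dl b m dl' b' : 𝒪) (q : M) (P : Pt) : Prop :=
  ∃ (F : Fin 4 → V) (Q κ' σ' Q' : ℝ) (z' t' u' : Fin 4 → ℝ), G.ON q F ∧ P.Ok ∧
      P.N = rt G n 0 q ∧ P.M = rt G m 0 q ∧ P.p = G.ev q b ∧
      SV G q F n dl b P.N P.κ P.σ Q P.g P.z P.t P.u ∧
      SV G q F m dl' b' P.M κ' σ' Q' P.h z' t' u'

/-- A certificate for the ratios `s`, using the additional information `E`. -/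
def HasCertE (G : Geo2 M 𝒪 V) (E : Pt → Prop) {J : Type*} [Fintype J] (φ φ' ψ ψ' : J → ℝ → ℝ)
    (s : J → ℝ) : Prop :=
  ∃ (Ω : Set (ℝ × ℝ × ℝ)) (A A1 A2 A3 : Fin 4 → ℝ × ℝ × ℝ → ℝ)
    (c c' d d' cs cs' ds ds' : ℝ → ℝ) (Λ γ : J → ℝ) (B : ℝ),
    IsOpen Ω ∧ (∀ i, Sm3 G Ω (A i) (A1 i) (A2 i) (A3 i)) ∧ 0 ≤ B ∧
    Cols J 3 B c c' d d' cs cs' ds ds' Λ s φ φ' ψ ψ' ∧ cs 0 = 0 ∧ ds 0 = 0 ∧
    ∀ P : Pt, P.Ok → E P → ¬ (P.N = 1 ∧ P.M = 1) → (P.N, P.M, P.p) ∈ Ω ∧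
      0 ≤ A 0 (P.N, P.M, P.p) ∧
      0 ≤ A 2 (P.N, P.M, P.p) + 1 / 2 * (d P.M + ds P.M) ∧
      0 ≤ RR A A1 A2 A3 c c' d d' cs cs' ds ds' Λ γ s φ φ' ψ ψ' P ∧
      (0 < P.N → 0 < P.M → 0 < RR A A1 A2 A3 c c' d d' cs cs' ds ds' Λ γ s φ φ' ψ ψ' P)

/-- one orientation -/
theorem one_side [CompactSpace M] [T2Space M] [MeasurableSpace M] [BorelSpace M]
    {μ : Measure M} [IsFiniteMeasure μ] [μ.IsOpenPosMeasure] (hdiv : DivThm G μ)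
    (hP : H958.Poin G μ) (hE : G.Einstein 3) (hK : G.SecGe 0) (ho : Orient G om)
    {n dl b m dl' b' : 𝒪} (hB : Basic G om n dl b) (hB' : Basic G (omn om) m dl' b')
    (h : ∀ q, ¬ (G.ev q n = 1 ∧ G.ev q m = 1)) {E : Pt → Prop}
    (hEx : ∀ q P, AtP G n dl b m dl' b' q P → E P)
    {J : Type*} [Fintype J] {φ φ' ψ ψ' : J → ℝ → ℝ} {s : J → ℝ}
    (hs1 : ∀ j, ∫ q, Fs G (s j) (φ j) (ψ j) n m 0 q ∂μ = 0)
    (hcert : HasCertE G E φ φ' ψ ψ' s) {q0 : M} (hn0 : 0 < G.ev q0 n) (hm0 : 0 < G.ev q0 m) :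
    False := by
  have kn : KFun G n := kfun hE hK ho hB
  have km : KFun G m := kfun hE hK (orient_neg ho) hB'
  obtain ⟨Ω, A, A1, A2, A3, c, c', d, d', cs, cs', ds, ds', Λ, γ, B, hΩo, hA, hB0, hc, hcs0, hds0,
    hpos⟩ := hcert
  have hnI : ∀ q, G.ev q n ∈ Icc (0 : ℝ) (3 ^ 2 - 1) := fun q => ⟨kn.nonneg q, by
    have := kn.le q; norm_num; linarith⟩
  have hmI : ∀ q, G.ev q m ∈ Icc (0 : ℝ) (3 ^ 2 - 1) := fun q => ⟨km.nonneg q, by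
    have := km.le q; norm_num; linarith⟩
  -- the pointwise inequality
  have key : ∀ q, Ph G n m b 0 q ∈ Ω ∧
      0 ≤ TS G ![b, dl, m, n] A A1 A2 A3 c c' d d' cs cs' ds ds' Λ γ s φ φ' ψ ψ' n m b 0 q ∧
      (0 < G.ev q n → 0 < G.ev q m →
        0 < TS G ![b, dl, m, n] A A1 A2 A3 c c' d d' cs cs' ds ds' Λ γ s φ φ' ψ ψ' n m b 0 q) := by
    intro q
    obtain ⟨F, P, Q, κ', σ', Q', z', t', u', hF, hok, hN, hM, hp, hSV, hSV'⟩ :=
      exists_Pt hE hK ho hB hB' q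
    have hne : ¬ (P.N = 1 ∧ P.M = 1) := by
      rintro ⟨h3, h4⟩
      exact h q ⟨by rw [hSV.n_eq, h3]; norm_num, by rw [hSV'.n_eq, h4]; norm_num⟩
    have hEP : E P := hEx q P ⟨F, Q, κ', σ', Q', z', t', u', hF, hok, hN, hM, hp, hSV, hSV'⟩
    obtain ⟨k1, k2, k3, k4, k5⟩ := hpos P hok hEP hne
    have hge := TS_ge (Λ := Λ) (γ := γ) (s := s) (φ := φ) (φ' := φ') (ψ := ψ) (ψ' := ψ')
      (A1 := A1) (A2 := A2) (A3 := A3) (c := c) (c' := c') (d' := d') (cs' := cs') (ds' := ds')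
      hF hok hN hM hp hSV hSV' k2 k3 hcs0 hds0
    refine ⟨?_, k4.trans hge, fun h3 h4 => ?_⟩
    · have : Ph G n m b 0 q = (P.N, P.M, P.p) := by unfold Ph; rw [hN, hM, hp]
      rw [this]; exact k1
    · refine (k5 ?_ ?_).trans_le hge
      · rw [hN]; exact rt0_pos h3
      · rw [hM]; exact rt0_pos h4
  have hz := pt_zero' (z := ![b, dl, m, n]) (γ := γ) (p := b) hdiv hP hΩo hA (by norm_num)
    (by norm_num) kn km hnI hmI (fun q => (key q).1) hB0 hc hs1 (fun q => (key q).2.1) hn0 hm0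
  exact ((key q0).2.2 hn0 hm0).ne' hz

theorem omn_omn (om : V → V → V → V → 𝒪) : omn (omn om) = om := by
  funext X Y Z W
  simp [omn]

/-- **The trichotomy from the certificate**, with a-priori information `E` and one ratio at least
one. -/
theorem core_of_cert2 [CompactSpace M] [T2Space M] [MeasurableSpace M] [BorelSpace M]
    {μ : Measure M} [IsFiniteMeasure μ] [μ.IsOpenPosMeasure] (hdiv : DivThm G μ)
    (hP : H958.Poin G μ) (hT : Touch G) (hE : G.Einstein 3) (hK : G.SecGe 0) (ho : Orient G om)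
    {n dl b m dl' b' : 𝒪} (hB : Basic G om n dl b) (hB' : Basic G (omn om) m dl' b')
    {E : Pt → Prop}
    (hEx : (∀ q, ¬ (G.ev q n = 1 ∧ G.ev q m = 1)) → ∀ q P, AtP G n dl b m dl' b' q P → E P)
    (hEx' : (∀ q, ¬ (G.ev q n = 1 ∧ G.ev q m = 1)) → ∀ q P, AtP G m dl' b' n dl b q P → E P)
    {J : Type*} [Fintype J] {φ φ' ψ ψ' : J → ℝ → ℝ} (cφ : ∀ j, ContinuousOn (φ j) (Icc 0 3))
    (cψ : ∀ j, ContinuousOn (ψ j) (Icc 0 3))
    (hφ0 : ∀ j, ∀ x ∈ Icc (0 : ℝ) 2, 0 ≤ φ j x) (hφ1 : ∀ j, ∀ x ∈ Icc (1 : ℝ) 2, 0 < φ j x)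
    (hψ0 : ∀ j, ∀ x ∈ Icc (0 : ℝ) 2, 0 ≤ ψ j x) (hψ1 : ∀ j, ∀ x ∈ Icc (1 : ℝ) 2, 0 < ψ j x)
    (j0 : J) (hj0 : φ j0 = ψ j0)
    (hcert : ∀ s : J → ℝ, (∀ j, 0 < s j) → 1 ≤ s j0 → HasCertE G E φ φ' ψ ψ' s) :
    (∀ q, G.ev q n = 0) ∨ (∀ q, G.ev q m = 0) ∨ (∀ q, G.ev q n = 1 ∧ G.ev q m = 1) := by
  have ho' := orient_neg ho
  have hB2 : Basic G (omn (omn om)) n dl b := by rw [omn_omn]; exact hB
  have kn : KFun G n := kfun hE hK ho hB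
  have km : KFun G m := kfun hE hK ho' hB'
  have h2 : ∀ q, Real.sqrt (G.ev q n) + Real.sqrt (G.ev q m) ≤ 2 := fun q =>
    sqrt_add_le hE hK ho (fun p F hF => by rw [hB.n_ev p F hF, nW, nA]; ring)
      (fun p F hF => basic_nB ho hB' hF) kn.nonneg km.nonneg q
  rcases dichotomy hT kn.nfun km.nfun h2 with h | h
  · exact Or.inr (Or.inr h)
  by_cases h0 : ∀ q, G.ev q n * G.ev q m = 0
  · rcases disj hdiv hP kn km h0 with h' | h'
    · exact Or.inl h'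
    · exact Or.inr (Or.inl h')
  exfalso
  push Not at h0
  obtain ⟨q0, hq0⟩ := h0
  have hn0 : 0 < G.ev q0 n := lt_of_le_of_ne (kn.nonneg q0) fun h => hq0 (by rw [← h, zero_mul])
  have hm0 : 0 < G.ev q0 m := lt_of_le_of_ne (km.nonneg q0) fun h => hq0 (by rw [← h, mul_zero])
  have hi : ∀ {f : M → ℝ}, Continuous f → Integrable f μ := fun hf =>
    hf.integrable_of_hasCompactSupport (HasCompactSupport.of_compactSpace _)
  have h' : ∀ q, ¬ (G.ev q m = 1 ∧ G.ev q n = 1) := fun q hq => h q hq.symm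
  -- ratios
  have hφn := fun j => int_pos (μ := μ) ho kn (cφ j) (hφ0 j) (hφ1 j) hn0
  have hψm := fun j => int_pos (μ := μ) ho' km (cψ j) (hψ0 j) (hψ1 j) hm0
  have hφm := fun j => int_pos (μ := μ) ho' km (cφ j) (hφ0 j) (hφ1 j) hm0
  have hψn := fun j => int_pos (μ := μ) ho kn (cψ j) (hψ0 j) (hψ1 j) hn0
  rcases le_total (∫ q, φ j0 (rt G n 0 q) ∂μ) (∫ q, φ j0 (rt G m 0 q) ∂μ) with hle | hle
  · obtain ⟨s, hs⟩ : ∃ s : J → ℝ, s = fun j => (∫ q, ψ j (rt G m 0 q) ∂μ) /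
      ∫ q, φ j (rt G n 0 q) ∂μ := ⟨_, rfl⟩
    have hs0 : ∀ j, 0 < s j := fun j => by rw [hs]; exact div_pos (hψm j).2 (hφn j).2
    have hs1 : ∀ j, ∫ q, Fs G (s j) (φ j) (ψ j) n m 0 q ∂μ = 0 := by
      intro j
      have h1 := (hφn j).2.ne'
      unfold Fs
      rw [integral_sub ((hi (hφn j).1).const_mul _) (hi (hψm j).1), integral_const_mul, hs]
      field_simp
      ring
    have hs2 : 1 ≤ s j0 := by
      rw [hs]
      show 1 ≤ (∫ q, ψ j0 (rt G m 0 q) ∂μ) / ∫ q, φ j0 (rt G n 0 q) ∂μ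
      rw [le_div_iff₀ (hφn j0).2, one_mul, ← hj0]
      exact hle
    exact one_side hdiv hP hE hK ho hB hB' h (hEx h) hs1 (hcert s hs0 hs2) hn0 hm0
  · obtain ⟨s, hs⟩ : ∃ s : J → ℝ, s = fun j => (∫ q, ψ j (rt G n 0 q) ∂μ) /
      ∫ q, φ j (rt G m 0 q) ∂μ := ⟨_, rfl⟩
    have hs0 : ∀ j, 0 < s j := fun j => by rw [hs]; exact div_pos (hψn j).2 (hφm j).2
    have hs1 : ∀ j, ∫ q, Fs G (s j) (φ j) (ψ j) m n 0 q ∂μ = 0 := by
      intro j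
      have h1 := (hφm j).2.ne'
      unfold Fs
      rw [integral_sub ((hi (hφm j).1).const_mul _) (hi (hψn j).1), integral_const_mul, hs]
      field_simp
      ring
    have hs2 : 1 ≤ s j0 := by
      rw [hs]
      show 1 ≤ (∫ q, ψ j0 (rt G n 0 q) ∂μ) / ∫ q, φ j0 (rt G m 0 q) ∂μ
      rw [le_div_iff₀ (hφm j0).2, one_mul, ← hj0]
      exact hle
    exact one_side hdiv hP hE hK ho' hB' hB2 h' (hEx' h) hs1 (hcert s hs0 hs2) hm0 hn0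

end Vale.Agent.P211.H56
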