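import Vale.Agent.P211.H56.Skel3
import Vale.Agent.P211.H56.Orient2
import Vale.Agent.P211.H844.J3n

set_option linter.all false

/-! P211 (helper56): the case `|W⁺||W⁻| = 0` everywhere. -/

namespace Vale.Agent.P211.H56

open Topology Filter MeasureTheory Set
open scoped ContDiff
open Vale.Agent.P211 Vale.Agent.P211.S4

variable {M 𝒪 V : Type*} [TopologicalSpace M] [CommRing 𝒪] [Algebra ℝ 𝒪]
    [AddCommGroup V] [Module 𝒪 V] {G : Geo2 M 𝒪 V} {om : V → V → V → V → 𝒪}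

/-- properties of `n = |W⁺|²/6` -/
structure KFun (G : Geo2 M 𝒪 V) (n : 𝒪) : Prop where
  nonneg : ∀ q, 0 ≤ G.ev q n
  le : ∀ q, G.ev q n ≤ 4
  kato : ∀ q, 12 * G.ev q n ^ 2 * (1 - Real.sqrt (G.ev q n)) + 5 / 6 * ipg G n n q ≤
    G.ev q n * G.ev q (G.lap n)
  lap0 : ∀ q, G.ev q n = 0 → 0 ≤ G.ev q (G.lap n)
  grad : ∃ C, ∀ q, ipg G n n q ≤ C * G.ev q n

theorem side_ipg {p : M} {n dl b : 𝒪} {N κ σ Q : ℝ} {g z t u : V}
    (h : SidePt G p n dl b N κ σ Q g z t u) : ipg G n n p = 4 * N ^ 2 * G.ev p (G.g g g) := by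
  unfold ipg
  rw [G.grad_spec, h.dn, G.g_symm, G.grad_spec, h.dn]
  ring

theorem kfun [CompactSpace M] (hE : G.Einstein 3) (hK : G.SecGe 0) (ho : Orient G om)
    {n dl b : 𝒪} (hB : Basic G om n dl b) : KFun G n where
  nonneg q := (range_nd hE hK ho hB q).1
  le q := (range_nd hE hK ho hB q).2.1
  kato q := by
    obtain ⟨N, κ, σ, Q, g, z, t, u, h⟩ := side hE ho hB q
    have h1 : κ ≤ 1 := by nlinarith [h.ks, sq_nonneg σ]
    rw [side_ipg h, h.lap_n, h.n_eq, Real.sqrt_sq h.N0, h.b_eq]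
    have a1 := G.g_nonneg q z
    have a2 := G.g_nonneg q t
    have h2 : 0 ≤ (1 - κ) * N ^ 5 := mul_nonneg (by linarith) (pow_nonneg h.N0 5)
    nlinarith [mul_nonneg (sq_nonneg N) a1, mul_nonneg (sq_nonneg N) a2]
  lap0 q h0 := by
    obtain ⟨N, κ, σ, Q, g, z, t, u, h⟩ := side hE ho hB q
    have h1 : N = 0 := by
      have := h.n_eq
      rw [h0] at this
      exact pow_eq_zero_iff (two_ne_zero) |>.1 this.symm
    rw [h.lap_n, h.b_eq, h1]
    have a0 := G.g_nonneg q g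
    have a1 := G.g_nonneg q z
    have a2 := G.g_nonneg q t
    nlinarith
  grad := by
    obtain ⟨B, hB0, hBb⟩ := exists_ev_bound (G := G) b
    refine ⟨4 * B, fun q => ?_⟩
    obtain ⟨N, κ, σ, Q, g, z, t, u, h⟩ := side hE ho hB q
    rw [side_ipg h, h.n_eq]
    have a1 := G.g_nonneg q z
    have a2 := G.g_nonneg q t
    have h2 : G.ev q (G.g g g) ≤ B := by
      have h3 := (le_abs_self _).trans (hBb q)
      rw [h.b_eq] at h3
      linarith
    nlinarith [mul_le_mul_of_nonneg_left h2 (sq_nonneg N)]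

theorem C1on_id (R : ℝ) : C1on R (fun x => x) (fun _ => 1) :=
  ⟨fun s _ => (hasDerivAt_id s).hasDerivWithinAt, continuousOn_const⟩

theorem C1on_const (R c : ℝ) : C1on R (fun _ => c) (fun _ => 0) :=
  ⟨fun s _ => (hasDerivAt_const s c).hasDerivWithinAt, continuousOn_const⟩

theorem rt0_sq {n : 𝒪} {q : M} (hn : 0 ≤ G.ev q n) : rt G n 0 q ^ 2 = G.ev q n := by
  unfold rt; rw [Real.sq_sqrt (by simpa using hn)]; simp

theorem rt0_nn {n : 𝒪} {q : M} : 0 ≤ rt G n 0 q := Real.sqrt_nonneg _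

/-- the one-sided integrand -/
theorem disj_pos {n : 𝒪} (h : KFun G n) (q : M) :
    0 ≤ 1 / 2 * (63 / 100 * G.ev q (G.lap n)) + 4 * rt G n 0 q ^ 2 -
      ipg G n n q / (2 * rt G n 0 q) ^ 2 ∧
    (0 < G.ev q n → 0 < 1 / 2 * (63 / 100 * G.ev q (G.lap n)) + 4 * rt G n 0 q ^ 2 -
      ipg G n n q / (2 * rt G n 0 q) ^ 2) := by
  obtain ⟨C, hC⟩ := h.grad
  rcases (h.nonneg q).lt_or_eq with h0 | h0
  · have hN := rt0_pos h0
    have hN2 := rt0_sq (h.nonneg q)
    have hk := h.kato q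
    have hs : Real.sqrt (G.ev q n) = rt G n 0 q := by unfold rt; simp
    have hle := h.le q
    obtain ⟨N, hNe⟩ : ∃ N, N = rt G n 0 q := ⟨_, rfl⟩
    rw [hs] at hk
    rw [← hN2] at hk hle
    rw [← hNe] at hk hle hN ⊢
    have hN4 : N ≤ 2 := by nlinarith
    have hi := ipg_nonneg (G := G) n q
    have h1 : 12 * N ^ 2 * (1 - N) + 5 / 6 * ipg G n n q / N ^ 2 ≤ G.ev q (G.lap n) := by
      have h2 : (12 * N ^ 2 * (1 - N) + 5 / 6 * ipg G n n q / N ^ 2) * N ^ 2 ≤
          G.ev q (G.lap n) * N ^ 2 := by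
        have h3 : (12 * N ^ 2 * (1 - N) + 5 / 6 * ipg G n n q / N ^ 2) * N ^ 2 =
            12 * (N ^ 2) ^ 2 * (1 - N) + 5 / 6 * ipg G n n q := by
          field_simp
        rw [h3]; linarith
      exact le_of_mul_le_mul_right h2 (by positivity)
    have h4 : ipg G n n q / (2 * N) ^ 2 = 1 / 4 * (ipg G n n q / N ^ 2) := by
      field_simp; ring
    have h5 : 0 ≤ ipg G n n q / N ^ 2 := by positivity
    have h6 : 5 / 6 * ipg G n n q / N ^ 2 = 5 / 6 * (ipg G n n q / N ^ 2) := by ring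
    have h7 : 0 < N ^ 2 := by positivity
    have h8 : 0 < 1 / 2 * (63 / 100 * G.ev q (G.lap n)) + 4 * N ^ 2 -
      ipg G n n q / (2 * N) ^ 2 := by
      rw [h4]
      nlinarith [mul_nonneg h7.le (by linarith : 0 ≤ 2 - N)]
    exact ⟨h8.le, fun _ => h8⟩
  · have h1 := h.lap0 q h0.symm
    have h2 : rt G n 0 q = 0 := by unfold rt; rw [← h0]; simp
    refine ⟨?_, fun h3 => absurd h3 (by rw [← h0]; exact lt_irrefl _)⟩
    rw [h2]
    norm_num
    exact h1

/-- if the product vanishes everywhere, then one of the functions vanishes everywhere -/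
theorem disj [CompactSpace M] [MeasurableSpace M] [BorelSpace M] {μ : Measure M}
    [IsFiniteMeasure μ] [μ.IsOpenPosMeasure] (hdiv : DivThm G μ) (hP : H958.Poin G μ)
    {n m : 𝒪} (hn : KFun G n) (hm : KFun G m) (h0 : ∀ q, G.ev q n * G.ev q m = 0) :
    (∀ q, G.ev q n = 0) ∨ (∀ q, G.ev q m = 0) := by
  by_contra hcon
  push Not at hcon
  obtain ⟨⟨q1, hq1⟩, ⟨q2, hq2⟩⟩ := hcon
  obtain ⟨C, hC⟩ := hn.grad
  obtain ⟨C', hC'⟩ := hm.grad
  have hnI : ∀ q, G.ev q n ∈ Icc (0 : ℝ) (3 ^ 2 - 1) := fun q => ⟨hn.nonneg q, by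
    have := hn.le q; norm_num; linarith⟩
  have hmI : ∀ q, G.ev q m ∈ Icc (0 : ℝ) (3 ^ 2 - 1) := fun q => ⟨hm.nonneg q, by
    have := hm.le q; norm_num; linarith⟩
  haveI : Nonempty M := ⟨q1⟩
  have hμ : μ.real univ ≠ 0 := by
    have h := isOpen_univ.measure_pos μ (⟨q1, mem_univ _⟩ : (univ : Set M).Nonempty)
    rw [Measure.real]
    exact (ENNReal.toReal_pos h.ne' (measure_ne_top μ _)).ne'
  have cN : ∀ n : 𝒪, Continuous fun q => rt G n 0 q := fun n =>
    (rt_cont n).comp (continuous_const.prodMk continuous_id)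
  have hi : ∀ {f : M → ℝ}, Continuous f → Integrable f μ := fun hf =>
    hf.integrable_of_hasCompactSupport (HasCompactSupport.of_compactSpace _)
  -- the ratio
  have hIn : 0 < ∫ q, rt G n 0 q ∂μ := by
    rw [integral_pos_iff_support_of_nonneg (fun q => rt0_nn) (hi (cN n))]
    refine ((cN n).isOpen_support).measure_pos μ ⟨q1, ?_⟩
    rw [Function.mem_support]
    exact (rt0_pos (lt_of_le_of_ne (hn.nonneg q1) (Ne.symm hq1))).ne'
  obtain ⟨s, hs⟩ : ∃ s, s = (∫ q, rt G m 0 q ∂μ) / ∫ q, rt G n 0 q ∂μ := ⟨_, rfl⟩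
  have hs1 : ∫ q, Fs G s (fun x => x) (fun x => x) n m 0 q ∂μ = 0 := by
    unfold Fs
    rw [integral_sub ((hi (cN n)).const_mul _) (hi (cN m)), integral_const_mul, hs]
    field_simp
    ring
  have hi0 : ∀ q, ipg G n m q = 0 := by
    intro q
    rcases mul_eq_zero.1 (h0 q) with h | h
    · exact ipg_zero hC h _
    · exact ipg_zero' hC' h _
  have hrr : ∀ q, rt G n 0 q * rt G m 0 q = 0 := by
    intro q
    rcases mul_eq_zero.1 (h0 q) with h | h
    · have : rt G n 0 q = 0 := by unfold rt; rw [h]; simp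
      rw [this, zero_mul]
    · have : rt G m 0 q = 0 := by unfold rt; rw [h]; simp
      rw [this, mul_zero]
  -- the integrand
  have hT : ∀ q, TT G (ι := Empty) (J := Unit) (fun i => i.elim) (fun i => i.elim)
      (fun i => i.elim) (fun i => i.elim) (fun i => i.elim) (fun _ => s ^ 2 * (63 / 100)) (fun _ => 0)
      (fun _ => 63 / 100) (fun _ => 0) (fun _ => 1) (fun _ => 0) (fun _ => s)
      (fun _ x => x) (fun _ _ => 1) (fun _ x => x) (fun _ _ => 1) n m n 0 q =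
      s ^ 2 * (1 / 2 * (63 / 100 * G.ev q (G.lap n)) + 4 * rt G n 0 q ^ 2 -
        ipg G n n q / (2 * rt G n 0 q) ^ 2) +
      (1 / 2 * (63 / 100 * G.ev q (G.lap m)) + 4 * rt G m 0 q ^ 2 -
        ipg G m m q / (2 * rt G m 0 q) ^ 2) := by
    intro q
    unfold TT FF Cc PF Fs
    rw [hi0 q]
    simp only [Finset.univ_eq_empty, Finset.sum_empty, Finset.univ_unique, Finset.sum_singleton]
    have := hrr q
    linear_combination (-8 * s) * this
  have hpos := fun q => disj_pos hn q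
  have hpos' := fun q => disj_pos hm q
  have hae := ae_zero (G := G) (ι := Empty) (J := Unit) (z := fun i => i.elim)
    (A := fun i => i.elim) (A1 := fun i => i.elim) (A2 := fun i => i.elim) (A3 := fun i => i.elim)
    (Ω := univ) (n := n) (m := m) (p := n) (c := fun _ => s ^ 2 * (63 / 100)) (c' := fun _ => 0)
    (d := fun _ => 63 / 100) (d' := fun _ => 0) (Λ := fun _ => 1) (γ := fun _ => 0)
    (s := fun _ => s) (φ := fun _ x => x) (φ' := fun _ _ => 1) (ψ := fun _ x => x)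
    (ψ' := fun _ _ => 1) (R := 3) (C := C) (C' := C') hμ hdiv hP isOpen_univ (fun i => i.elim)
    (by norm_num) (by norm_num) hnI hmI hC hC' (fun q => mem_univ _) (C1on_const _ _)
    (C1on_const _ _) (fun _ => C1on_id _) (fun _ => C1on_id _) (fun _ => zero_le_one)
    (fun _ => hs1) (fun q => by
      rw [hT]
      exact add_nonneg (mul_nonneg (sq_nonneg s) (hpos q).1) (hpos' q).1)
  -- positivity near q2
  have hq2' : 0 < G.ev q2 m := lt_of_le_of_ne (hm.nonneg q2) (Ne.symm hq2)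
  have hev : ∀ᶠ q in 𝓝 q2, 0 < G.ev q m := (G.ev_cont m).continuousAt.eventually (lt_mem_nhds hq2')
  obtain ⟨U, hU, hUo, hqU⟩ := eventually_nhds_iff.1 hev
  have hμU : μ U = 0 := by
    refine measure_mono_null ?_ hae
    intro q hq h
    have h1 := (hpos' q).2 (hU q hq)
    have h2 := mul_nonneg (sq_nonneg s) (hpos q).1
    have h3 := (hT q).symm.trans h
    linarith
  exact (hUo.measure_pos μ ⟨q2, hqU⟩).ne' hμU

end Vale.Agent.P211.H56
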