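import Vale.Agent.P211.H56.Point

set_option linter.all false

/-! P211 (helper56): evaluation of the total integrand at a point. -/

namespace Vale.Agent.P211.H56

open Topology Filter MeasureTheory Set
open scoped ContDiff
open Vale.Agent.P211 Vale.Agent.P211.S4

variable {M 𝒪 V : Type*} [TopologicalSpace M] [CommRing 𝒪] [Algebra ℝ 𝒪]
    [AddCommGroup V] [Module 𝒪 V] {G : Geo2 M 𝒪 V} {om : V → V → V → V → 𝒪}

/-- the data in components -/
structure SV (G : Geo2 M 𝒪 V) (q : M) (F : Fin 4 → V) (n dl b : 𝒪) (N κ σ Q : ℝ)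
    (g z t u : Fin 4 → ℝ) : Prop where
  N0 : 0 ≤ N
  ks : κ ^ 2 + σ ^ 2 = 1
  n_eq : G.ev q n = N ^ 2
  d_eq : G.ev q dl = 2 * κ * N ^ 3
  b_eq : G.ev q b = dt g g + dt z z + dt t t / 5
  dn : ∀ i, G.ev q (G.D (F i) n) = 2 * N * g i
  dn0 : ∀ i, G.ev q (G.D (F i) n) / (2 * N) = g i
  dd : ∀ i, G.ev q (G.D (F i) dl) = 6 * N ^ 2 * (κ * g i + σ * z i)
  db : ∀ i, G.ev q (G.D (F i) b) = u i + 3 * N * g i - 3 * N ^ 2 * (κ * g i + σ * z i)
  lap_n : G.ev q (G.lap n) = 10 / 3 * G.ev q b + 12 * N ^ 2 - 12 * κ * N ^ 3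
  lap_b : G.ev q (G.lap b) = 2 * Q + 18 * (N ^ 2 - 2 * κ * N ^ 3 + N ^ 4) + 26 * G.ev q b
    - 4 * N * (8 * κ * (dt g g - dt z z) + 16 * σ * dt g z + 4 * dt z t)
  lap_d : G.ev q (G.lap dl) = 36 * κ * N ^ 3 - 36 * N ^ 4
    + 2 * N * (8 * κ * (dt g g - dt z z) + 16 * σ * dt g z + 4 * dt z t)
  Q0 : 0 ≤ Q
  Qu : 3 * dt u u ≤ 7 * Q * G.ev q b

theorem dt_frame {q : M} {F : Fin 4 → V} (hF : G.ON q F) (X Y : V) :
    G.ev q (G.g X Y) = dt (fun i => G.ev q (G.g X (F i))) (fun i => G.ev q (G.g Y (F i))) :=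
  Geom.g_cf hF X Y

theorem dt_zero_left (x : Fin 4 → ℝ) : dt 0 x = 0 := by simp [dt]

theorem dt_zero_right (x : Fin 4 → ℝ) : dt x 0 = 0 := by simp [dt]

theorem dt_self_nonneg (x : Fin 4 → ℝ) : 0 ≤ dt x x :=
  Finset.sum_nonneg fun i _ => mul_self_nonneg (x i)

theorem exists_SV (hE : G.Einstein 3) (ho : Orient G om) {n dl b : 𝒪} (hB : Basic G om n dl b)
    {q : M} {F : Fin 4 → V} (hF : G.ON q F) :
    ∃ (N κ σ Q : ℝ) (g z t u : Fin 4 → ℝ), SV G q F n dl b N κ σ Q g z t u := by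
  obtain ⟨N, κ, σ, Q, g, z, t, u, h⟩ := side hE ho hB q
  have e := fun X Y => dt_frame (G := G) hF X Y
  rcases h.N0.lt_or_eq with h0 | h0
  · refine ⟨N, κ, σ, Q, fun i => G.ev q (G.g g (F i)), fun i => G.ev q (G.g z (F i)),
      fun i => G.ev q (G.g t (F i)), fun i => G.ev q (G.g u (F i)), ?_⟩
    exact
      { N0 := h.N0
        ks := h.ks
        n_eq := h.n_eq
        d_eq := h.d_eq
        b_eq := by rw [h.b_eq, e g g, e z z, e t t]
        dn := fun i => h.dn (F i)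
        dn0 := fun i => by
          rw [h.dn]; field_simp
        dd := fun i => h.dd (F i)
        db := fun i => h.db (F i)
        lap_n := h.lap_n
        lap_b := by rw [h.lap_b, e g g, e z z, e g z, e z t]
        lap_d := by rw [h.lap_d, e g g, e z z, e g z, e z t]
        Q0 := h.Q0
        Qu := by have := h.Qu; rwa [e u u] at this }
  · have hb0 : 0 ≤ G.ev q b := by
      rw [h.b_eq]
      have a0 := G.g_nonneg q g
      have a1 := G.g_nonneg q z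
      have a2 := G.g_nonneg q t
      linarith
    refine ⟨0, κ, σ, Q, 0, 0, ![Real.sqrt (5 * G.ev q b), 0, 0, 0],
      fun i => G.ev q (G.g u (F i)), ?_⟩
    have hN : N = 0 := h0.symm
    subst hN
    have es : dt ![Real.sqrt (5 * G.ev q b), 0, 0, 0] ![Real.sqrt (5 * G.ev q b), 0, 0, 0] =
        5 * G.ev q b := by
      simp only [dt, Fin.sum_univ_four, Fin.isValue, Matrix.cons_val_zero, Matrix.cons_val_one,
        Matrix.cons_val, mul_zero, add_zero]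
      exact Real.mul_self_sqrt (by positivity)
    exact
      { N0 := le_rfl
        ks := h.ks
        n_eq := h.n_eq
        d_eq := h.d_eq
        b_eq := by rw [es, dt_zero_left]; ring
        dn := fun i => by rw [h.dn]; ring
        dn0 := fun i => by simp
        dd := fun i => by rw [h.dd]; ring
        db := fun i => by rw [h.db]; ring
        lap_n := by rw [h.lap_n]
        lap_b := by rw [h.lap_b]; ring
        lap_d := by rw [h.lap_d]; ring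
        Q0 := h.Q0
        Qu := by have := h.Qu; rwa [e u u] at this }

/-- scalar products of gradients -/
theorem ipg_dt (a b : 𝒪) {q : M} {F : Fin 4 → V} (hF : G.ON q F) :
    ipg G a b q = dt (fun i => G.ev q (G.D (F i) a)) (fun i => G.ev q (G.D (F i) b)) :=
  ipg_frame a b hF

theorem D_grad_ipg (a b : 𝒪) (q : M) : G.ev q (G.D (G.grad a) b) = ipg G b a q := by
  unfold ipg; rw [G.grad_spec]

theorem dt_smul_left (c : ℝ) (x y : Fin 4 → ℝ) : dt (fun i => c * x i) y = c * dt x y := by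
  unfold dt; rw [Finset.mul_sum]; exact Finset.sum_congr rfl fun i _ => by ring

theorem dt_smul_right (c : ℝ) (x y : Fin 4 → ℝ) : dt x (fun i => c * y i) = c * dt x y := by
  unfold dt; rw [Finset.mul_sum]; exact Finset.sum_congr rfl fun i _ => by ring

theorem dt_comm (x y : Fin 4 → ℝ) : dt x y = dt y x := by
  unfold dt; exact Finset.sum_congr rfl fun i _ => by ring

/-- `D_{∇a} n / (2N)` in components -/
theorem quot_dt {n : 𝒪} (a : 𝒪) {q : M} {F : Fin 4 → V} (hF : G.ON q F) {N : ℝ} {g : Fin 4 → ℝ}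
    (h : ∀ i, G.ev q (G.D (F i) n) / (2 * N) = g i) :
    G.ev q (G.D (G.grad a) n) / (2 * N) = dt g (fun i => G.ev q (G.D (F i) a)) := by
  rw [D_grad_ipg, ipg_dt n a hF]
  unfold dt
  rw [Finset.sum_div]
  refine Finset.sum_congr rfl fun i _ => ?_
  rw [← h i]; ring

theorem ipg_quot {n m : 𝒪} {q : M} {F : Fin 4 → V} (hF : G.ON q F) {N M' : ℝ} {g h : Fin 4 → ℝ}
    (h1 : ∀ i, G.ev q (G.D (F i) n) / (2 * N) = g i)
    (h2 : ∀ i, G.ev q (G.D (F i) m) / (2 * M') = h i) :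
    ipg G n m q / ((2 * N) * (2 * M')) = dt g h := by
  rw [ipg_dt n m hF]
  unfold dt
  rw [Finset.sum_div]
  refine Finset.sum_congr rfl fun i _ => ?_
  rw [← h1 i, ← h2 i, div_mul_div_comm]

/-- relation with the second block -/
theorem basic_nB (ho : Orient G om) {m dl b : 𝒪} (hB : Basic G (omn om) m dl b) {p : M}
    {F : Fin 4 → V} (hF : Pos G om p F) : 6 * G.ev p m + 3 = nB (G.rr p F) := by
  have h := hB.n_ev p (refl F) ((pos_neg_iff ho).2 hF)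
  rw [h, nW, ← nA_refl, nA]
  ring

/-- sharp lower bound of `det W⁺` -/
theorem kmin_le (hE : G.Einstein 3) (hK : G.SecGe 0) (ho : Orient G om) {n dl b m dl' b' : 𝒪}
    (hB : Basic G om n dl b) (hB' : Basic G (omn om) m dl' b') {q : M} {N' : ℝ} (hN' : 0 ≤ N')
    (hm : G.ev q m = N' ^ 2) :
    3 * G.ev q n * (2 - N') - (2 - N') ^ 3 ≤ G.ev q dl := by
  obtain ⟨F, hF, hd⟩ := exists_diag hE ho q
  obtain ⟨h1, ⟨h2, h3⟩, h4, h5⟩ := frame_facts hE hF.1
  have hmB := basic_nB ho hB' hF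
  rw [hm] at hmB
  obtain ⟨β, hβ, hβ'⟩ := exists_low _ h5 h4 hN' hmB
  have key : ∀ α : Fin 3 → ℝ, n3 α = 1 → N' - 1 ≤ qf (Ab (G.rr q F)) α α := by
    intro α hα
    have h := blocks_nonneg h1 (a1113_rf hK hF.1) α β hα hβ
    have e1 : qf (fun i j => Pm (G.rr q F) i j + Sm (G.rr q F) i j) α α = qf (Ab (G.rr q F)) α α :=
      rfl
    have e2 : qf (fun i j => Pm (G.rr q F) i j - Sm (G.rr q F) i j) β β = qf (Bb (G.rr q F)) β β :=
      rfl
    rw [e1, e2] at h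
    linarith
  have h01 := hd 0 1 (by decide)
  have h02 := hd 0 2 (by decide)
  have h10 := hd 1 0 (by decide)
  have h12 := hd 1 2 (by decide)
  have h20 := hd 2 0 (by decide)
  have h21 := hd 2 1 (by decide)
  have k0 := key ![1, 0, 0] (by simp [n3])
  have k1 := key ![0, 1, 0] (by simp [n3])
  have k2 := key ![0, 0, 1] (by simp [n3])
  simp [qf, Fin.sum_univ_three] at k0 k1 k2
  have e1 : G.ev q n = ((Ab (G.rr q F) 0 0 - 1) ^ 2 + (Ab (G.rr q F) 1 1 - 1) ^ 2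
      + (Ab (G.rr q F) 2 2 - 1) ^ 2) / 6 := by
    rw [hB.n_ev q F hF, nW]
    simp only [Fin.sum_univ_three, h01, h02, h10, h12, h20, h21]
    linear_combination (1 / 3) * h2
  have e2 : G.ev q dl = (Ab (G.rr q F) 0 0 - 1) * (Ab (G.rr q F) 1 1 - 1)
      * (Ab (G.rr q F) 2 2 - 1) := by
    rw [hB.d_ev q F hF, dW]
    simp only [h01, h02, h10, h12, h20, h21]
    ring
  have hp := mul_nonneg (mul_nonneg (sub_nonneg.2 k0) (sub_nonneg.2 k1)) (sub_nonneg.2 k2)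
  rw [e1, e2]
  have h22 : Ab (G.rr q F) 2 2 = 3 - Ab (G.rr q F) 0 0 - Ab (G.rr q F) 1 1 := by linarith
  rw [h22] at hp ⊢
  linarith only [hp]

/-- the pointwise data at a point -/
theorem exists_Pt [CompactSpace M] (hE : G.Einstein 3) (hK : G.SecGe 0) (ho : Orient G om)
    {n dl b m dl' b' : 𝒪} (hB : Basic G om n dl b) (hB' : Basic G (omn om) m dl' b') (q : M) :
    ∃ (F : Fin 4 → V) (P : Pt) (Q κ' σ' Q' : ℝ) (z' t' u' : Fin 4 → ℝ), G.ON q F ∧ P.Ok ∧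
      P.N = rt G n 0 q ∧ P.M = rt G m 0 q ∧ P.p = G.ev q b ∧
      SV G q F n dl b P.N P.κ P.σ Q P.g P.z P.t P.u ∧
      SV G q F m dl' b' P.M κ' σ' Q' P.h z' t' u' := by
  obtain ⟨F, hF0⟩ := exists_pos ho q
  have hF := hF0.1
  obtain ⟨N, κ, σ, Q, g, z, t, u, h⟩ := exists_SV hE ho hB hF
  obtain ⟨N', κ', σ', Q', h', z', t', u', k⟩ := exists_SV hE (orient_neg ho) hB' hF
  have hN : N = rt G n 0 q := by
    unfold rt
    rw [h.n_eq]
    simp [Real.sqrt_sq h.N0]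
  have hN' : N' = rt G m 0 q := by
    unfold rt
    rw [k.n_eq]
    simp [Real.sqrt_sq k.N0]
  refine ⟨F, ⟨N, N', κ, σ, G.ev q b, g, z, t, u, h'⟩, Q, κ', σ', Q', z', t', u', hF, ?_, hN, hN',
    rfl, h, k⟩
  have hnA : 6 * N ^ 2 + 3 = nA (G.rr q F) := by
    rw [← h.n_eq, hB.n_ev q F hF0, nW, nA]; ring
  have hmB : 6 * N' ^ 2 + 3 = nB (G.rr q F) := by
    rw [← k.n_eq]; exact basic_nB ho hB' hF0
  have hr := range_nd hE hK ho hB q
  have ha := apriori hE hK ho hB q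
  have hk := kmin_le hE hK ho hB hB' k.N0 k.n_eq
  rw [h.n_eq, h.d_eq] at hr hk ha
  exact
    { N0 := h.N0
      M0 := k.N0
      NM := add_le_two hE hK hF h.N0 k.N0 hnA hmB
      ks := h.ks
      kmin := hk
      kmin' := hr.2.2
      norm := h.b_eq
      apriori := by
        show G.ev q b + 4 * κ * N ^ 3 - 9 / 2 * N ^ 2 ≤ 442 / 11
        linarith
      u0 := fun h0 => by
        have h1 := h.Qu
        have h2 : G.ev q b = 0 := h0
        rw [h2, mul_zero] at h1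
        have h3 : dt u u = 0 := le_antisymm (by linarith) (dt_self_nonneg u)
        have h4 : ∀ i, u i = 0 := by
          intro i
          have h5 := (Finset.sum_eq_zero_iff_of_nonneg (fun i _ => mul_self_nonneg (u i))).1 h3 i
            (Finset.mem_univ i)
          exact mul_self_eq_zero.1 h5
        funext i
        exact h4 i }

/-- lower bound of the Laplacian of `b` -/
theorem lapb_ge {q : M} {F : Fin 4 → V} {n dl b : 𝒪} {P : Pt} {Q : ℝ} (hp : P.p = G.ev q b)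
    (h : SV G q F n dl b P.N P.κ P.σ Q P.g P.z P.t P.u) (hp0 : 0 ≤ P.p) :
    P.lB ≤ G.ev q (G.lap b) := by
  rw [h.lap_b, ← hp]
  unfold Pt.lB
  have h1 : 6 / 7 * (dt P.u P.u / P.p) ≤ 2 * Q := by
    rcases hp0.lt_or_eq with h0 | h0
    · have h2 := h.Qu
      rw [← hp] at h2
      rw [← mul_div_assoc, div_le_iff₀ h0]
      linarith
    · rw [← h0]
      simp
      exact h.Q0
  linarith

theorem lapm_ge {q : M} {F : Fin 4 → V} {m dl' b' : 𝒪} {P : Pt} {κ' σ' Q' : ℝ}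
    {z' t' u' : Fin 4 → ℝ} (h : SV G q F m dl' b' P.M κ' σ' Q' P.h z' t' u') :
    P.lM ≤ G.ev q (G.lap m) := by
  rw [h.lap_n, h.b_eq]
  unfold Pt.lM
  have h1 := dt_self_nonneg z'
  have h2 := dt_self_nonneg t'
  have h3 : κ' ≤ 1 := by nlinarith [h.ks, sq_nonneg σ']
  have h4 : 0 ≤ (1 - κ') * P.M ^ 3 := mul_nonneg (by linarith) (pow_nonneg h.N0 3)
  linarith

/-- one column -/
theorem col_eq {q : M} {F : Fin 4 → V} (hF : G.ON q F) {n m p a : 𝒪} {P : Pt}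
    (hN : P.N = rt G n 0 q) (hM : P.M = rt G m 0 q)
    (h1 : ∀ i, G.ev q (G.D (F i) n) / (2 * P.N) = P.g i)
    (h2 : ∀ i, G.ev q (G.D (F i) m) / (2 * P.M) = P.h i)
    (h3 : ∀ i, G.ev q (G.D (F i) p) = P.dB i) {v : Fin 4 → ℝ}
    (hv : ∀ i, G.ev q (G.D (F i) a) = v i) (A A1 A2 A3 : ℝ) :
    A * G.ev q (G.lap a) + (A1 * (G.ev q (G.D (G.grad a) n) / (2 * rt G n 0 q)) +
      A2 * (G.ev q (G.D (G.grad a) m) / (2 * rt G m 0 q)) +
      A3 * G.ev q (G.D (G.grad a) p)) = P.col A A1 A2 A3 (G.ev q (G.lap a)) v := by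
  rw [← hN, ← hM, quot_dt a hF h1, quot_dt a hF h2, D_grad_ipg, ipg_dt p a hF]
  have e : (fun i => G.ev q (G.D (F i) a)) = v := funext hv
  have e' : (fun i => G.ev q (G.D (F i) p)) = P.dB := funext h3
  rw [e, e']
  rfl

/-- the one-variable column -/
theorem Cc_eq {q : M} {F : Fin 4 → V} (hF : G.ON q F) {n : 𝒪} {N : ℝ} {g : Fin 4 → ℝ}
    (hN : N = rt G n 0 q) (h0 : ∀ i, G.ev q (G.D (F i) n) = 2 * N * g i)
    (h1 : ∀ i, G.ev q (G.D (F i) n) / (2 * N) = g i) (c c' : ℝ → ℝ) :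
    Cc G c c' n 0 q = N * c' N * dt g g + 1 / 2 * c N * G.ev q (G.lap n) := by
  unfold Cc
  rw [← hN]
  have e : ipg G n n q / (2 * N) = 2 * N * dt g g := by
    rw [← D_grad_ipg, quot_dt n hF h1]
    have : (fun i => G.ev q (G.D (F i) n)) = fun i => (2 * N) * g i := funext h0
    rw [this, dt_smul_right]
  rw [e]; ring

/-- **Evaluation of the total integrand.** -/
theorem TS_ge {J : Type*} [Fintype J] {A A1 A2 A3 : Fin 4 → ℝ × ℝ × ℝ → ℝ}
    {c c' d d' cs cs' ds ds' : ℝ → ℝ} {Λ γ s : J → ℝ} {φ φ' ψ ψ' : J → ℝ → ℝ}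
    {n dl b m dl' b' : 𝒪} {q : M} {F : Fin 4 → V} {P : Pt} {Q κ' σ' Q' : ℝ}
    {z' t' u' : Fin 4 → ℝ} (hF : G.ON q F) (hok : P.Ok) (hN : P.N = rt G n 0 q)
    (hM : P.M = rt G m 0 q) (hp : P.p = G.ev q b)
    (h : SV G q F n dl b P.N P.κ P.σ Q P.g P.z P.t P.u)
    (k : SV G q F m dl' b' P.M κ' σ' Q' P.h z' t' u')
    (hA0 : 0 ≤ A 0 (P.N, P.M, P.p))
    (hB0 : 0 ≤ A 2 (P.N, P.M, P.p) + 1 / 2 * (d P.M + ds P.M)) (hcs0 : cs 0 = 0) (hds0 : ds 0 = 0) :
    RR A A1 A2 A3 c c' d d' cs cs' ds ds' Λ γ s φ φ' ψ ψ' P ≤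
      TS G ![b, dl, m, n] A A1 A2 A3 c c' d d' cs cs' ds ds' Λ γ s φ φ' ψ ψ' n m b 0 q := by
  have hp0 : 0 ≤ P.p := by
    rw [hok.norm]
    have a1 := dt_self_nonneg P.g
    have a2 := dt_self_nonneg P.z
    have a3 := dt_self_nonneg P.t
    linarith
  have hPh : Ph G n m b 0 q = (P.N, P.M, P.p) := by unfold Ph; rw [hN, hM, hp]
  have hdB : ∀ i, G.ev q (G.D (F i) b) = P.dB i := h.db
  have hdD : ∀ i, G.ev q (G.D (F i) dl) = P.dD i := h.dd
  have hdM : ∀ i, G.ev q (G.D (F i) m) = P.dM i := k.dn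
  have hdN : ∀ i, G.ev q (G.D (F i) n) = P.dN i := h.dn
  have hlN : G.ev q (G.lap n) = P.lN := by
    rw [h.lap_n, ← hp]; rfl
  have hlD : G.ev q (G.lap dl) = P.lD := h.lap_d
  have hlB := lapb_ge hp h hp0
  have hlM := lapm_ge k
  have hn0 : 0 ≤ G.ev q n := by rw [h.n_eq]; positivity
  have hm0 : 0 ≤ G.ev q m := by rw [k.n_eq]; positivity
  have hFF : FF G ![b, dl, m, n] A A1 A2 A3 n m b 0 q =
      P.col (A 0 (P.N, P.M, P.p)) (A1 0 (P.N, P.M, P.p)) (A2 0 (P.N, P.M, P.p))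
        (A3 0 (P.N, P.M, P.p)) (G.ev q (G.lap b)) P.dB +
      P.col (A 1 (P.N, P.M, P.p)) (A1 1 (P.N, P.M, P.p)) (A2 1 (P.N, P.M, P.p))
        (A3 1 (P.N, P.M, P.p)) (G.ev q (G.lap dl)) P.dD +
      P.col (A 2 (P.N, P.M, P.p)) (A1 2 (P.N, P.M, P.p)) (A2 2 (P.N, P.M, P.p))
        (A3 2 (P.N, P.M, P.p)) (G.ev q (G.lap m)) P.dM +
      P.col (A 3 (P.N, P.M, P.p)) (A1 3 (P.N, P.M, P.p)) (A2 3 (P.N, P.M, P.p))
        (A3 3 (P.N, P.M, P.p)) (G.ev q (G.lap n)) P.dN := by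
    unfold FF
    rw [Fin.sum_univ_four, hPh]
    rw [← col_eq hF hN hM h.dn0 k.dn0 hdB hdB, ← col_eq hF hN hM h.dn0 k.dn0 hdB hdD,
      ← col_eq hF hN hM h.dn0 k.dn0 hdB hdM, ← col_eq hF hN hM h.dn0 k.dn0 hdB hdN]
    rfl
  have hCn := Cc_eq hF hN h.dn h.dn0 c c'
  have hCm := Cc_eq hF hM k.dn k.dn0 d d'
  have hSn : Ts G cs cs' n 0 q = P.N * cs' P.N * dt P.g P.g + 1 / 2 * cs P.N * G.ev q (G.lap n) := by
    rcases hn0.lt_or_eq with h0 | h0
    · rw [Ts_zero h0]; exact Cc_eq hF hN h.dn h.dn0 cs cs'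
    · have hN0 : P.N = 0 := by
        have := h.n_eq
        rw [← h0] at this
        exact pow_eq_zero_iff (two_ne_zero) |>.1 this.symm
      unfold Ts Tc
      rw [← hN, hN0, hcs0, ← h0]
      simp
  have hSm : Ts G ds ds' m 0 q = P.M * ds' P.M * dt P.h P.h + 1 / 2 * ds P.M * G.ev q (G.lap m) := by
    rcases hm0.lt_or_eq with h0 | h0
    · rw [Ts_zero h0]; exact Cc_eq hF hM k.dn k.dn0 ds ds'
    · have hM0 : P.M = 0 := by
        have := k.n_eq
        rw [← h0] at this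
        exact pow_eq_zero_iff (two_ne_zero) |>.1 this.symm
      unfold Ts Tc
      rw [← hM, hM0, hds0, ← h0]
      simp
  have hPF : ∀ j, PF G (s j) (φ j) (φ' j) (ψ j) (ψ' j) n m 0 q =
      P.PP (s j) (φ j P.N) (φ' j P.N) (ψ j P.M) (ψ' j P.M) := by
    intro j
    unfold PF Fs Pt.PP
    rw [← hN, ← hM, ipg_quot hF h.dn0 k.dn0]
    have e1 : ipg G n n q / (2 * P.N) ^ 2 = dt P.g P.g := by
      rw [sq]; exact ipg_quot hF h.dn0 h.dn0
    have e2 : ipg G m m q / (2 * P.M) ^ 2 = dt P.h P.h := by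
      rw [sq]; exact ipg_quot hF k.dn0 k.dn0
    rw [e1, e2]
  have hFs : ∀ j, Fs G (s j) (φ j) (ψ j) n m 0 q = s j * φ j P.N - ψ j P.M := by
    intro j
    unfold Fs
    rw [← hN, ← hM]
  unfold TS RR
  rw [hFF, hCn, hCm, hSn, hSm, Finset.sum_add_distrib]
  simp only [hPF, hFs]
  rw [hlN, hlD]
  have k1 := mul_le_mul_of_nonneg_left hlB hA0
  have k2 := mul_le_mul_of_nonneg_left hlM hB0
  unfold Pt.col
  linarith only [k1, k2]

end Vale.Agent.P211.H56
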