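import Vale.Agent.P211.Bdl.S0

set_option linter.all false

/-! P211, block L-ANA (helper56): Fatou's lemma in the form needed. -/

namespace Vale.Agent.P211.H56

open Topology Filter MeasureTheory
open scoped ENNReal

/-- Continuous functions with nonpositive integrals, bounded below, with a nonnegative pointwise
limit: the limit vanishes almost everywhere. -/
theorem fatou_zero {M : Type*} [TopologicalSpace M] [CompactSpace M] [MeasurableSpace M]
    [BorelSpace M] {μ : Measure M} [IsFiniteMeasure μ] {f : ℕ → M → ℝ} {f0 : M → ℝ}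
    (hf : ∀ k, Continuous (f k)) (hint : ∀ k, ∫ x, f k x ∂μ ≤ 0) {B : ℝ} (hB0 : 0 ≤ B)
    (hB : ∀ k x, - B ≤ f k x) (hlim : ∀ x, Tendsto (fun k => f k x) atTop (𝓝 (f0 x)))
    (h0 : ∀ x, 0 ≤ f0 x) : ∀ᵐ x ∂μ, f0 x = 0 := by
  have hmeas0 : Measurable f0 :=
    measurable_of_tendsto_metrizable (fun k => (hf k).measurable) (tendsto_pi_nhds.2 hlim)
  have hcont : ∀ k, Continuous fun x => f k x + B := fun k => (hf k).add continuous_const
  have hintg : ∀ k, Integrable (fun x => f k x + B) μ := fun k =>
    (hcont k).integrable_of_hasCompactSupport (HasCompactSupport.of_compactSpace _)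
  have hfi : ∀ k, Integrable (f k) μ := fun k =>
    (hf k).integrable_of_hasCompactSupport (HasCompactSupport.of_compactSpace _)
  have hnn : ∀ k x, 0 ≤ f k x + B := fun k x => by linarith [hB k x]
  have hval : ∀ k, ∫⁻ x, ENNReal.ofReal (f k x + B) ∂μ ≤ ENNReal.ofReal B * μ Set.univ := by
    intro k
    rw [← ofReal_integral_eq_lintegral_ofReal (hintg k) (Eventually.of_forall (hnn k)),
      integral_add (hfi k) (integrable_const B), integral_const, smul_eq_mul, Measure.real]
    have h1 : ENNReal.ofReal (∫ x, f k x ∂μ + (μ Set.univ).toReal * B) ≤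
        ENNReal.ofReal ((μ Set.univ).toReal * B) := ENNReal.ofReal_le_ofReal (by linarith [hint k])
    refine h1.trans ?_
    rw [ENNReal.ofReal_mul ENNReal.toReal_nonneg, ENNReal.ofReal_toReal (measure_ne_top μ _),
      mul_comm]
  have hmeas : ∀ k, Measurable fun x => ENNReal.ofReal (f k x + B) := fun k =>
    ENNReal.measurable_ofReal.comp (hcont k).measurable
  have hF := lintegral_liminf_le (μ := μ) (u := atTop) hmeas
  have hlim' : ∀ x, liminf (fun k => ENNReal.ofReal (f k x + B)) atTop =
      ENNReal.ofReal (f0 x) + ENNReal.ofReal B := by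
    intro x
    rw [← ENNReal.ofReal_add (h0 x) hB0]
    exact ((ENNReal.continuous_ofReal.tendsto _).comp ((hlim x).add_const B)).liminf_eq
  simp only [hlim'] at hF
  have hF2 : liminf (fun k => ∫⁻ x, ENNReal.ofReal (f k x + B) ∂μ) atTop ≤
      ENNReal.ofReal B * μ Set.univ := by
    refine (liminf_le_liminf (Eventually.of_forall hval)).trans ?_
    rw [liminf_const]
  have hm0 : Measurable fun x => ENNReal.ofReal (f0 x) := ENNReal.measurable_ofReal.comp hmeas0
  rw [lintegral_add_left hm0, lintegral_const] at hF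
  have hfin : ENNReal.ofReal B * μ Set.univ ≠ ⊤ :=
    ENNReal.mul_ne_top ENNReal.ofReal_ne_top (measure_ne_top μ _)
  have hz : ∫⁻ x, ENNReal.ofReal (f0 x) ∂μ = 0 := by
    have h1 := hF.trans hF2
    have h2 : ∫⁻ x, ENNReal.ofReal (f0 x) ∂μ + ENNReal.ofReal B * μ Set.univ ≤
        0 + ENNReal.ofReal B * μ Set.univ := by rw [zero_add]; exact h1
    have h3 := (ENNReal.add_le_add_iff_right hfin).1 h2
    exact le_antisymm h3 bot_le
  have h4 := (lintegral_eq_zero_iff hm0).1 hz
  filter_upwards [h4] with x hx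
  have : ENNReal.ofReal (f0 x) = 0 := hx
  exact le_antisymm (ENNReal.ofReal_eq_zero.1 this) (h0 x)

end Vale.Agent.P211.H56
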