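import Vale.Agent.P211.Bdl.S0

set_option linter.all false

/-! P211, block L-ANA (helper56), part 2: the limit lemma (reverse Fatou). -/

namespace Vale.Agent.P211.H56

open Topology Filter MeasureTheory
open scoped ENNReal

/-- Reverse Fatou: continuous functions with integral zero which are uniformly bounded above and
have pointwise upper limit at most zero cannot have a uniformly negative upper limit near a
point. -/
theorem fatou_cert {M : Type*} [TopologicalSpace M] [CompactSpace M] [MeasurableSpace M]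
    [BorelSpace M] {μ : Measure M} [IsFiniteMeasure μ] [μ.IsOpenPosMeasure] {f : ℕ → M → ℝ}
    (hf : ∀ k, Continuous (f k)) (hint : ∀ k, ∫ x, f k x ∂μ = 0) {C : ℝ} (hC : ∀ k x, f k x ≤ C)
    (h0 : ∀ x, ∀ δ > 0, ∀ᶠ k in atTop, f k x ≤ δ) {x₀ : M} {δ₀ : ℝ} (hδ : 0 < δ₀)
    (hU : ∀ᶠ x in 𝓝 x₀, ∀ᶠ k in atTop, f k x ≤ -δ₀) : False := by
  obtain ⟨U, hU1, hUo, hx₀⟩ := eventually_nhds_iff.1 hU
  -- a nonnegative bound
  obtain ⟨D, hD0, hD⟩ : ∃ D : ℝ, 0 ≤ D ∧ ∀ k x, f k x ≤ D :=
    ⟨max C 0, le_max_right _ _, fun k x => (hC k x).trans (le_max_left _ _)⟩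
  have hcont : ∀ k, Continuous fun x => D - f k x := fun k => continuous_const.sub (hf k)
  have hintg : ∀ k, Integrable (fun x => D - f k x) μ := fun k =>
    (hcont k).integrable_of_hasCompactSupport (HasCompactSupport.of_compactSpace _)
  have hnn : ∀ k x, 0 ≤ D - f k x := fun k x => by linarith [hD k x]
  have hval : ∀ k, ∫⁻ x, ENNReal.ofReal (D - f k x) ∂μ = ENNReal.ofReal D * μ Set.univ := by
    intro k
    rw [← ofReal_integral_eq_lintegral_ofReal (hintg k) (Eventually.of_forall (hnn k))]
    have hfi : Integrable (f k) μ :=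
      (hf k).integrable_of_hasCompactSupport (HasCompactSupport.of_compactSpace _)
    rw [integral_sub (integrable_const D) hfi, hint k, sub_zero, integral_const, smul_eq_mul,
      Measure.real, ENNReal.ofReal_mul ENNReal.toReal_nonneg,
      ENNReal.ofReal_toReal (measure_ne_top μ _), mul_comm]
  have hmeas : ∀ k, Measurable fun x => ENNReal.ofReal (D - f k x) := fun k =>
    ENNReal.measurable_ofReal.comp (hcont k).measurable
  have hF := lintegral_liminf_le (μ := μ) (u := atTop) hmeas
  simp only [hval, Filter.liminf_const] at hF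
  -- lower bound of the liminf
  have hlow : ∀ x, ENNReal.ofReal D + U.indicator (fun _ => ENNReal.ofReal δ₀) x ≤
      liminf (fun k => ENNReal.ofReal (D - f k x)) atTop := by
    intro x
    by_cases hx : x ∈ U
    · rw [Set.indicator_of_mem hx, ← ENNReal.ofReal_add hD0 hδ.le]
      refine le_liminf_of_le (by isBoundedDefault) ?_
      filter_upwards [hU1 x hx] with k hk
      exact ENNReal.ofReal_le_ofReal (by linarith)
    · rw [Set.indicator_of_notMem hx, add_zero]
      refine le_of_forall_lt fun b hb => ?_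
      -- choose `b < b' < ofReal D`
      obtain ⟨b', hb1, hb2⟩ := exists_between hb
      have hb'top : b' ≠ ⊤ := (lt_of_lt_of_le hb2 le_top).ne
      have hb'D : b'.toReal < D := by
        rw [← ENNReal.ofReal_toReal hb'top] at hb2
        exact (ENNReal.ofReal_lt_ofReal_iff_of_nonneg ENNReal.toReal_nonneg).1 hb2
      refine lt_of_lt_of_le hb1 (le_liminf_of_le (by isBoundedDefault) ?_)
      filter_upwards [h0 x (D - b'.toReal) (by linarith)] with k hk
      rw [← ENNReal.ofReal_toReal hb'top]
      exact ENNReal.ofReal_le_ofReal (by linarith)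
  have h1 : ∫⁻ x, (ENNReal.ofReal D + U.indicator (fun _ => ENNReal.ofReal δ₀) x) ∂μ ≤
      ENNReal.ofReal D * μ Set.univ := (lintegral_mono hlow).trans hF
  rw [lintegral_add_left measurable_const, lintegral_const,
    lintegral_indicator hUo.measurableSet, setLIntegral_const] at h1
  have hfin : ENNReal.ofReal D * μ Set.univ ≠ ⊤ :=
    ENNReal.mul_ne_top ENNReal.ofReal_ne_top (measure_ne_top μ _)
  have hpos : 0 < ENNReal.ofReal δ₀ * μ U :=
    ENNReal.mul_pos (ENNReal.ofReal_pos.2 hδ).ne' (hUo.measure_pos μ ⟨x₀, hx₀⟩).ne'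
  exact absurd h1 (not_le.2 (ENNReal.lt_add_right hfin hpos.ne'))

end Vale.Agent.P211.H56
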