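import Vale.Agent.P211.H56.Skel4

set_option linter.all false

/-! P211 (helper56): pointwise data in vectors of `ℝ⁴`, and the pointwise form `RR` of the total
integrand. -/

namespace Vale.Agent.P211.H56

/-- scalar product of `ℝ⁴` -/
def dt (x y : Fin 4 → ℝ) : ℝ := ∑ i, x i * y i

/-- pointwise data: `N = |W⁺|/√6`, `M = |W⁻|/√6`, `2κN³ = det W⁺`, `p = |∇W⁺|²/10`, the
components `g, z, t, u` of the first derivative of `W⁺` and `h = ∇M`. -/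
structure Pt where
  N : ℝ
  M : ℝ
  κ : ℝ
  σ : ℝ
  p : ℝ
  g : Fin 4 → ℝ
  z : Fin 4 → ℝ
  t : Fin 4 → ℝ
  u : Fin 4 → ℝ
  h : Fin 4 → ℝ

/-- the constraints -/
structure Pt.Ok (P : Pt) : Prop where
  N0 : 0 ≤ P.N
  M0 : 0 ≤ P.M
  NM : P.N + P.M ≤ 2
  ks : P.κ ^ 2 + P.σ ^ 2 = 1
  kmin : 3 * P.N ^ 2 * (2 - P.M) - (2 - P.M) ^ 3 ≤ 2 * P.κ * P.N ^ 3
  kmin' : 6 * P.N ^ 2 - 8 ≤ 2 * P.κ * P.N ^ 3
  norm : P.p = dt P.g P.g + dt P.z P.z + dt P.t P.t / 5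
  apriori : P.p + 4 * P.κ * P.N ^ 3 - 9 / 2 * P.N ^ 2 ≤ 442 / 11
  u0 : P.p = 0 → P.u = 0

namespace Pt

variable (P : Pt)

/-- `∇p` -/
def dB : Fin 4 → ℝ := fun i => P.u i + 3 * P.N * P.g i - 3 * P.N ^ 2 * (P.κ * P.g i + P.σ * P.z i)
/-- `∇ det W⁺` -/
def dD : Fin 4 → ℝ := fun i => 6 * P.N ^ 2 * (P.κ * P.g i + P.σ * P.z i)
/-- `∇ M²` -/
def dM : Fin 4 → ℝ := fun i => 2 * P.M * P.h i
/-- `∇ N²` -/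
def dN : Fin 4 → ℝ := fun i => 2 * P.N * P.g i
/-- lower bound of `Δ p` -/
noncomputable def lB : ℝ := 6 / 7 * (dt P.u P.u / P.p) +
  18 * (P.N ^ 2 - 2 * P.κ * P.N ^ 3 + P.N ^ 4) + 26 * P.p
  - 4 * P.N * (8 * P.κ * (dt P.g P.g - dt P.z P.z) + 16 * P.σ * dt P.g P.z + 4 * dt P.z P.t)
/-- `Δ det W⁺` -/
def lD : ℝ := 36 * P.κ * P.N ^ 3 - 36 * P.N ^ 4
  + 2 * P.N * (8 * P.κ * (dt P.g P.g - dt P.z P.z) + 16 * P.σ * dt P.g P.z + 4 * dt P.z P.t)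
/-- lower bound of `Δ M²` -/
noncomputable def lM : ℝ := 10 / 3 * dt P.h P.h + 12 * P.M ^ 2 - 12 * P.M ^ 3
/-- `Δ N²` -/
noncomputable def lN : ℝ := 10 / 3 * P.p + 12 * P.N ^ 2 - 12 * P.κ * P.N ^ 3

/-- one column `div (A ∇z)` -/
def col (A A1 A2 A3 l : ℝ) (v : Fin 4 → ℝ) : ℝ :=
  A * l + (A1 * dt P.g v + A2 * dt P.h v + A3 * dt P.dB v)

/-- the Poincaré integrand `4F² - |∇F|²`, `F = s φ(N) - ψ(M)` -/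
def PP (s φ φ' ψ ψ' : ℝ) : ℝ :=
  4 * (s * φ - ψ) ^ 2 - (s ^ 2 * (φ' ^ 2 * dt P.g P.g) - 2 * s * (φ' * ψ' * dt P.g P.h) +
    ψ' ^ 2 * dt P.h P.h)

end Pt

/-- The pointwise form of the total integrand.  Columns: `0 : ∇p`, `1 : ∇ det W⁺`, `2 : ∇ M²`,
`3 : ∇ N²`, with coefficient functions `A i (N, M, p)`. -/
noncomputable def RR {J : Type*} [Fintype J] (A A1 A2 A3 : Fin 4 → ℝ × ℝ × ℝ → ℝ)
    (c c' d d' cs cs' ds ds' : ℝ → ℝ) (Λ γ s : J → ℝ)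
    (φ φ' ψ ψ' : J → ℝ → ℝ) (P : Pt) : ℝ :=
  P.col (A 0 (P.N, P.M, P.p)) (A1 0 (P.N, P.M, P.p)) (A2 0 (P.N, P.M, P.p))
    (A3 0 (P.N, P.M, P.p)) P.lB P.dB +
  P.col (A 1 (P.N, P.M, P.p)) (A1 1 (P.N, P.M, P.p)) (A2 1 (P.N, P.M, P.p))
    (A3 1 (P.N, P.M, P.p)) P.lD P.dD +
  P.col (A 2 (P.N, P.M, P.p)) (A1 2 (P.N, P.M, P.p)) (A2 2 (P.N, P.M, P.p))
    (A3 2 (P.N, P.M, P.p)) P.lM P.dM +
  P.col (A 3 (P.N, P.M, P.p)) (A1 3 (P.N, P.M, P.p)) (A2 3 (P.N, P.M, P.p))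
    (A3 3 (P.N, P.M, P.p)) P.lN P.dN +
  (P.N * (c' P.N + cs' P.N) * dt P.g P.g + 1 / 2 * (c P.N + cs P.N) * P.lN) +
  (P.M * (d' P.M + ds' P.M) * dt P.h P.h + 1 / 2 * (d P.M + ds P.M) * P.lM) +
  ∑ j, (Λ j * P.PP (s j) (φ j P.N) (φ' j P.N) (ψ j P.M) (ψ' j P.M) +
    γ j * (s j * φ j P.N - ψ j P.M))

end Vale.Agent.P211.H56
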