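import Vale.Agent.P211.Bdl.S1

set_option linter.all false

/-! P211, block L-ANA (helper56), part 1: nonnegative sectional curvature in terms of the two
blocks `A = P + S`, `B = P - S` of the curvature operator, `N + M ≤ 2`. -/

namespace Vale.Agent.P211.H56

open Topology Filter
open Vale.Agent.P211 Vale.Agent.P211.S4

/-- every pair of unit vectors `α, β` of `ℝ³` comes from an orthonormal pair of vectors of `ℝ⁴`,
up to the sign of `β`. -/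
theorem exists_plane (α β : Fin 3 → ℝ) (hα : n3 α = 1) (hβ : n3 β = 1) :
    ∃ (X Y : Fin 4 → ℝ) (β' : Fin 3 → ℝ), (β' = β ∨ β' = - β) ∧
      (∀ i, wE X Y i = (α i + β' i) / 2) ∧ (∀ i, wF X Y i = (α i - β' i) / 2) ∧
      (∑ i, X i * X i = 1) ∧ (∑ i, Y i * Y i = 1) ∧ (∑ i, X i * Y i = 0) := by
  obtain ⟨β', hβ', hn, hpos⟩ : ∃ β' : Fin 3 → ℝ, (β' = β ∨ β' = - β) ∧ n3 β' = 1 ∧
      0 ≤ α 0 * β' 0 + α 1 * β' 1 + α 2 * β' 2 := by
    rcases le_total 0 (α 0 * β 0 + α 1 * β 1 + α 2 * β 2) with h | h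
    · exact ⟨β, Or.inl rfl, hβ, h⟩
    · refine ⟨-β, Or.inr rfl, ?_, ?_⟩
      · simp only [n3, Pi.neg_apply] at hβ ⊢
        linarith
      · simp only [Pi.neg_apply]
        linarith
  obtain ⟨E0, hE0⟩ : ∃ E0, E0 = (α 0 + β' 0) / 2 := ⟨_, rfl⟩
  obtain ⟨E1, hE1⟩ : ∃ E1, E1 = (α 1 + β' 1) / 2 := ⟨_, rfl⟩
  obtain ⟨E2, hE2⟩ : ∃ E2, E2 = (α 2 + β' 2) / 2 := ⟨_, rfl⟩
  obtain ⟨F0, hF0⟩ : ∃ F0, F0 = (α 0 - β' 0) / 2 := ⟨_, rfl⟩
  obtain ⟨F1, hF1⟩ : ∃ F1, F1 = (α 1 - β' 1) / 2 := ⟨_, rfl⟩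
  obtain ⟨F2, hF2⟩ : ∃ F2, F2 = (α 2 - β' 2) / 2 := ⟨_, rfl⟩
  simp only [n3] at hα hn
  have hEF : E0 * F0 + E1 * F1 + E2 * F2 = 0 := by
    rw [hE0, hE1, hE2, hF0, hF1, hF2]; linear_combination (hα - hn) / 4
  have hsum : E0 ^ 2 + E1 ^ 2 + E2 ^ 2 + (F0 ^ 2 + F1 ^ 2 + F2 ^ 2) = 1 := by
    rw [hE0, hE1, hE2, hF0, hF1, hF2]; linear_combination (hα + hn) / 2
  have hee : E0 ^ 2 + E1 ^ 2 + E2 ^ 2 = (1 + (α 0 * β' 0 + α 1 * β' 1 + α 2 * β' 2)) / 2 := by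
    rw [hE0, hE1, hE2]; linear_combination (hα + hn) / 4
  have hepos : 0 < E0 ^ 2 + E1 ^ 2 + E2 ^ 2 := by rw [hee]; linarith
  obtain ⟨e, he⟩ : ∃ e, e = Real.sqrt (E0 ^ 2 + E1 ^ 2 + E2 ^ 2) := ⟨_, rfl⟩
  have he0 : 0 < e := by rw [he]; exact Real.sqrt_pos.2 hepos
  have hesq : e ^ 2 = E0 ^ 2 + E1 ^ 2 + E2 ^ 2 := by rw [he, Real.sq_sqrt hepos.le]
  have hene : e ≠ 0 := he0.ne'
  have hesq' : e * e = E0 ^ 2 + E1 ^ 2 + E2 ^ 2 := by rw [← sq]; exact hesq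
  refine ⟨![e, (E1 * F2 - E2 * F1) / e, (E2 * F0 - E0 * F2) / e, (E0 * F1 - E1 * F0) / e],
    ![0, E0 / e, E1 / e, E2 / e], β', hβ', ?_, ?_, ?_, ?_, ?_⟩
  · intro i
    fin_cases i
    · simp [wE]; rw [← hE0]; field_simp
    · simp [wE]; rw [← hE1]; field_simp
    · simp [wE]; rw [← hE2]; field_simp
  · intro i
    fin_cases i
    · simp [wF]; rw [← hF0]; field_simp; rw [hesq]; linear_combination (- E0) * hEF
    · simp [wF]; rw [← hF1]; field_simp; rw [hesq]; linear_combination (- E1) * hEF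
    · simp [wF]; rw [← hF2]; field_simp; rw [hesq]; linear_combination (- E2) * hEF
  · simp [Fin.sum_univ_four]
    field_simp
    have : e ^ 4 = (E0 ^ 2 + E1 ^ 2 + E2 ^ 2) ^ 2 := by rw [← hesq]; ring
    rw [this, hesq]
    linear_combination (E0 ^ 2 + E1 ^ 2 + E2 ^ 2) * hsum - (E0 * F0 + E1 * F1 + E2 * F2) * hEF
  · simp [Fin.sum_univ_four]
    field_simp
    rw [hesq]
  · simp [Fin.sum_univ_four]
    field_simp
    try ring

/-- nonnegative curvature on the planes, in terms of the blocks. -/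
theorem blocks_nonneg {r : Arr4} {P S : Fin 3 → Fin 3 → ℝ} (hr : r = einArr P S)
    (hrf : ∀ X Y : Fin 4 → ℝ, 0 ≤ rf r X Y Y X) (α β : Fin 3 → ℝ) (hα : n3 α = 1)
    (hβ : n3 β = 1) :
    0 ≤ qf (fun i j => P i j + S i j) α α + qf (fun i j => P i j - S i j) β β := by
  obtain ⟨X, Y, β', hβ', hE, hF, -⟩ := exists_plane α β hα hβ
  have h1 := hrf X Y
  rw [hr, rf_einArr] at h1
  have hq : qf (fun i j => P i j - S i j) β β = qf (fun i j => P i j - S i j) β' β' := by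
    rcases hβ' with h | h
    · rw [h]
    · rw [h]; simp only [qf, Pi.neg_apply]; ring
  rw [hq]
  simp only [qf, hE, hF] at h1 ⊢
  linarith


/-- orthonormal eigenbasis: norms and orthogonality. -/
structure ONB (a b c : Fin 3 → ℝ) : Prop where
  aa : a 0 * a 0 + a 1 * a 1 + a 2 * a 2 = 1
  bb : b 0 * b 0 + b 1 * b 1 + b 2 * b 2 = 1
  cc : c 0 * c 0 + c 1 * c 1 + c 2 * c 2 = 1
  ab : a 0 * b 0 + a 1 * b 1 + a 2 * b 2 = 0
  ac : a 0 * c 0 + a 1 * c 1 + a 2 * c 2 = 0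
  bc : b 0 * c 0 + b 1 * c 1 + b 2 * c 2 = 0
  comp : ∀ i j, a i * a j + b i * b j + c i * c j = if i = j then 1 else 0

theorem onb_of {a b : Fin 3 → ℝ} (ha : a 0 * a 0 + a 1 * a 1 + a 2 * a 2 = 1)
    (hb : b 0 * b 0 + b 1 * b 1 + b 2 * b 2 = 1) (hab : a 0 * b 0 + a 1 * b 1 + a 2 * b 2 = 0) :
    ∃ c, ONB a b c := by
  obtain ⟨c, hc⟩ : ∃ c : Fin 3 → ℝ, c = ![a 1 * b 2 - a 2 * b 1, a 2 * b 0 - a 0 * b 2,
    a 0 * b 1 - a 1 * b 0] := ⟨_, rfl⟩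
  have c0 : c 0 = a 1 * b 2 - a 2 * b 1 := by rw [hc]; rfl
  have c1 : c 1 = a 2 * b 0 - a 0 * b 2 := by rw [hc]; rfl
  have c2 : c 2 = a 0 * b 1 - a 1 * b 0 := by rw [hc]; rfl
  have hcc : c 0 * c 0 + c 1 * c 1 + c 2 * c 2 = 1 := by
    rw [c0, c1, c2]
    linear_combination (b 0 * b 0 + b 1 * b 1 + b 2 * b 2) * ha + hb -
      (a 0 * b 0 + a 1 * b 1 + a 2 * b 2) * hab
  have hac : a 0 * c 0 + a 1 * c 1 + a 2 * c 2 = 0 := by
    rw [c0, c1, c2]; ring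
  have hbc : b 0 * c 0 + b 1 * c 1 + b 2 * c 2 = 0 := by
    rw [c0, c1, c2]; ring
  have hM : Matrix.of ![a, b, c] * (Matrix.of ![a, b, c]).transpose = 1 := by
    ext i j
    rw [Matrix.mul_apply, Fin.sum_univ_three]
    fin_cases i <;> fin_cases j <;>
      simp [Matrix.transpose_apply, Matrix.of_apply] <;> linarith [ha, hb, hab, hcc, hac, hbc]
  have hM' := mul_eq_one_comm.1 hM
  refine ⟨c, ha, hb, hcc, hab, hac, hbc, ?_⟩
  intro i j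
  have := congrFun (congrFun hM' i) j
  rw [Matrix.mul_apply, Fin.sum_univ_three, Matrix.one_apply] at this
  simpa [Matrix.transpose_apply, Matrix.of_apply] using this

/-- spectral decomposition of a symmetric `3 × 3` block. -/
theorem spec (A : Fin 3 → Fin 3 → ℝ) (h : ∀ i j, A i j = A j i) :
    ∃ (a b c : Fin 3 → ℝ) (μ ν ρ : ℝ), ONB a b c ∧
      ∀ i j, A i j = μ * a i * a j + ν * b i * b j + ρ * c i * c j := by
  obtain ⟨a, b, μ, ν, ha, hb, hab, hμ, hν⟩ := A4_eig A h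
  rw [Fin.sum_univ_three] at ha hb hab
  obtain ⟨c, hc⟩ := onb_of ha hb hab
  have hμ0 := hμ 0
  have hμ1 := hμ 1
  have hμ2 := hμ 2
  have hν0 := hν 0
  have hν1 := hν 1
  have hν2 := hν 2
  rw [Fin.sum_univ_three] at hμ0 hμ1 hμ2 hν0 hν1 hν2
  obtain ⟨v, hv⟩ : ∃ v : Fin 3 → ℝ, ∀ i, v i = A i 0 * c 0 + A i 1 * c 1 + A i 2 * c 2 :=
    ⟨fun i => A i 0 * c 0 + A i 1 * c 1 + A i 2 * c 2, fun i => rfl⟩
  obtain ⟨ρ, hρ⟩ : ∃ ρ, ρ = v 0 * c 0 + v 1 * c 1 + v 2 * c 2 := ⟨_, rfl⟩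
  have h10 := h 1 0
  have h20 := h 2 0
  have h21 := h 2 1
  have hva : v 0 * a 0 + v 1 * a 1 + v 2 * a 2 = 0 := by
    rw [hv, hv, hv, h10, h20, h21]
    rw [h10] at hμ1
    rw [h20, h21] at hμ2
    linear_combination c 0 * hμ0 + c 1 * hμ1 + c 2 * hμ2 + μ * hc.ac
  have hvb : v 0 * b 0 + v 1 * b 1 + v 2 * b 2 = 0 := by
    rw [hv, hv, hv, h10, h20, h21]
    rw [h10] at hν1
    rw [h20, h21] at hν2
    linear_combination c 0 * hν0 + c 1 * hν1 + c 2 * hν2 + ν * hc.bc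
  have hvc : ∀ i, v i = ρ * c i := by
    intro i
    have e0 := hc.comp i 0
    have e1 := hc.comp i 1
    have e2 := hc.comp i 2
    have : v i = v 0 * (if i = 0 then 1 else 0) + v 1 * (if i = 1 then 1 else 0)
        + v 2 * (if i = 2 then 1 else 0) := by
      fin_cases i <;> simp
    rw [this, ← e0, ← e1, ← e2, hρ]
    linear_combination a i * hva + b i * hvb
  refine ⟨a, b, c, μ, ν, ρ, hc, ?_⟩
  intro i j
  have e0 := hc.comp 0 j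
  have e1 := hc.comp 1 j
  have e2 := hc.comp 2 j
  have h1 : A i j = A i 0 * (if (0 : Fin 3) = j then 1 else 0)
      + A i 1 * (if (1 : Fin 3) = j then 1 else 0) + A i 2 * (if (2 : Fin 3) = j then 1 else 0) := by
    fin_cases j <;> simp
  rw [h1, ← e0, ← e1, ← e2]
  have k1 := hμ i
  have k2 := hν i
  have k3 := hvc i
  rw [hv] at k3
  rw [Fin.sum_univ_three] at k1 k2
  linear_combination a j * k1 + b j * k2 + c j * k3

theorem spec_tr {A : Fin 3 → Fin 3 → ℝ} {a b c : Fin 3 → ℝ} {μ ν ρ : ℝ} (hc : ONB a b c)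
    (hA : ∀ i j, A i j = μ * a i * a j + ν * b i * b j + ρ * c i * c j) :
    A 0 0 + A 1 1 + A 2 2 = μ + ν + ρ := by
  rw [hA, hA, hA]
  linear_combination μ * hc.aa + ν * hc.bb + ρ * hc.cc

theorem spec_sq {A : Fin 3 → Fin 3 → ℝ} {a b c : Fin 3 → ℝ} {μ ν ρ : ℝ} (hc : ONB a b c)
    (hA : ∀ i j, A i j = μ * a i * a j + ν * b i * b j + ρ * c i * c j) :
    ∑ i, ∑ j, A i j ^ 2 = μ ^ 2 + ν ^ 2 + ρ ^ 2 := by
  simp only [hA, Fin.sum_univ_three]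
  linear_combination (μ ^ 2 * (a 0 * a 0 + a 1 * a 1 + a 2 * a 2) + μ ^ 2) * hc.aa
    + (ν ^ 2 * (b 0 * b 0 + b 1 * b 1 + b 2 * b 2) + ν ^ 2) * hc.bb
    + (ρ ^ 2 * (c 0 * c 0 + c 1 * c 1 + c 2 * c 2) + ρ ^ 2) * hc.cc
    + 2 * μ * ν * (a 0 * b 0 + a 1 * b 1 + a 2 * b 2) * hc.ab
    + 2 * μ * ρ * (a 0 * c 0 + a 1 * c 1 + a 2 * c 2) * hc.ac
    + 2 * ν * ρ * (b 0 * c 0 + b 1 * c 1 + b 2 * c 2) * hc.bc

theorem spec_qa {A : Fin 3 → Fin 3 → ℝ} {a b c : Fin 3 → ℝ} {μ ν ρ : ℝ} (hc : ONB a b c)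
    (hA : ∀ i j, A i j = μ * a i * a j + ν * b i * b j + ρ * c i * c j) : qf A a a = μ := by
  simp only [qf, hA]
  linear_combination (μ * (a 0 * a 0 + a 1 * a 1 + a 2 * a 2) + μ) * hc.aa
    + ν * (a 0 * b 0 + a 1 * b 1 + a 2 * b 2) * hc.ab
    + ρ * (a 0 * c 0 + a 1 * c 1 + a 2 * c 2) * hc.ac

theorem spec_qb {A : Fin 3 → Fin 3 → ℝ} {a b c : Fin 3 → ℝ} {μ ν ρ : ℝ} (hc : ONB a b c)
    (hA : ∀ i j, A i j = μ * a i * a j + ν * b i * b j + ρ * c i * c j) : qf A b b = ν := by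
  simp only [qf, hA]
  linear_combination (ν * (b 0 * b 0 + b 1 * b 1 + b 2 * b 2) + ν) * hc.bb
    + μ * (a 0 * b 0 + a 1 * b 1 + a 2 * b 2) * hc.ab
    + ρ * (b 0 * c 0 + b 1 * c 1 + b 2 * c 2) * hc.bc

theorem spec_qc {A : Fin 3 → Fin 3 → ℝ} {a b c : Fin 3 → ℝ} {μ ν ρ : ℝ} (hc : ONB a b c)
    (hA : ∀ i j, A i j = μ * a i * a j + ν * b i * b j + ρ * c i * c j) : qf A c c = ρ := by
  simp only [qf, hA]
  linear_combination (ρ * (c 0 * c 0 + c 1 * c 1 + c 2 * c 2) + ρ) * hc.cc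
    + μ * (a 0 * c 0 + a 1 * c 1 + a 2 * c 2) * hc.ac
    + ν * (b 0 * c 0 + b 1 * c 1 + b 2 * c 2) * hc.bc

theorem low_scalar {μ ν ρ N : ℝ} (hN : 0 ≤ N) (htr : μ + ν + ρ = 3)
    (hsq : 6 * N ^ 2 + 3 = μ ^ 2 + ν ^ 2 + ρ ^ 2) : μ ≤ 1 - N ∨ ν ≤ 1 - N ∨ ρ ≤ 1 - N := by
  by_contra hcon
  simp only [not_or, not_le] at hcon
  obtain ⟨ca, cb, cc⟩ := hcon
  nlinarith [mul_pos (show 0 < N - (1 - μ) by linarith) (show 0 < (1 - μ) + 2 * N by linarith),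
    mul_pos (show 0 < N - (1 - ν) by linarith) (show 0 < (1 - ν) + 2 * N by linarith),
    mul_pos (show 0 < N - (1 - ρ) by linarith) (show 0 < (1 - ρ) + 2 * N by linarith)]

/-- a block with trace `3` has a unit vector on which its quadratic form is at most `1 - N`. -/
theorem exists_low (A : Fin 3 → Fin 3 → ℝ) (h : ∀ i j, A i j = A j i)
    (ht : A 0 0 + A 1 1 + A 2 2 = 3) {N : ℝ} (hN : 0 ≤ N)
    (hNA : 6 * N ^ 2 + 3 = ∑ i, ∑ j, A i j ^ 2) :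
    ∃ α : Fin 3 → ℝ, n3 α = 1 ∧ qf A α α ≤ 1 - N := by
  obtain ⟨a, b, c, μ, ν, ρ, hc, hA⟩ := spec A h
  rw [spec_tr hc hA] at ht
  rw [spec_sq hc hA] at hNA
  rcases low_scalar hN ht hNA with h | h | h
  · exact ⟨a, by simp only [n3]; linarith [hc.aa], by rw [spec_qa hc hA]; exact h⟩
  · exact ⟨b, by simp only [n3]; linarith [hc.bb], by rw [spec_qb hc hA]; exact h⟩
  · exact ⟨c, by simp only [n3]; linarith [hc.cc], by rw [spec_qc hc hA]; exact h⟩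

/-- The block of the opposite orientation. -/
def Bb (r : Arr4) (i j : Fin 3) : ℝ := Pm r i j - Sm r i j

/-- its squared norm -/
def nB (r : Arr4) : ℝ := ∑ i, ∑ j, Bb r i j ^ 2

section
variable {M 𝒪 V : Type*} [TopologicalSpace M] [CommRing 𝒪] [Algebra ℝ 𝒪]
    [AddCommGroup V] [Module 𝒪 V] {G : Geo2 M 𝒪 V}

theorem frame_facts (hE : G.Einstein 3) {p : M} {F : Fin 4 → V} (hF : G.ON p F) :
    G.rr p F = einArr (Pm (G.rr p F)) (Sm (G.rr p F)) ∧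
    (Ab (G.rr p F) 0 0 + Ab (G.rr p F) 1 1 + Ab (G.rr p F) 2 2 = 3 ∧
      ∀ i j, Ab (G.rr p F) i j = Ab (G.rr p F) j i) ∧
    (Bb (G.rr p F) 0 0 + Bb (G.rr p F) 1 1 + Bb (G.rr p F) 2 2 = 3 ∧
      ∀ i j, Bb (G.rr p F) i j = Bb (G.rr p F) j i) := by
  obtain ⟨h1, h2, h3, h4, h5⟩ := eq_einArr (Geom.algCurv_rr p F) (a1113_tr hE hF)
  refine ⟨h1, ⟨?_, ?_⟩, ⟨?_, ?_⟩⟩
  · unfold S4.Ab
    linarith only [h4, h5]
  · intro i j
    unfold S4.Ab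
    rw [h2 i j, h3 i j]
  · unfold Bb
    linarith only [h4, h5]
  · intro i j
    unfold Bb
    rw [h2 i j, h3 i j]

/-- `N + M ≤ 2` -/
theorem add_le_two (hE : G.Einstein 3) (hK : G.SecGe 0) {p : M} {F : Fin 4 → V} (hF : G.ON p F)
    {N N' : ℝ} (hN : 0 ≤ N) (hN' : 0 ≤ N') (hA : 6 * N ^ 2 + 3 = nA (G.rr p F))
    (hB : 6 * N' ^ 2 + 3 = nB (G.rr p F)) : N + N' ≤ 2 := by
  obtain ⟨h1, ⟨h2, h3⟩, h4, h5⟩ := frame_facts hE hF
  obtain ⟨α, hα, hα'⟩ := exists_low _ h3 h2 hN hA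
  obtain ⟨β, hβ, hβ'⟩ := exists_low _ h5 h4 hN' hB
  have h := blocks_nonneg h1 (a1113_rf hK hF) α β hα hβ
  have e1 : qf (fun i j => Pm (G.rr p F) i j + Sm (G.rr p F) i j) α α = qf (Ab (G.rr p F)) α α :=
    rfl
  have e2 : qf (fun i j => Pm (G.rr p F) i j - Sm (G.rr p F) i j) β β = qf (Bb (G.rr p F)) β β :=
    rfl
  rw [e1, e2] at h
  linarith

/-- if `N = M = 1` at `p` there is a flat plane at `p`. -/
theorem exists_flat (hE : G.Einstein 3) (hK : G.SecGe 0) {p : M} {F : Fin 4 → V} (hF : G.ON p F)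
    (hA : nA (G.rr p F) = 9) (hB : nB (G.rr p F) = 9) :
    ∃ F' : Fin 4 → V, G.ON p F' ∧ G.rr p F' 0 1 1 0 = 0 := by
  obtain ⟨h1, ⟨h2, h3⟩, h4, h5⟩ := frame_facts hE hF
  obtain ⟨α, hα, hα'⟩ := exists_low _ h3 h2 (N := 1) (by norm_num) (by unfold nA at hA; rw [hA]; norm_num)
  obtain ⟨β, hβ, hβ'⟩ := exists_low _ h5 h4 (N := 1) (by norm_num) (by unfold nB at hB; rw [hB]; norm_num)
  obtain ⟨X, Y, β', hb, hXE, hXF, hX, hY, hXY⟩ := exists_plane α β hα hβ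
  have hq : qf (Bb (G.rr p F)) β β = qf (Bb (G.rr p F)) β' β' := by
    rcases hb with h | h
    · rw [h]
    · rw [h]; simp only [qf, Pi.neg_apply]; ring
  obtain ⟨F', hF', h0, h1'⟩ := G.extend p (Geom.comb (𝒪 := 𝒪) F X) (Geom.comb (𝒪 := 𝒪) F Y)
    (by rw [Geom.g_cf hF]; simp only [Geom.cf_comb hF]; exact hX)
    (by rw [Geom.g_cf hF]; simp only [Geom.cf_comb hF]; exact hY)
    (by rw [Geom.g_cf hF]; simp only [Geom.cf_comb hF]; exact hXY)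
  refine ⟨F', hF', ?_⟩
  have e : G.rr p F' 0 1 1 0 = rf (G.rr p F) X Y Y X := by
    simp only [Geom.rr]
    rw [h0, h1', Geom.Rm_rf hF]
    simp only [Geom.cf_comb hF]
  have hge := a1113_rf hK hF X Y
  have e2 : rf (G.rr p F) X Y Y X = (qf (Ab (G.rr p F)) α α + qf (Bb (G.rr p F)) β' β') / 2 := by
    conv_lhs => rw [h1]
    rw [rf_einArr]
    simp only [qf, hXE, hXF, S4.Ab, Bb]
    ring
  rw [e]
  refine le_antisymm ?_ hge
  rw [e2, ← hq]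
  linarith

end

end Vale.Agent.P211.H56
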