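import Vale.Agent.P211.H56.Calc

set_option linter.all false

/-! P211, block L-ANA (helper56): the integral argument with functions of
`√n`, `√m`, `p` which are only Lipschitz at the zeros of `n` and `m`. -/

namespace Vale.Agent.P211.H56

open Topology Filter MeasureTheory Set
open scoped ContDiff
open Vale.Agent.P211 Vale.Agent.P211.S4

variable {M 𝒪 V : Type*} [TopologicalSpace M] [CommRing 𝒪] [Algebra ℝ 𝒪]
    [AddCommGroup V] [Module 𝒪 V] {G : Geo2 M 𝒪 V}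

/-- functions of three variables (with their partial derivatives) which can be composed with
elements of `𝒪` having values in `Ω`. -/
structure Sm3 (G : Geo2 M 𝒪 V) (Ω : Set (ℝ × ℝ × ℝ)) (f f1 f2 f3 : ℝ × ℝ × ℝ → ℝ) : Prop where
  c0 : ContinuousOn f Ω
  c1 : ContinuousOn f1 Ω
  c2 : ContinuousOn f2 Ω
  c3 : ContinuousOn f3 Ω
  comp : ∀ a b c : 𝒪, (∀ q, (G.ev q a, G.ev q b, G.ev q c) ∈ Ω) → ∃ h : 𝒪, ∀ q,
    G.ev q h = f (G.ev q a, G.ev q b, G.ev q c) ∧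
    ∀ X, G.ev q (G.D X h) = f1 (G.ev q a, G.ev q b, G.ev q c) * G.ev q (G.D X a) +
      f2 (G.ev q a, G.ev q b, G.ev q c) * G.ev q (G.D X b) +
      f3 (G.ev q a, G.ev q b, G.ev q c) * G.ev q (G.D X c)

namespace Sm3

variable {Ω : Set (ℝ × ℝ × ℝ)} {f f1 f2 f3 g g1 g2 g3 : ℝ × ℝ × ℝ → ℝ}

theorem ev_alg (q : M) (c : ℝ) : G.ev q (algebraMap ℝ 𝒪 c) = c := by
  rw [AlgHom.commutes]; simp

theorem const (c : ℝ) : Sm3 G Ω (fun _ => c) (fun _ => 0) (fun _ => 0) (fun _ => 0) where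
  c0 := continuousOn_const
  c1 := continuousOn_const
  c2 := continuousOn_const
  c3 := continuousOn_const
  comp a b d _ := ⟨algebraMap ℝ 𝒪 c, fun q => ⟨ev_alg q c, fun X => by
    rw [D_alg, map_zero]; ring⟩⟩

theorem v1 : Sm3 G Ω (fun v => v.1) (fun _ => 1) (fun _ => 0) (fun _ => 0) where
  c0 := continuous_fst.continuousOn
  c1 := continuousOn_const
  c2 := continuousOn_const
  c3 := continuousOn_const
  comp a b d _ := ⟨a, fun q => ⟨rfl, fun X => by ring⟩⟩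

theorem v2 : Sm3 G Ω (fun v => v.2.1) (fun _ => 0) (fun _ => 1) (fun _ => 0) where
  c0 := (continuous_fst.comp continuous_snd).continuousOn
  c1 := continuousOn_const
  c2 := continuousOn_const
  c3 := continuousOn_const
  comp a b d _ := ⟨b, fun q => ⟨rfl, fun X => by ring⟩⟩

theorem v3 : Sm3 G Ω (fun v => v.2.2) (fun _ => 0) (fun _ => 0) (fun _ => 1) where
  c0 := (continuous_snd.comp continuous_snd).continuousOn
  c1 := continuousOn_const
  c2 := continuousOn_const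
  c3 := continuousOn_const
  comp a b d _ := ⟨d, fun q => ⟨rfl, fun X => by ring⟩⟩

theorem congr (h : Sm3 G Ω f f1 f2 f3) (e0 : ∀ v ∈ Ω, g v = f v) (e1 : ∀ v ∈ Ω, g1 v = f1 v)
    (e2 : ∀ v ∈ Ω, g2 v = f2 v) (e3 : ∀ v ∈ Ω, g3 v = f3 v) : Sm3 G Ω g g1 g2 g3 where
  c0 := h.c0.congr e0
  c1 := h.c1.congr e1
  c2 := h.c2.congr e2
  c3 := h.c3.congr e3
  comp a b d hΩ := by
    obtain ⟨k, hk⟩ := h.comp a b d hΩ
    exact ⟨k, fun q => ⟨by rw [(hk q).1, e0 _ (hΩ q)], fun X => by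
      rw [(hk q).2, e1 _ (hΩ q), e2 _ (hΩ q), e3 _ (hΩ q)]⟩⟩

theorem add (hf : Sm3 G Ω f f1 f2 f3) (hg : Sm3 G Ω g g1 g2 g3) :
    Sm3 G Ω (fun v => f v + g v) (fun v => f1 v + g1 v) (fun v => f2 v + g2 v)
      (fun v => f3 v + g3 v) where
  c0 := hf.c0.add hg.c0
  c1 := hf.c1.add hg.c1
  c2 := hf.c2.add hg.c2
  c3 := hf.c3.add hg.c3
  comp a b d hΩ := by
    obtain ⟨k, hk⟩ := hf.comp a b d hΩ
    obtain ⟨l, hl⟩ := hg.comp a b d hΩ
    exact ⟨k + l, fun q => ⟨by rw [map_add, (hk q).1, (hl q).1], fun X => by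
      rw [G.D_add, map_add, (hk q).2, (hl q).2]; ring⟩⟩

theorem mul (hf : Sm3 G Ω f f1 f2 f3) (hg : Sm3 G Ω g g1 g2 g3) :
    Sm3 G Ω (fun v => f v * g v) (fun v => f1 v * g v + f v * g1 v)
      (fun v => f2 v * g v + f v * g2 v) (fun v => f3 v * g v + f v * g3 v) where
  c0 := hf.c0.mul hg.c0
  c1 := (hf.c1.mul hg.c0).add (hf.c0.mul hg.c1)
  c2 := (hf.c2.mul hg.c0).add (hf.c0.mul hg.c2)
  c3 := (hf.c3.mul hg.c0).add (hf.c0.mul hg.c3)
  comp a b d hΩ := by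
    obtain ⟨k, hk⟩ := hf.comp a b d hΩ
    obtain ⟨l, hl⟩ := hg.comp a b d hΩ
    exact ⟨k * l, fun q => ⟨by rw [map_mul, (hk q).1, (hl q).1], fun X => by
      rw [G.D_mul, map_add, map_mul, map_mul, (hk q).2, (hl q).2, (hk q).1, (hl q).1]; ring⟩⟩

/-- composition with a function of one variable -/
theorem comp1 (hf : Sm3 G Ω f f1 f2 f3) (γ : ℝ → ℝ) (hγ : ∀ v ∈ Ω, ContDiffAt ℝ ∞ γ (f v)) :
    Sm3 G Ω (fun v => γ (f v)) (fun v => deriv γ (f v) * f1 v) (fun v => deriv γ (f v) * f2 v)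
      (fun v => deriv γ (f v) * f3 v) := by
  have hγc : ContinuousOn (fun v => γ (f v)) Ω := fun v hv =>
    ContinuousAt.comp_continuousWithinAt (hγ v hv).continuousAt (hf.c0 v hv)
  have hγd : ContinuousOn (fun v => deriv γ (f v)) Ω := fun v hv =>
    ContinuousAt.comp_continuousWithinAt (contDiffAt_deriv (hγ v hv)).continuousAt (hf.c0 v hv)
  refine ⟨hγc, hγd.mul hf.c1, hγd.mul hf.c2, hγd.mul hf.c3, fun a b d hΩ => ?_⟩
  obtain ⟨k, hk⟩ := hf.comp a b d hΩ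
  obtain ⟨l, hl⟩ := G.comp k γ fun q => by rw [(hk q).1]; exact hγ _ (hΩ q)
  refine ⟨l, fun q => ⟨by rw [(hl q).1, (hk q).1], fun X => ?_⟩⟩
  rw [(hl q).2, (hk q).1, (hk q).2]; ring

theorem inv (hf : Sm3 G Ω f f1 f2 f3) (h0 : ∀ v ∈ Ω, f v ≠ 0) :
    Sm3 G Ω (fun v => (f v)⁻¹) (fun v => -((f v)⁻¹ ^ 2) * f1 v) (fun v => -((f v)⁻¹ ^ 2) * f2 v)
      (fun v => -((f v)⁻¹ ^ 2) * f3 v) := by
  refine (hf.comp1 (fun s => s⁻¹) fun v hv => contDiffAt_inv ℝ (h0 v hv)).congr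
    (fun v _ => rfl) ?_ ?_ ?_ <;>
  · intro v hv
    have : deriv (fun s : ℝ => s⁻¹) (f v) = -((f v)⁻¹ ^ 2) := by
      rw [deriv_inv]; simp
    rw [this]

theorem smul (c : ℝ) (hf : Sm3 G Ω f f1 f2 f3) :
    Sm3 G Ω (fun v => c * f v) (fun v => c * f1 v) (fun v => c * f2 v) (fun v => c * f3 v) :=
  ((const c).mul hf).congr (fun v _ => rfl) (fun v _ => by ring) (fun v _ => by ring)
    (fun v _ => by ring)

theorem neg (hf : Sm3 G Ω f f1 f2 f3) :
    Sm3 G Ω (fun v => - f v) (fun v => - f1 v) (fun v => - f2 v) (fun v => - f3 v) :=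
  (hf.smul (-1)).congr (fun v _ => by ring) (fun v _ => by ring) (fun v _ => by ring)
    (fun v _ => by ring)

theorem sub (hf : Sm3 G Ω f f1 f2 f3) (hg : Sm3 G Ω g g1 g2 g3) :
    Sm3 G Ω (fun v => f v - g v) (fun v => f1 v - g1 v) (fun v => f2 v - g2 v)
      (fun v => f3 v - g3 v) :=
  (hf.add hg.neg).congr (fun v _ => by ring) (fun v _ => by ring) (fun v _ => by ring)
    (fun v _ => by ring)

theorem pow (hf : Sm3 G Ω f f1 f2 f3) (n : ℕ) :
    Sm3 G Ω (fun v => f v ^ n) (fun v => n * f v ^ (n - 1) * f1 v)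
      (fun v => n * f v ^ (n - 1) * f2 v) (fun v => n * f v ^ (n - 1) * f3 v) := by
  refine (hf.comp1 (fun s => s ^ n) fun v hv => by fun_prop).congr
    (fun v _ => rfl) ?_ ?_ ?_ <;>
  · intro v hv
    have : deriv (fun s : ℝ => s ^ n) (f v) = n * f v ^ (n - 1) := by
      rw [deriv_pow_field]
    rw [this]

theorem mono {Ω' : Set (ℝ × ℝ × ℝ)} (hf : Sm3 G Ω f f1 f2 f3) (h : Ω' ⊆ Ω) :
    Sm3 G Ω' f f1 f2 f3 :=
  ⟨hf.c0.mono h, hf.c1.mono h, hf.c2.mono h, hf.c3.mono h, fun a b c hΩ =>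
    hf.comp a b c fun q => h (hΩ q)⟩

end Sm3

/-- regularised square root -/
noncomputable def rt (G : Geo2 M 𝒪 V) (n : 𝒪) (e : ℝ) (q : M) : ℝ := Real.sqrt (G.ev q n + e ^ 2)

/-- the argument of the coefficient functions -/
noncomputable def Ph (G : Geo2 M 𝒪 V) (n m p : 𝒪) (e : ℝ) (q : M) : ℝ × ℝ × ℝ :=
  (rt G n e q, rt G m e q, G.ev q p)

/-- the divergence of `∑ A_i(√(n+e²), √(m+e²), p) ∇z_i` -/
noncomputable def FF (G : Geo2 M 𝒪 V) {ι : Type*} [Fintype ι] (z : ι → 𝒪)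
    (A A1 A2 A3 : ι → ℝ × ℝ × ℝ → ℝ) (n m p : 𝒪) (e : ℝ) (q : M) : ℝ :=
  ∑ i, (A i (Ph G n m p e q) * G.ev q (G.lap (z i)) +
    (A1 i (Ph G n m p e q) * (G.ev q (G.D (G.grad (z i)) n) / (2 * rt G n e q)) +
     A2 i (Ph G n m p e q) * (G.ev q (G.D (G.grad (z i)) m) / (2 * rt G m e q)) +
     A3 i (Ph G n m p e q) * G.ev q (G.D (G.grad (z i)) p)))

theorem rt_cont (n : 𝒪) : Continuous fun z : ℝ × M => rt G n z.1 z.2 :=
  Real.continuous_sqrt.comp (((G.ev_cont n).comp continuous_snd).add (continuous_fst.pow 2))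

theorem Ph_cont (n m p : 𝒪) : Continuous fun z : ℝ × M => Ph G n m p z.1 z.2 :=
  (rt_cont n).prodMk ((rt_cont m).prodMk ((G.ev_cont p).comp continuous_snd))

theorem rt_pos {n : 𝒪} (hn : ∀ q, 0 ≤ G.ev q n) {e : ℝ} (he : e ≠ 0) (q : M) : 0 < rt G n e q := by
  unfold rt
  have : 0 < e ^ 2 := by positivity
  exact Real.sqrt_pos.2 (by linarith [hn q])

theorem exists_rt {n : 𝒪} (hn : ∀ q, 0 ≤ G.ev q n) {e : ℝ} (he : e ≠ 0) :
    ∃ N : 𝒪, ∀ q, G.ev q N = rt G n e q ∧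
      ∀ X, G.ev q (G.D X N) = G.ev q (G.D X n) / (2 * rt G n e q) := by
  have h1 : ∀ q, ContDiffAt ℝ ∞ (fun s : ℝ => Real.sqrt (s + e ^ 2)) (G.ev q n) := by
    intro q
    have h2 : G.ev q n + e ^ 2 ≠ 0 := by
      have : 0 < e ^ 2 := by positivity
      linarith [hn q]
    exact ContDiffAt.sqrt (by fun_prop) h2
  obtain ⟨N, hN⟩ := G.comp n _ h1
  refine ⟨N, fun q => ⟨(hN q).1, fun X => ?_⟩⟩
  rw [(hN q).2]
  have h2 : G.ev q n + e ^ 2 ≠ 0 := by
    have : 0 < e ^ 2 := by positivity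
    linarith [hn q]
  have h3 : HasDerivAt (fun s : ℝ => Real.sqrt (s + e ^ 2)) (1 / (2 * Real.sqrt (G.ev q n + e ^ 2)))
      (G.ev q n) := by
    have := ((hasDerivAt_id (G.ev q n)).add_const (e ^ 2)).sqrt h2
    simpa using this
  rw [h3.deriv]
  unfold rt
  ring

variable {ι : Type*} [Fintype ι] {z : ι → 𝒪} {A A1 A2 A3 : ι → ℝ × ℝ × ℝ → ℝ}
  {Ω : Set (ℝ × ℝ × ℝ)} {n m p : 𝒪}

theorem dv_sum (s : Finset ι) (X : ι → V) : G.dv (∑ i ∈ s, X i) = ∑ i ∈ s, G.dv (X i) := by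
  classical
  induction s using Finset.induction_on with
  | empty =>
    rw [Finset.sum_empty, Finset.sum_empty]
    exact dv_null fun Y => g_zero_left Y
  | insert i s hi ih => rw [Finset.sum_insert hi, Finset.sum_insert hi, dv_add, ih]

/-- `FF` is a divergence for `e ≠ 0`. -/
theorem FF_div (hA : ∀ i, Sm3 G Ω (A i) (A1 i) (A2 i) (A3 i)) (hn : ∀ q, 0 ≤ G.ev q n)
    (hm : ∀ q, 0 ≤ G.ev q m) {e : ℝ} (he : e ≠ 0) (hΩ : ∀ q, Ph G n m p e q ∈ Ω) :
    ∃ X : V, ∀ q, G.ev q (G.dv X) = FF G z A A1 A2 A3 n m p e q := by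
  obtain ⟨N, hN⟩ := exists_rt hn he
  obtain ⟨N', hN'⟩ := exists_rt hm he
  have hc : ∀ i, ∃ h : 𝒪, ∀ q, G.ev q h = A i (Ph G n m p e q) ∧
    ∀ X, G.ev q (G.D X h) = A1 i (Ph G n m p e q) * (G.ev q (G.D X n) / (2 * rt G n e q)) +
      A2 i (Ph G n m p e q) * (G.ev q (G.D X m) / (2 * rt G m e q)) +
      A3 i (Ph G n m p e q) * G.ev q (G.D X p) := by
    intro i
    obtain ⟨h, hh⟩ := (hA i).comp N N' p fun q => by
      rw [(hN q).1, (hN' q).1]; exact hΩ q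
    refine ⟨h, fun q => ⟨?_, fun X => ?_⟩⟩
    · rw [(hh q).1, (hN q).1, (hN' q).1]; rfl
    · rw [(hh q).2, (hN q).1, (hN' q).1, (hN q).2, (hN' q).2]; rfl
  choose h hh using hc
  refine ⟨∑ i, h i • G.grad (z i), fun q => ?_⟩
  rw [dv_sum, map_sum]
  unfold FF
  refine Finset.sum_congr rfl fun i _ => ?_
  rw [dv_smul', map_add, map_mul, (hh i q).1, (hh i q).2]
  unfold Geo2.lap
  ring

/-- quotients are bounded -/
theorem quot_bound {n : 𝒪} (hn : ∀ q, 0 ≤ G.ev q n) {C : ℝ}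
    (hC : ∀ q, G.ev q (G.g (G.grad n) (G.grad n)) ≤ C * G.ev q n) (u : 𝒪) {D : ℝ}
    (hD : ∀ q, G.ev q (G.g (G.grad u) (G.grad u)) ≤ D) (hC0 : 0 ≤ C) (hD0 : 0 ≤ D) (e : ℝ) (q : M) :
    |G.ev q (G.D (G.grad u) n) / (2 * rt G n e q)| ≤ Real.sqrt (C * D) := by
  obtain ⟨F, hF⟩ := G.frame q
  have hcs : G.ev q (G.D (G.grad u) n) ^ 2 ≤
      G.ev q (G.g (G.grad u) (G.grad u)) * G.ev q (G.g (G.grad n) (G.grad n)) := by
    have h1 : G.ev q (G.D (G.grad u) n) = ∑ i, G.ev q (G.D (F i) u) * G.ev q (G.D (F i) n) := by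
      have hexp := G.toGeom.expand (p := q) (F := F) hF
        ⟨⟨fun X => G.D X n, fun Y Z => G.D_add_left Y Z n⟩, fun b Y => G.D_smul_left b Y n⟩
        (G.grad u)
      have hexp' : G.ev q (G.D (G.grad u) n) =
        ∑ i, G.ev q (G.g (G.grad u) (F i)) * G.ev q (G.D (F i) n) := hexp
      rw [hexp']
      refine Finset.sum_congr rfl fun i _ => ?_
      rw [G.grad_spec]
    rw [h1, grad_sq u hF, grad_sq n hF]
    exact Finset.sum_mul_sq_le_sq_mul_sq _ _ _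
  have h2 : G.ev q (G.D (G.grad u) n) ^ 2 ≤ D * (C * G.ev q n) :=
    hcs.trans (mul_le_mul (hD q) (hC q) (G.g_nonneg q _) hD0)
  rcases (Real.sqrt_nonneg (G.ev q n + e ^ 2)).lt_or_eq with h | h
  · have hr : 0 < rt G n e q := h
    rw [abs_div, abs_of_pos (by positivity : 0 < 2 * rt G n e q), div_le_iff₀ (by positivity)]
    refine abs_le_of_sq_le_sq ?_ (by positivity)
    · have h3 : rt G n e q ^ 2 = G.ev q n + e ^ 2 := Real.sq_sqrt (by
        have := hn q; positivity)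
      rw [mul_pow, mul_pow, Real.sq_sqrt (by positivity), h3]
      have h4 : 0 ≤ C * D := by positivity
      nlinarith [sq_nonneg e, hn q, mul_nonneg h4 (sq_nonneg e), mul_nonneg h4 (hn q)]
  · have hr : rt G n e q = 0 := h.symm
    rw [hr]; simp

theorem D_zero_of_grad {n : 𝒪} {C : ℝ}
    (hC : ∀ q, G.ev q (G.g (G.grad n) (G.grad n)) ≤ C * G.ev q n) {q : M} (h0 : G.ev q n = 0)
    (X : V) : G.ev q (G.D X n) = 0 := by
  have h1 : G.ev q (G.g (G.grad n) (G.grad n)) = 0 := by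
    have := hC q
    rw [h0, mul_zero] at this
    exact le_antisymm this (G.g_nonneg _ _)
  have h2 := G.ptwise q ⟨⟨fun Y => G.g Y X, fun a b => G.g_add_left a b _⟩,
    fun a b => G.g_smul_left a b _⟩ (G.grad n) h1
  have h3 : G.ev q (G.g (G.grad n) X) = 0 := h2
  rw [← G.grad_spec]; exact h3

theorem quot_tendsto {n : 𝒪} (hn : ∀ q, 0 ≤ G.ev q n) {C : ℝ}
    (hC : ∀ q, G.ev q (G.g (G.grad n) (G.grad n)) ≤ C * G.ev q n) (X : V) (q : M) :
    Tendsto (fun e : ℝ => G.ev q (G.D X n) / (2 * rt G n e q)) (𝓝 0)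
      (𝓝 (G.ev q (G.D X n) / (2 * rt G n 0 q))) := by
  rcases (hn q).lt_or_eq with h | h
  · have h1 : Continuous fun e : ℝ => rt G n e q := by
      unfold rt
      exact Real.continuous_sqrt.comp (continuous_const.add (continuous_id.pow 2))
    have h2 : 2 * rt G n 0 q ≠ 0 := by
      have : 0 < rt G n 0 q := by
        unfold rt; simpa using Real.sqrt_pos.2 h
      positivity
    exact tendsto_const_nhds.div (h1.tendsto 0 |>.const_mul 2) h2
  · rw [D_zero_of_grad hC h.symm X]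
    simp

/-- pointwise convergence -/
theorem FF_tendsto (hΩo : IsOpen Ω) (hA : ∀ i, Sm3 G Ω (A i) (A1 i) (A2 i) (A3 i))
    (hn : ∀ q, 0 ≤ G.ev q n) (hm : ∀ q, 0 ≤ G.ev q m) {C C' : ℝ}
    (hC : ∀ q, G.ev q (G.g (G.grad n) (G.grad n)) ≤ C * G.ev q n)
    (hC' : ∀ q, G.ev q (G.g (G.grad m) (G.grad m)) ≤ C' * G.ev q m)
    (hΩ : ∀ q, Ph G n m p 0 q ∈ Ω) (q : M) :
    Tendsto (fun e => FF G z A A1 A2 A3 n m p e q) (𝓝 0) (𝓝 (FF G z A A1 A2 A3 n m p 0 q)) := by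
  have hP : Tendsto (fun e => Ph G n m p e q) (𝓝 0) (𝓝 (Ph G n m p 0 q)) := by
    have h1 : Continuous fun e : ℝ => Ph G n m p e q :=
      (Ph_cont n m p).comp (continuous_id.prodMk continuous_const)
    exact h1.tendsto 0
  have hc : ∀ {f : ℝ × ℝ × ℝ → ℝ}, ContinuousOn f Ω →
      Tendsto (fun e => f (Ph G n m p e q)) (𝓝 0) (𝓝 (f (Ph G n m p 0 q))) := fun hf =>
    ((hf.continuousAt (hΩo.mem_nhds (hΩ q))).tendsto).comp hP
  unfold FF
  refine tendsto_finset_sum _ fun i _ => ?_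
  refine ((hc (hA i).c0).mul_const _).add (Tendsto.add (Tendsto.add ?_ ?_) ?_)
  · exact (hc (hA i).c1).mul (quot_tendsto hn hC _ q)
  · exact (hc (hA i).c2).mul (quot_tendsto hm hC' _ q)
  · exact (hc (hA i).c3).mul_const _

/-- continuity of the limit where `n`, `m` are positive -/
theorem FF_contAt (hΩo : IsOpen Ω) (hA : ∀ i, Sm3 G Ω (A i) (A1 i) (A2 i) (A3 i))
    (hΩ : ∀ q, Ph G n m p 0 q ∈ Ω) {q : M} (h1 : 0 < G.ev q n) (h2 : 0 < G.ev q m) :
    ContinuousAt (fun q => FF G z A A1 A2 A3 n m p 0 q) q := by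
  have hP : Continuous fun q => Ph G n m p 0 q :=
    (Ph_cont n m p).comp (continuous_const.prodMk continuous_id)
  have hc : ∀ {f : ℝ × ℝ × ℝ → ℝ}, ContinuousOn f Ω →
      ContinuousAt (fun q => f (Ph G n m p 0 q)) q := fun hf =>
    (hf.continuousAt (hΩo.mem_nhds (hΩ q))).comp hP.continuousAt
  have hq : ∀ {n : 𝒪} (X : V), 0 < G.ev q n →
      ContinuousAt (fun q => G.ev q (G.D X n) / (2 * rt G n 0 q)) q := by
    intro n X hn
    have h3 : Continuous fun q : M => rt G n 0 q :=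
      (rt_cont n).comp (continuous_const.prodMk continuous_id)
    refine (G.ev_cont _).continuousAt.div (continuousAt_const.mul h3.continuousAt) ?_
    have : 0 < rt G n 0 q := by
      unfold rt; simpa using Real.sqrt_pos.2 hn
    positivity
  unfold FF
  refine tendsto_finset_sum _ fun i _ => ?_
  refine ((hc (hA i).c0).mul (G.ev_cont _).continuousAt).add
    (ContinuousAt.add (ContinuousAt.add ?_ ?_) ?_)
  · exact (hc (hA i).c1).mul (hq _ h1)
  · exact (hc (hA i).c2).mul (hq _ h2)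
  · exact (hc (hA i).c3).mul (G.ev_cont _).continuousAt

/-- for small `e` the arguments stay in `Ω` -/
theorem exists_e0 [CompactSpace M] (hΩo : IsOpen Ω) (hΩ : ∀ q, Ph G n m p 0 q ∈ Ω) :
    ∃ e0 : ℝ, 0 < e0 ∧ ∀ e, |e| ≤ e0 → ∀ q, Ph G n m p e q ∈ Ω := by
  have h1 : ∀ᶠ e : ℝ in 𝓝 0, ∀ q ∈ (univ : Set M), Ph G n m p e q ∈ Ω := by
    apply isCompact_univ.eventually_forall_of_forall_eventually
    intro q _
    have h2 : ContinuousAt (fun z : ℝ × M => Ph G n m p z.1 z.2) (0, q) :=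
      (Ph_cont n m p).continuousAt
    exact h2.eventually (hΩo.mem_nhds (hΩ q))
  obtain ⟨e1, he1, h2⟩ := Metric.eventually_nhds_iff.1 h1
  refine ⟨e1 / 2, by positivity, fun e he q => h2 ?_ q (mem_univ q)⟩
  rw [Real.dist_eq, sub_zero]; linarith

theorem exists_bound [CompactSpace M] {f : ℝ × ℝ × ℝ → ℝ} (hf : ContinuousOn f Ω) {e0 : ℝ}
    (h : ∀ e, |e| ≤ e0 → ∀ q, Ph G n m p e q ∈ Ω) :
    ∃ B, 0 ≤ B ∧ ∀ e, |e| ≤ e0 → ∀ q, |f (Ph G n m p e q)| ≤ B := by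
  have h1 : IsCompact (Metric.closedBall (0 : ℝ) e0 ×ˢ (univ : Set M)) :=
    (isCompact_closedBall _ _).prod isCompact_univ
  have h2 : ContinuousOn (fun z : ℝ × M => f (Ph G n m p z.1 z.2))
      (Metric.closedBall (0 : ℝ) e0 ×ˢ (univ : Set M)) := by
    apply hf.comp (Ph_cont n m p).continuousOn
    rintro ⟨e, q⟩ ⟨he, -⟩
    apply h
    simpa [Real.dist_eq] using he
  obtain ⟨B, hB⟩ := h1.exists_bound_of_continuousOn h2
  refine ⟨max B 0, le_max_right _ _, fun e he q => ?_⟩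
  refine (hB (e, q) ⟨by simpa [Real.dist_eq] using he, mem_univ _⟩).trans (le_max_left _ _)

theorem exists_ev_bound [CompactSpace M] (f : 𝒪) : ∃ B, 0 ≤ B ∧ ∀ q, |G.ev q f| ≤ B := by
  obtain ⟨B, hB⟩ := isCompact_univ.exists_bound_of_continuousOn (G.ev_cont f).continuousOn
  exact ⟨max B 0, le_max_right _ _, fun q => (hB q (mem_univ q)).trans (le_max_left _ _)⟩

/-- uniform bound -/
theorem FF_bound [CompactSpace M] (hA : ∀ i, Sm3 G Ω (A i) (A1 i) (A2 i) (A3 i))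
    (hn : ∀ q, 0 ≤ G.ev q n) (hm : ∀ q, 0 ≤ G.ev q m) {C C' : ℝ}
    (hC : ∀ q, G.ev q (G.g (G.grad n) (G.grad n)) ≤ C * G.ev q n)
    (hC' : ∀ q, G.ev q (G.g (G.grad m) (G.grad m)) ≤ C' * G.ev q m) {e0 : ℝ}
    (h : ∀ e, |e| ≤ e0 → ∀ q, Ph G n m p e q ∈ Ω) :
    ∃ B, ∀ e, |e| ≤ e0 → ∀ q, |FF G z A A1 A2 A3 n m p e q| ≤ B := by
  obtain ⟨D, hD⟩ : ∃ D : ℝ, D = max C 0 := ⟨_, rfl⟩
  obtain ⟨D', hD'⟩ : ∃ D' : ℝ, D' = max C' 0 := ⟨_, rfl⟩
  have hCD : ∀ q, G.ev q (G.g (G.grad n) (G.grad n)) ≤ D * G.ev q n := fun q =>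
    (hC q).trans (mul_le_mul_of_nonneg_right (by rw [hD]; exact le_max_left _ _) (hn q))
  have hCD' : ∀ q, G.ev q (G.g (G.grad m) (G.grad m)) ≤ D' * G.ev q m := fun q =>
    (hC' q).trans (mul_le_mul_of_nonneg_right (by rw [hD']; exact le_max_left _ _) (hm q))
  have hD0 : 0 ≤ D := by rw [hD]; exact le_max_right _ _
  have hD0' : 0 ≤ D' := by rw [hD']; exact le_max_right _ _
  have hi : ∀ i, ∃ B, ∀ e, |e| ≤ e0 → ∀ q, |A i (Ph G n m p e q) * G.ev q (G.lap (z i)) +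
    (A1 i (Ph G n m p e q) * (G.ev q (G.D (G.grad (z i)) n) / (2 * rt G n e q)) +
     A2 i (Ph G n m p e q) * (G.ev q (G.D (G.grad (z i)) m) / (2 * rt G m e q)) +
     A3 i (Ph G n m p e q) * G.ev q (G.D (G.grad (z i)) p))| ≤ B := by
    intro i
    obtain ⟨B0, hB0, h0⟩ := exists_bound (hA i).c0 h
    obtain ⟨B1, hB1, h1⟩ := exists_bound (hA i).c1 h
    obtain ⟨B2, hB2, h2⟩ := exists_bound (hA i).c2 h
    obtain ⟨B3, hB3, h3⟩ := exists_bound (hA i).c3 h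
    obtain ⟨L0, hL0, l0⟩ := exists_ev_bound (G := G) (G.lap (z i))
    obtain ⟨L3, hL3, l3⟩ := exists_ev_bound (G := G) (G.D (G.grad (z i)) p)
    obtain ⟨L, hL, l⟩ := exists_ev_bound (G := G) (G.g (G.grad (z i)) (G.grad (z i)))
    have l' : ∀ q, G.ev q (G.g (G.grad (z i)) (G.grad (z i))) ≤ L := fun q =>
      (le_abs_self _).trans (l q)
    refine ⟨B0 * L0 + (B1 * Real.sqrt (D * L) + B2 * Real.sqrt (D' * L) + B3 * L3), ?_⟩
    intro e he q
    have e0 : |A i (Ph G n m p e q) * G.ev q (G.lap (z i))| ≤ B0 * L0 := by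
      rw [abs_mul]; exact mul_le_mul (h0 e he q) (l0 q) (abs_nonneg _) hB0
    have e1 : |A1 i (Ph G n m p e q) * (G.ev q (G.D (G.grad (z i)) n) / (2 * rt G n e q))|
        ≤ B1 * Real.sqrt (D * L) := by
      rw [abs_mul]
      exact mul_le_mul (h1 e he q) (quot_bound hn hCD (z i) l' hD0 hL e q) (abs_nonneg _) hB1
    have e2 : |A2 i (Ph G n m p e q) * (G.ev q (G.D (G.grad (z i)) m) / (2 * rt G m e q))|
        ≤ B2 * Real.sqrt (D' * L) := by
      rw [abs_mul]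
      exact mul_le_mul (h2 e he q) (quot_bound hm hCD' (z i) l' hD0' hL e q) (abs_nonneg _) hB2
    have e3 : |A3 i (Ph G n m p e q) * G.ev q (G.D (G.grad (z i)) p)| ≤ B3 * L3 := by
      rw [abs_mul]; exact mul_le_mul (h3 e he q) (l3 q) (abs_nonneg _) hB3
    exact (abs_add_le _ _).trans (add_le_add e0 ((abs_add_le _ _).trans
      (add_le_add ((abs_add_le _ _).trans (add_le_add e1 e2)) e3)))
  choose B hB using hi
  refine ⟨∑ i, B i, fun e he q => ?_⟩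
  unfold FF
  exact (Finset.abs_sum_le_sum_abs _ _).trans (Finset.sum_le_sum fun i _ => hB i e he q)

/-- **The integral argument.** -/
theorem skeleton [CompactSpace M] [MeasurableSpace M] [BorelSpace M] {μ : Measure M}
    [IsFiniteMeasure μ] [μ.IsOpenPosMeasure] (hdiv : DivThm G μ) (hΩo : IsOpen Ω)
    (hA : ∀ i, Sm3 G Ω (A i) (A1 i) (A2 i) (A3 i))
    (hn : ∀ q, 0 ≤ G.ev q n) (hm : ∀ q, 0 ≤ G.ev q m) {C C' : ℝ}
    (hC : ∀ q, G.ev q (G.g (G.grad n) (G.grad n)) ≤ C * G.ev q n)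
    (hC' : ∀ q, G.ev q (G.g (G.grad m) (G.grad m)) ≤ C' * G.ev q m)
    (hΩ : ∀ q, Ph G n m p 0 q ∈ Ω)
    (hpos : ∀ q, 0 ≤ FF G z A A1 A2 A3 n m p 0 q) {q0 : M} (h1 : 0 < G.ev q0 n)
    (h2 : 0 < G.ev q0 m) : FF G z A A1 A2 A3 n m p 0 q0 = 0 := by
  obtain ⟨e0, he0, hΩe⟩ := exists_e0 hΩo hΩ
  obtain ⟨B, hB⟩ := FF_bound (z := z) hA hn hm hC hC' hΩe
  obtain ⟨e, he⟩ : ∃ e : ℕ → ℝ, e = fun k : ℕ => e0 / ((k : ℝ) + 1) := ⟨_, rfl⟩
  have hepos : ∀ k, 0 < e k := fun k => by rw [he]; positivity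
  have hele : ∀ k, |e k| ≤ e0 := fun k => by
    rw [abs_of_pos (hepos k), he]
    exact div_le_self he0.le (by have : (0 : ℝ) ≤ k := Nat.cast_nonneg k; linarith)
  have hetend : Tendsto e atTop (𝓝 0) := by
    rw [he]
    have := (tendsto_one_div_add_atTop_nhds_zero_nat (𝕜 := ℝ)).const_mul e0
    simp only [mul_zero] at this
    refine this.congr fun k => ?_
    rw [mul_one_div]
  have hdvk : ∀ k, ∃ X : V, ∀ q, G.ev q (G.dv X) = FF G z A A1 A2 A3 n m p (e k) q := fun k =>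
    FF_div hA hn hm (hepos k).ne' (hΩe _ (hele k))
  have hcont : ∀ k, Continuous fun q => FF G z A A1 A2 A3 n m p (e k) q := fun k => by
    obtain ⟨X, hX⟩ := hdvk k
    have : (fun q => FF G z A A1 A2 A3 n m p (e k) q) = fun q => G.ev q (G.dv X) := by
      ext q; exact (hX q).symm
    rw [this]; exact G.ev_cont _
  have hint : ∀ k, ∫ q, FF G z A A1 A2 A3 n m p (e k) q ∂μ = 0 := fun k => by
    obtain ⟨X, hX⟩ := hdvk k
    have : (fun q => FF G z A A1 A2 A3 n m p (e k) q) = fun q => G.ev q (G.dv X) := by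
      ext q; exact (hX q).symm
    rw [this]; exact hdiv X
  by_contra hne
  have hpos0 : 0 < FF G z A A1 A2 A3 n m p 0 q0 := lt_of_le_of_ne (hpos q0) (Ne.symm hne)
  -- limits
  have hlim : ∀ q, Tendsto (fun k => FF G z A A1 A2 A3 n m p (e k) q) atTop
      (𝓝 (FF G z A A1 A2 A3 n m p 0 q)) := fun q =>
    (FF_tendsto hΩo hA hn hm hC hC' hΩ q).comp hetend
  have htend : Tendsto (fun k => ∫ q, FF G z A A1 A2 A3 n m p (e k) q ∂μ) atTop
      (𝓝 (∫ q, FF G z A A1 A2 A3 n m p 0 q ∂μ)) := by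
    apply tendsto_integral_of_dominated_convergence (fun _ => B)
    · exact fun k => (hcont k).aestronglyMeasurable
    · exact integrable_const B
    · exact fun k => Eventually.of_forall fun q => hB _ (hele k) q
    · exact Eventually.of_forall hlim
  simp only [hint] at htend
  have hI0 : ∫ q, FF G z A A1 A2 A3 n m p 0 q ∂μ = 0 := (tendsto_nhds_unique htend tendsto_const_nhds)
  have hmeas : AEStronglyMeasurable (fun q => FF G z A A1 A2 A3 n m p 0 q) μ :=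
    aestronglyMeasurable_of_tendsto_ae atTop (fun k => (hcont k).aestronglyMeasurable)
      (Eventually.of_forall hlim)
  have hintg : Integrable (fun q => FF G z A A1 A2 A3 n m p 0 q) μ := by
    refine Integrable.of_bound hmeas B (Eventually.of_forall fun q => ?_)
    rw [Real.norm_eq_abs]
    exact hB 0 (by rw [abs_zero]; exact he0.le) q
  have hae := (integral_eq_zero_iff_of_nonneg (fun q => hpos q) hintg).1 hI0
  have hc := FF_contAt (z := z) hΩo hA hΩ h1 h2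
  have hev : ∀ᶠ q in 𝓝 q0, 0 < FF G z A A1 A2 A3 n m p 0 q := hc.eventually (lt_mem_nhds hpos0)
  obtain ⟨U, hU, hUo, hqU⟩ := eventually_nhds_iff.1 hev
  have hμ : μ U = 0 := by
    have h3 : U ⊆ {q | ¬ (fun q => FF G z A A1 A2 A3 n m p 0 q) q = (0 : M → ℝ) q} := by
      intro q hq h
      have := hU q hq
      simp only [Pi.zero_apply] at h
      linarith
    exact measure_mono_null h3 hae
  exact (hUo.measure_pos μ ⟨q0, hqU⟩).ne' hμ

end Vale.Agent.P211.H56
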