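import Vale.Agent.P211.H56.Skel
import Vale.Agent.P211.H56.Fat2
import Vale.Agent.P211.H958.PoinC1
import Mathlib.Analysis.Calculus.ContDiff.Polynomial

set_option linter.all false

/-! P211, block L-ANA (helper56): the integral argument with Poincaré columns. -/

namespace Vale.Agent.P211.H56

open Topology Filter MeasureTheory Set
open scoped ContDiff
open Vale.Agent.P211 Vale.Agent.P211.S4

variable {M 𝒪 V : Type*} [TopologicalSpace M] [CommRing 𝒪] [Algebra ℝ 𝒪]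
    [AddCommGroup V] [Module 𝒪 V] {G : Geo2 M 𝒪 V}

/-- `⟨∇a, ∇b⟩` -/
def ipg (G : Geo2 M 𝒪 V) (a b : 𝒪) (q : M) : ℝ := G.ev q (G.g (G.grad a) (G.grad b))

theorem ipg_cont (a b : 𝒪) : Continuous (ipg G a b) := G.ev_cont _

theorem ipg_nonneg (a : 𝒪) (q : M) : 0 ≤ ipg G a a q := G.g_nonneg _ _

theorem ipg_frame (a b : 𝒪) {q : M} {F : Fin 4 → V} (hF : G.ON q F) :
    ipg G a b q = ∑ i, G.ev q (G.D (F i) a) * G.ev q (G.D (F i) b) := by
  unfold ipg
  rw [G.grad_spec]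
  have hexp := G.toGeom.expand (p := q) (F := F) hF
    ⟨⟨fun X => G.D X a, fun Y Z => G.D_add_left Y Z a⟩, fun c Y => G.D_smul_left c Y a⟩
    (G.grad b)
  have hexp' : G.ev q (G.D (G.grad b) a) =
    ∑ i, G.ev q (G.g (G.grad b) (F i)) * G.ev q (G.D (F i) a) := hexp
  rw [hexp']
  refine Finset.sum_congr rfl fun i _ => ?_
  rw [G.grad_spec]; ring

theorem ipg_cs (a b : 𝒪) (q : M) : ipg G a b q ^ 2 ≤ ipg G a a q * ipg G b b q := by
  obtain ⟨F, hF⟩ := G.frame q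
  rw [ipg_frame a b hF, ipg_frame a a hF, ipg_frame b b hF]
  have := Finset.sum_mul_sq_le_sq_mul_sq Finset.univ (fun i => G.ev q (G.D (F i) a))
    (fun i => G.ev q (G.D (F i) b))
  simpa [sq] using this

/-- `½ div (c(√(n+e²)) ∇n)` -/
noncomputable def Cc (G : Geo2 M 𝒪 V) (c c' : ℝ → ℝ) (n : 𝒪) (e : ℝ) (q : M) : ℝ :=
  1 / 2 * (c' (rt G n e q) * (ipg G n n q / (2 * rt G n e q)) + c (rt G n e q) * G.ev q (G.lap n))

/-- the function `s φ(N) - ψ(M)` -/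
noncomputable def Fs (G : Geo2 M 𝒪 V) (s : ℝ) (φ ψ : ℝ → ℝ) (n m : 𝒪) (e : ℝ) (q : M) : ℝ :=
  s * φ (rt G n e q) - ψ (rt G m e q)

/-- the Poincaré integrand `4F² - |∇F|²`, `F = s φ(N) - ψ(M)`. -/
noncomputable def PF (G : Geo2 M 𝒪 V) (s : ℝ) (φ φ' ψ ψ' : ℝ → ℝ) (n m : 𝒪) (e : ℝ) (q : M) : ℝ :=
  4 * Fs G s φ ψ n m e q ^ 2 -
  (s ^ 2 * (φ' (rt G n e q) ^ 2 * (ipg G n n q / (2 * rt G n e q) ^ 2)) -
  2 * s * (φ' (rt G n e q) * ψ' (rt G m e q) *
    (ipg G n m q / ((2 * rt G n e q) * (2 * rt G m e q)))) +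
  ψ' (rt G m e q) ^ 2 * (ipg G m m q / (2 * rt G m e q) ^ 2))

/-- `C¹` functions on `[0,R]` -/
def C1on (R : ℝ) (φ φ' : ℝ → ℝ) : Prop :=
  (∀ s ∈ Icc 0 R, HasDerivWithinAt φ (φ' s) (Icc 0 R) s) ∧ ContinuousOn φ' (Icc 0 R)

/-- the field `κ(n) ∇n` -/
theorem int_C1 [CompactSpace M] [MeasurableSpace M] [BorelSpace M] {μ : Measure M}
    [IsFiniteMeasure μ] (hdiv : DivThm G μ) {n : 𝒪} {R : ℝ} (hR : 0 ≤ R)
    (hn : ∀ q, G.ev q n ∈ Icc 0 R) {κ κ' : ℝ → ℝ}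
    (h1 : ∀ s ∈ Icc 0 R, HasDerivWithinAt κ (κ' s) (Icc 0 R) s)
    (h1' : ContinuousOn κ' (Icc 0 R)) :
    Continuous (fun q => κ (G.ev q n) * G.ev q (G.lap n) + κ' (G.ev q n) * ipg G n n q) ∧
    ∫ q, (κ (G.ev q n) * G.ev q (G.lap n) + κ' (G.ev q n) * ipg G n n q) ∂μ = 0 := by
  have c1 : ContinuousOn κ (Icc 0 R) := fun s hs => (h1 s hs).continuousWithinAt
  have k1 : Continuous fun q => κ (G.ev q n) := c1.comp_continuous (G.ev_cont n) hn
  have k1' : Continuous fun q => κ' (G.ev q n) := h1'.comp_continuous (G.ev_cont n) hn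
  have hcont : Continuous (fun q => κ (G.ev q n) * G.ev q (G.lap n) + κ' (G.ev q n) * ipg G n n q) :=
    (k1.mul (G.ev_cont _)).add (k1'.mul (ipg_cont n n))
  refine ⟨hcont, ?_⟩
  obtain ⟨L, hL0, hL⟩ := exists_ev_bound (G := G) (G.lap n)
  obtain ⟨D, hD0, hD⟩ := exists_ev_bound (G := G) (G.g (G.grad n) (G.grad n))
  -- the integral is smaller than every positive number
  have key : ∀ ε : ℝ, 0 < ε →
      |∫ q, (κ (G.ev q n) * G.ev q (G.lap n) + κ' (G.ev q n) * ipg G n n q) ∂μ| ≤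
        (ε * R * L + ε * D) * μ.real univ := by
    intro ε hε
    obtain ⟨p, hp1, hp2⟩ := H958.exists_poly_C1 hR h1 h1' hε
    obtain ⟨P, hP1, -⟩ := H958.exists_prim p 0 0
    have hPs : ∀ q, ContDiffAt ℝ ∞ (fun x : ℝ => P.eval x) (G.ev q n) := fun q => by
      have : ContDiff ℝ ∞ fun x : ℝ => P.eval x := by
        simpa using (P.contDiff_aeval (𝕜 := ℝ) ∞)
      exact this.contDiffAt
    obtain ⟨h, -, -, hh⟩ := comp_lap n (fun x => P.eval x) hPs
    have hd : deriv (fun x : ℝ => P.eval x) = fun x => p.eval x := by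
      ext x; rw [Polynomial.deriv, hP1]
    have hdd : deriv (fun x : ℝ => p.eval x) = fun x => (Polynomial.derivative p).eval x := by
      ext x; rw [Polynomial.deriv]
    rw [hd, hdd] at hh
    have h0 : ∫ q, G.ev q (G.lap h) ∂μ = 0 := hdiv _
    have hi1 : Integrable (fun q => κ (G.ev q n) * G.ev q (G.lap n) + κ' (G.ev q n) * ipg G n n q) μ :=
      hcont.integrable_of_hasCompactSupport (HasCompactSupport.of_compactSpace _)
    have hi2 : Integrable (fun q => G.ev q (G.lap h)) μ :=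
      (G.ev_cont _).integrable_of_hasCompactSupport (HasCompactSupport.of_compactSpace _)
    have h3 : ∫ q, (κ (G.ev q n) * G.ev q (G.lap n) + κ' (G.ev q n) * ipg G n n q) ∂μ =
        ∫ q, ((κ (G.ev q n) * G.ev q (G.lap n) + κ' (G.ev q n) * ipg G n n q) -
          G.ev q (G.lap h)) ∂μ := by
      rw [integral_sub hi1 hi2, h0, sub_zero]
    rw [h3, ← Real.norm_eq_abs]
    refine (norm_integral_le_of_norm_le_const (C := ε * R * L + ε * D)
      (Eventually.of_forall fun q => ?_))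
    rw [hh q, Real.norm_eq_abs]
    have e1 : κ (G.ev q n) * G.ev q (G.lap n) + κ' (G.ev q n) * ipg G n n q -
        (p.eval (G.ev q n) * G.ev q (G.lap n) + (Polynomial.derivative p).eval (G.ev q n) *
          G.ev q (G.g (G.grad n) (G.grad n))) =
        -((p.eval (G.ev q n) - κ (G.ev q n)) * G.ev q (G.lap n)) -
        ((Polynomial.derivative p).eval (G.ev q n) - κ' (G.ev q n)) *
          G.ev q (G.g (G.grad n) (G.grad n)) := by
      unfold ipg; ring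
    rw [e1]
    refine (abs_sub _ _).trans (add_le_add ?_ ?_)
    · rw [abs_neg, abs_mul]
      exact mul_le_mul (hp1 _ (hn q)) (hL q) (abs_nonneg _) (by positivity)
    · rw [abs_mul]
      exact mul_le_mul (hp2 _ (hn q)) (hD q) (abs_nonneg _) hε.le
  by_contra hne
  have hpos : 0 < |∫ q, (κ (G.ev q n) * G.ev q (G.lap n) + κ' (G.ev q n) * ipg G n n q) ∂μ| :=
    abs_pos.2 hne
  obtain ⟨A, hA⟩ : ∃ A, A = |∫ q, (κ (G.ev q n) * G.ev q (G.lap n) +
    κ' (G.ev q n) * ipg G n n q) ∂μ| := ⟨_, rfl⟩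
  obtain ⟨Bc, hBc⟩ : ∃ Bc, Bc = (R * L + D) * μ.real univ := ⟨_, rfl⟩
  have hBc0 : 0 ≤ Bc := by rw [hBc]; positivity
  rw [← hA] at hpos
  have h4 := key (A / (2 * (Bc + 1))) (by positivity)
  rw [← hA] at h4
  have h5 : (A / (2 * (Bc + 1)) * R * L + A / (2 * (Bc + 1)) * D) * μ.real univ =
      A / (2 * (Bc + 1)) * Bc := by rw [hBc]; ring
  rw [h5] at h4
  have h6 : A / (2 * (Bc + 1)) * Bc < A := by
    rw [div_mul_eq_mul_div, div_lt_iff₀ (by positivity)]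
    nlinarith
  linarith

theorem C1on.cont {R : ℝ} {φ φ' : ℝ → ℝ} (h : C1on R φ φ') : ContinuousOn φ (Icc 0 R) :=
  fun s hs => (h.1 s hs).continuousWithinAt

/-- the composition with the regularised square root -/
theorem C1on.comp_rt {R : ℝ} {φ φ' : ℝ → ℝ} (h : C1on R φ φ') (hR : 0 ≤ R) {e : ℝ} (he : e ≠ 0)
    (he1 : e ^ 2 ≤ 1) :
    C1on (R ^ 2 - 1) (fun s => φ (Real.sqrt (s + e ^ 2)))
      (fun s => φ' (Real.sqrt (s + e ^ 2)) * (1 / (2 * Real.sqrt (s + e ^ 2)))) := by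
  have hp : 0 < e ^ 2 := by positivity
  have hmap : ∀ s ∈ Icc 0 (R ^ 2 - 1), Real.sqrt (s + e ^ 2) ∈ Icc 0 R := by
    intro s hs
    refine ⟨Real.sqrt_nonneg _, ?_⟩
    rw [Real.sqrt_le_left hR]
    have := hs.2
    linarith
  refine ⟨fun s hs => ?_, ?_⟩
  · have h2 : s + e ^ 2 ≠ 0 := by
      have := hs.1
      positivity
    have h3 : HasDerivAt (fun s : ℝ => Real.sqrt (s + e ^ 2)) (1 / (2 * Real.sqrt (s + e ^ 2))) s := by
      have := ((hasDerivAt_id s).add_const (e ^ 2)).sqrt h2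
      simpa using this
    exact HasDerivWithinAt.comp s (h.1 _ (hmap s hs)) h3.hasDerivWithinAt hmap
  · have h3 : ContinuousOn (fun s : ℝ => Real.sqrt (s + e ^ 2)) (Icc 0 (R ^ 2 - 1)) :=
      (Real.continuous_sqrt.comp (continuous_id.add continuous_const)).continuousOn
    refine (h.2.comp h3 hmap).mul (continuousOn_const.div (continuousOn_const.mul h3) ?_)
    intro s hs
    have : 0 < Real.sqrt (s + e ^ 2) := Real.sqrt_pos.2 (by have := hs.1; linarith)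
    positivity

theorem rt_mem {n : 𝒪} {R : ℝ} (hR : 0 ≤ R) (hn : ∀ q, G.ev q n ∈ Icc 0 (R ^ 2 - 1)) {e : ℝ}
    (he1 : e ^ 2 ≤ 1) (q : M) : rt G n e q ∈ Icc 0 R := by
  refine ⟨Real.sqrt_nonneg _, ?_⟩
  unfold rt
  rw [Real.sqrt_le_left hR]
  have := (hn q).2
  linarith

/-- the column `Cc` -/
theorem int_Cc [CompactSpace M] [MeasurableSpace M] [BorelSpace M] {μ : Measure M}
    [IsFiniteMeasure μ] (hdiv : DivThm G μ) {n : 𝒪} {R : ℝ} (hR : 0 ≤ R) (hR1 : 0 ≤ R ^ 2 - 1)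
    (hn : ∀ q, G.ev q n ∈ Icc 0 (R ^ 2 - 1)) {c c' : ℝ → ℝ} (hc : C1on R c c') {e : ℝ}
    (he : e ≠ 0) (he1 : e ^ 2 ≤ 1) :
    Continuous (Cc G c c' n e) ∧ ∫ q, Cc G c c' n e q ∂μ = 0 := by
  have h := hc.comp_rt hR he he1
  have h0 := int_C1 hdiv hR1 hn h.1 h.2
  have h1 : Cc G c c' n e = fun q => 1 / 2 * (c (Real.sqrt (G.ev q n + e ^ 2)) * G.ev q (G.lap n) +
      c' (Real.sqrt (G.ev q n + e ^ 2)) * (1 / (2 * Real.sqrt (G.ev q n + e ^ 2))) * ipg G n n q) := by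
    ext q; unfold Cc rt; ring
  rw [h1]
  refine ⟨continuous_const.mul h0.1, ?_⟩
  rw [integral_const_mul, h0.2, mul_zero]

/-- the Poincaré column -/
theorem int_PF [CompactSpace M] [MeasurableSpace M] [BorelSpace M] {μ : Measure M}
    [IsFiniteMeasure μ] (hμ : μ.real univ ≠ 0) (hP : H958.Poin G μ) {n m : 𝒪} {R : ℝ} (hR : 0 ≤ R)
    (hR1 : 0 ≤ R ^ 2 - 1) (hn : ∀ q, G.ev q n ∈ Icc 0 (R ^ 2 - 1))
    (hm : ∀ q, G.ev q m ∈ Icc 0 (R ^ 2 - 1)) {φ φ' ψ ψ' : ℝ → ℝ} (hφ : C1on R φ φ')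
    (hψ : C1on R ψ ψ') (s : ℝ) {e : ℝ} (he : e ≠ 0) (he1 : e ^ 2 ≤ 1) :
    Continuous (Fs G s φ ψ n m e) ∧ Continuous (PF G s φ φ' ψ ψ' n m e) ∧
    ∫ q, PF G s φ φ' ψ ψ' n m e q ∂μ ≤
      4 * (∫ q, Fs G s φ ψ n m e q ∂μ) ^ 2 / μ.real univ := by
  have hp : 0 < e ^ 2 := by positivity
  have hφ' := hφ.comp_rt hR he he1
  have hψ' := hψ.comp_rt hR he he1
  have rtc : ∀ a : 𝒪, Continuous (rt G a e) := fun a =>
    (rt_cont a).comp (continuous_const.prodMk continuous_id)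
  have rtp : ∀ q, 0 < rt G n e q := rt_pos (fun q => (hn q).1) he
  have rtp' : ∀ q, 0 < rt G m e q := rt_pos (fun q => (hm q).1) he
  have cφ : Continuous fun q => φ (rt G n e q) := hφ.cont.comp_continuous (rtc n) (rt_mem hR hn he1)
  have cψ : Continuous fun q => ψ (rt G m e q) := hψ.cont.comp_continuous (rtc m) (rt_mem hR hm he1)
  have cφ' : Continuous fun q => φ' (rt G n e q) := hφ.2.comp_continuous (rtc n) (rt_mem hR hn he1)
  have cψ' : Continuous fun q => ψ' (rt G m e q) := hψ.2.comp_continuous (rtc m) (rt_mem hR hm he1)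
  have cF : Continuous (Fs G s φ ψ n m e) := (continuous_const.mul cφ).sub cψ
  have q1 : Continuous fun q => ipg G n n q / (2 * rt G n e q) ^ 2 :=
    (ipg_cont n n).div ((continuous_const.mul (rtc n)).pow 2) fun q => by
      have := rtp q; positivity
  have q2 : Continuous fun q => ipg G m m q / (2 * rt G m e q) ^ 2 :=
    (ipg_cont m m).div ((continuous_const.mul (rtc m)).pow 2) fun q => by
      have := rtp' q; positivity
  have q3 : Continuous fun q => ipg G n m q / ((2 * rt G n e q) * (2 * rt G m e q)) :=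
    (ipg_cont n m).div ((continuous_const.mul (rtc n)).mul (continuous_const.mul (rtc m))) fun q => by
      have := rtp q; have := rtp' q; positivity
  have cE : Continuous fun q => (s ^ 2 * (φ' (rt G n e q) ^ 2 * (ipg G n n q / (2 * rt G n e q) ^ 2)) -
      2 * s * (φ' (rt G n e q) * ψ' (rt G m e q) *
        (ipg G n m q / ((2 * rt G n e q) * (2 * rt G m e q)))) +
      ψ' (rt G m e q) ^ 2 * (ipg G m m q / (2 * rt G m e q) ^ 2)) :=
    ((continuous_const.mul ((cφ'.pow 2).mul q1)).sub (continuous_const.mul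
      ((cφ'.mul cψ').mul q3))).add ((cψ'.pow 2).mul q2)
  refine ⟨cF, (continuous_const.mul (cF.pow 2)).sub cE, ?_⟩
  obtain ⟨δ, hδ⟩ : ∃ δ, δ = (∫ q, Fs G s φ ψ n m e q ∂μ) / μ.real univ := ⟨_, rfl⟩
  have hi : ∀ {f : M → ℝ}, Continuous f → Integrable f μ := fun hf =>
    hf.integrable_of_hasCompactSupport (HasCompactSupport.of_compactSpace _)
  have h0 : ∫ q, ((fun t => s * φ (Real.sqrt (t + e ^ 2)) - δ) (G.ev q n) -
      (fun t => ψ (Real.sqrt (t + e ^ 2))) (G.ev q m)) ∂μ = 0 := by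
    have h1 : (fun q => ((fun t => s * φ (Real.sqrt (t + e ^ 2)) - δ) (G.ev q n) -
        (fun t => ψ (Real.sqrt (t + e ^ 2))) (G.ev q m))) = fun q => Fs G s φ ψ n m e q - δ := by
      ext q; unfold Fs rt; ring
    rw [h1, integral_sub (hi cF) (integrable_const _), integral_const, smul_eq_mul, hδ]
    field_simp
    ring
  have hPo := H958.poincare_C1 hP hR1 hn hm (γ₁ := fun t => s * φ (Real.sqrt (t + e ^ 2)) - δ)
    (γ₁' := fun t => s * (φ' (Real.sqrt (t + e ^ 2)) * (1 / (2 * Real.sqrt (t + e ^ 2)))))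
    (γ₂ := fun t => ψ (Real.sqrt (t + e ^ 2)))
    (γ₂' := fun t => ψ' (Real.sqrt (t + e ^ 2)) * (1 / (2 * Real.sqrt (t + e ^ 2))))
    (fun t ht => ((hφ'.1 t ht).const_mul s).sub_const δ) (hφ'.2.const_smul s |>.congr fun t _ => rfl)
    hψ'.1 hψ'.2 h0
  have h2 : (fun q => ((fun t => s * φ (Real.sqrt (t + e ^ 2)) - δ) (G.ev q n) -
        (fun t => ψ (Real.sqrt (t + e ^ 2))) (G.ev q m)) ^ 2) =
      fun q => Fs G s φ ψ n m e q ^ 2 - 2 * δ * Fs G s φ ψ n m e q + δ ^ 2 := by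
    ext q; unfold Fs rt; ring
  have h3 : (fun q => ((s * (φ' (Real.sqrt (G.ev q n + e ^ 2)) *
        (1 / (2 * Real.sqrt (G.ev q n + e ^ 2))))) ^ 2 * G.ev q (G.g (G.grad n) (G.grad n))
      - 2 * ((s * (φ' (Real.sqrt (G.ev q n + e ^ 2)) *
        (1 / (2 * Real.sqrt (G.ev q n + e ^ 2))))) * (ψ' (Real.sqrt (G.ev q m + e ^ 2)) *
        (1 / (2 * Real.sqrt (G.ev q m + e ^ 2))))) * G.ev q (G.g (G.grad n) (G.grad m))
      + (ψ' (Real.sqrt (G.ev q m + e ^ 2)) * (1 / (2 * Real.sqrt (G.ev q m + e ^ 2)))) ^ 2 *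
        G.ev q (G.g (G.grad m) (G.grad m)))) =
      fun q => (s ^ 2 * (φ' (rt G n e q) ^ 2 * (ipg G n n q / (2 * rt G n e q) ^ 2)) -
      2 * s * (φ' (rt G n e q) * ψ' (rt G m e q) *
        (ipg G n m q / ((2 * rt G n e q) * (2 * rt G m e q)))) +
      ψ' (rt G m e q) ^ 2 * (ipg G m m q / (2 * rt G m e q) ^ 2)) := by
    ext q
    have r1 : Real.sqrt (G.ev q n + e ^ 2) = rt G n e q := rfl
    have r2 : Real.sqrt (G.ev q m + e ^ 2) = rt G m e q := rfl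
    have i1 : G.ev q (G.g (G.grad n) (G.grad n)) = ipg G n n q := rfl
    have i2 : G.ev q (G.g (G.grad n) (G.grad m)) = ipg G n m q := rfl
    have i3 : G.ev q (G.g (G.grad m) (G.grad m)) = ipg G m m q := rfl
    rw [r1, r2, i1, i2, i3]
    have h1 := (rtp q).ne'
    have h2 := (rtp' q).ne'
    field_simp
  simp only [h2, h3] at hPo
  have h4 : ∫ q, (Fs G s φ ψ n m e q ^ 2 - 2 * δ * Fs G s φ ψ n m e q + δ ^ 2) ∂μ =
      ∫ q, Fs G s φ ψ n m e q ^ 2 ∂μ - 2 * δ * ∫ q, Fs G s φ ψ n m e q ∂μ +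
        δ ^ 2 * μ.real univ := by
    have j1 : Integrable (fun q => Fs G s φ ψ n m e q ^ 2) μ := hi (cF.pow 2)
    have j2 : Integrable (fun q => 2 * δ * Fs G s φ ψ n m e q) μ := (hi cF).const_mul _
    have j3 : Integrable (fun q => Fs G s φ ψ n m e q ^ 2 - 2 * δ * Fs G s φ ψ n m e q) μ :=
      j1.sub j2
    rw [integral_add j3 (integrable_const _), integral_sub j1 j2, integral_const_mul,
      integral_const, smul_eq_mul]
    ring
  rw [h4] at hPo
  unfold PF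
  have j1 : Integrable (fun q => 4 * Fs G s φ ψ n m e q ^ 2) μ := (hi (cF.pow 2)).const_mul 4
  rw [integral_sub j1 (hi cE), integral_const_mul]
  have h5 : 4 * (∫ q, Fs G s φ ψ n m e q ∂μ) ^ 2 / μ.real univ =
      4 * (2 * δ * ∫ q, Fs G s φ ψ n m e q ∂μ - δ ^ 2 * μ.real univ) := by
    rw [hδ]; field_simp; ring
  rw [h5]
  linarith

end Vale.Agent.P211.H56
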