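import Vale.Agent.P211.H56.Skel2

set_option linter.all false

/-! P211, block L-ANA (helper56): the integral argument with Poincaré columns, main theorem. -/

namespace Vale.Agent.P211.H56

open Topology Filter MeasureTheory Set
open scoped ContDiff
open Vale.Agent.P211 Vale.Agent.P211.S4

variable {M 𝒪 V : Type*} [TopologicalSpace M] [CommRing 𝒪] [Algebra ℝ 𝒪]
    [AddCommGroup V] [Module 𝒪 V] {G : Geo2 M 𝒪 V}

/-- uniformly bounded families -/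
def Bd {M : Type*} (e0 : ℝ) (f : ℝ → M → ℝ) : Prop := ∃ B, ∀ e, |e| ≤ e0 → ∀ q, |f e q| ≤ B

namespace Bd

variable {e0 : ℝ} {f g : ℝ → M → ℝ}

theorem nn (h : Bd e0 f) : ∃ B, 0 ≤ B ∧ ∀ e, |e| ≤ e0 → ∀ q, |f e q| ≤ B := by
  obtain ⟨B, hB⟩ := h
  exact ⟨max B 0, le_max_right _ _, fun e he q => (hB e he q).trans (le_max_left _ _)⟩

theorem const (c : ℝ) : Bd e0 (fun _ (_ : M) => c) := ⟨|c|, fun _ _ _ => le_rfl⟩

theorem add (hf : Bd e0 f) (hg : Bd e0 g) : Bd e0 fun e q => f e q + g e q := by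
  obtain ⟨B, hB⟩ := hf
  obtain ⟨B', hB'⟩ := hg
  exact ⟨B + B', fun e he q => (abs_add_le _ _).trans (add_le_add (hB e he q) (hB' e he q))⟩

theorem mul (hf : Bd e0 f) (hg : Bd e0 g) : Bd e0 fun e q => f e q * g e q := by
  obtain ⟨B, h0, hB⟩ := hf.nn
  obtain ⟨B', h0', hB'⟩ := hg.nn
  refine ⟨B * B', fun e he q => ?_⟩
  show |f e q * g e q| ≤ _
  rw [abs_mul]
  exact mul_le_mul (hB e he q) (hB' e he q) (abs_nonneg _) h0

theorem neg (hf : Bd e0 f) : Bd e0 fun e q => - f e q := by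
  obtain ⟨B, hB⟩ := hf
  refine ⟨B, fun e he q => ?_⟩
  show |-f e q| ≤ _
  rw [abs_neg]; exact hB e he q

theorem sub (hf : Bd e0 f) (hg : Bd e0 g) : Bd e0 fun e q => f e q - g e q := by
  simp only [sub_eq_add_neg]; exact hf.add hg.neg

theorem pow (hf : Bd e0 f) : ∀ k : ℕ, Bd e0 fun e q => f e q ^ k
  | 0 => by simp only [pow_zero]; exact const 1
  | k + 1 => by simp only [pow_succ]; exact (pow hf k).mul hf

theorem sum {J : Type*} (s : Finset J) {f : J → ℝ → M → ℝ} (hf : ∀ j, Bd e0 (f j)) :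
    Bd e0 fun e q => ∑ j ∈ s, f j e q := by
  choose B hB using hf
  exact ⟨∑ j ∈ s, B j, fun e he q => (Finset.abs_sum_le_sum_abs _ _).trans
    (Finset.sum_le_sum fun j _ => hB j e he q)⟩

end Bd

theorem ipg_zero {n : 𝒪} {C : ℝ} (hC : ∀ q, ipg G n n q ≤ C * G.ev q n) {q : M}
    (h0 : G.ev q n = 0) (b : 𝒪) : ipg G n b q = 0 := by
  unfold ipg
  rw [G.grad_spec]
  exact D_zero_of_grad hC h0 _

theorem ipg_zero' {n : 𝒪} {C : ℝ} (hC : ∀ q, ipg G n n q ≤ C * G.ev q n) {q : M}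
    (h0 : G.ev q n = 0) (b : 𝒪) : ipg G b n q = 0 := by
  unfold ipg
  rw [G.g_symm]
  exact ipg_zero hC h0 b

theorem rt_tendsto (n : 𝒪) (q : M) : Tendsto (fun e => rt G n e q) (𝓝 0) (𝓝 (rt G n 0 q)) :=
  (((rt_cont n).comp (continuous_id.prodMk continuous_const)).tendsto 0 :
    Tendsto (fun e => rt G n e q) (𝓝 0) (𝓝 (rt G n 0 q)))

theorem rt0_pos {n : 𝒪} {q : M} (h : 0 < G.ev q n) : 0 < rt G n 0 q := by
  unfold rt; simpa using Real.sqrt_pos.2 h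

theorem q2_tendsto {n m : 𝒪} (hn : ∀ q, 0 ≤ G.ev q n) (hm : ∀ q, 0 ≤ G.ev q m) {C C' : ℝ}
    (hC : ∀ q, ipg G n n q ≤ C * G.ev q n) (hC' : ∀ q, ipg G m m q ≤ C' * G.ev q m) (q : M) :
    Tendsto (fun e => ipg G n m q / ((2 * rt G n e q) * (2 * rt G m e q))) (𝓝 0)
      (𝓝 (ipg G n m q / ((2 * rt G n 0 q) * (2 * rt G m 0 q)))) := by
  rcases (hn q).lt_or_eq with h | h
  · rcases (hm q).lt_or_eq with h' | h'
    · refine tendsto_const_nhds.div (((rt_tendsto n q).const_mul 2).mul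
        ((rt_tendsto m q).const_mul 2)) ?_
      have := rt0_pos h; have := rt0_pos h'; positivity
    · rw [ipg_zero' hC' h'.symm]; simp
  · rw [ipg_zero hC h.symm]; simp

theorem q1_tendsto {n : 𝒪} (hn : ∀ q, 0 ≤ G.ev q n) {C : ℝ}
    (hC : ∀ q, ipg G n n q ≤ C * G.ev q n) (q : M) :
    Tendsto (fun e => ipg G n n q / (2 * rt G n e q) ^ 2) (𝓝 0)
      (𝓝 (ipg G n n q / (2 * rt G n 0 q) ^ 2)) := by
  have := q2_tendsto hn hn hC hC q
  simpa only [sq] using this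

theorem q0_tendsto {n : 𝒪} (hn : ∀ q, 0 ≤ G.ev q n) {C : ℝ}
    (hC : ∀ q, ipg G n n q ≤ C * G.ev q n) (q : M) :
    Tendsto (fun e => ipg G n n q / (2 * rt G n e q)) (𝓝 0)
      (𝓝 (ipg G n n q / (2 * rt G n 0 q))) := by
  rcases (hn q).lt_or_eq with h | h
  · refine tendsto_const_nhds.div ((rt_tendsto n q).const_mul 2) ?_
    have := rt0_pos h; positivity
  · rw [ipg_zero hC h.symm]; simp

theorem q1_le {n : 𝒪} (hn : ∀ q, 0 ≤ G.ev q n) {C : ℝ}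
    (hC : ∀ q, ipg G n n q ≤ C * G.ev q n) (e : ℝ) (q : M) :
    ipg G n n q / (2 * rt G n e q) ^ 2 ≤ |C| := by
  have h0 : 0 ≤ G.ev q n + e ^ 2 := by have := hn q; positivity
  have h1 : rt G n e q ^ 2 = G.ev q n + e ^ 2 := Real.sq_sqrt h0
  rcases h0.lt_or_eq with h | h
  · rw [mul_pow, h1, div_le_iff₀ (by positivity)]
    have h2 := hC q
    have h3 : C * G.ev q n ≤ |C| * G.ev q n := mul_le_mul_of_nonneg_right (le_abs_self C) (hn q)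
    nlinarith [abs_nonneg C, hn q, mul_nonneg (abs_nonneg C) (hn q),
      mul_nonneg (abs_nonneg C) (sq_nonneg e)]
  · rw [mul_pow, h1, ← h]
    simp

theorem q1_nn {n : 𝒪} (e : ℝ) (q : M) : 0 ≤ ipg G n n q / (2 * rt G n e q) ^ 2 :=
  div_nonneg (ipg_nonneg (G := G) n q) (sq_nonneg _)

theorem bd_q1 {n : 𝒪} (hn : ∀ q, 0 ≤ G.ev q n) {C : ℝ}
    (hC : ∀ q, ipg G n n q ≤ C * G.ev q n) {e0 : ℝ} :
    Bd e0 fun e q => ipg G n n q / (2 * rt G n e q) ^ 2 :=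
  ⟨|C|, fun e _ q => by
    show |ipg G n n q / (2 * rt G n e q) ^ 2| ≤ _
    rw [abs_of_nonneg (q1_nn (G := G) (n := n) e q)]; exact q1_le hn hC e q⟩

theorem bd_q2 {n m : 𝒪} (hn : ∀ q, 0 ≤ G.ev q n) (hm : ∀ q, 0 ≤ G.ev q m) {C C' : ℝ}
    (hC : ∀ q, ipg G n n q ≤ C * G.ev q n) (hC' : ∀ q, ipg G m m q ≤ C' * G.ev q m) {e0 : ℝ} :
    Bd e0 fun e q => ipg G n m q / ((2 * rt G n e q) * (2 * rt G m e q)) := by
  refine ⟨|C| + |C'|, fun e _ q => ?_⟩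
  have h1 := ipg_cs (G := G) n m q
  have h2 : (ipg G n m q / ((2 * rt G n e q) * (2 * rt G m e q))) ^ 2 ≤
      (ipg G n n q / (2 * rt G n e q) ^ 2) * (ipg G m m q / (2 * rt G m e q) ^ 2) := by
    rw [div_pow, mul_pow, div_mul_div_comm]
    exact div_le_div_of_nonneg_right h1 (by positivity)
  have h3 := q1_le hn hC e q
  have h4 := q1_le hm hC' e q
  have h5 := q1_nn (G := G) (n := n) e q
  have h6 := q1_nn (G := G) (n := m) e q
  refine abs_le_of_sq_le_sq (h2.trans ?_) (by positivity)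
  have h7 : (ipg G n n q / (2 * rt G n e q) ^ 2) * (ipg G m m q / (2 * rt G m e q) ^ 2) ≤
      |C| * |C'| := mul_le_mul h3 h4 h6 (abs_nonneg _)
  nlinarith [abs_nonneg C, abs_nonneg C', mul_nonneg (abs_nonneg C) (abs_nonneg C')]

theorem bd_q0 {n : 𝒪} {R : ℝ} (hR : 0 ≤ R) (hn : ∀ q, G.ev q n ∈ Icc 0 (R ^ 2 - 1)) {C : ℝ}
    (hC : ∀ q, ipg G n n q ≤ C * G.ev q n) {e0 : ℝ} (he0 : e0 ≤ 1) :
    Bd e0 fun e q => ipg G n n q / (2 * rt G n e q) := by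
  refine ⟨|C| * (2 * R), fun e he q => ?_⟩
  have he1 : e ^ 2 ≤ 1 := by
    have := he.trans he0
    rw [← sq_abs]; nlinarith [abs_nonneg e]
  have hr := rt_mem hR hn he1 q
  have h3 := q1_le (fun q => (hn q).1) hC e q
  have h5 := q1_nn (G := G) (n := n) e q
  have h6 : ipg G n n q / (2 * rt G n e q) =
      (ipg G n n q / (2 * rt G n e q) ^ 2) * (2 * rt G n e q) := by
    rcases eq_or_ne (rt G n e q) 0 with h | h
    · rw [h]; simp
    · field_simp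
  show |ipg G n n q / (2 * rt G n e q)| ≤ _
  rw [h6, abs_mul, abs_of_nonneg h5, abs_of_nonneg (by linarith [hr.1] : 0 ≤ 2 * rt G n e q)]
  exact mul_le_mul h3 (by linarith [hr.2]) (by linarith [hr.1]) (abs_nonneg _)

theorem bd_comp {n : 𝒪} {R : ℝ} (hR : 0 ≤ R) (hn : ∀ q, G.ev q n ∈ Icc 0 (R ^ 2 - 1)) {f : ℝ → ℝ}
    (hf : ContinuousOn f (Icc 0 R)) {e0 : ℝ} (he0 : e0 ≤ 1) : Bd e0 fun e q => f (rt G n e q) := by
  obtain ⟨B, hB⟩ := isCompact_Icc.exists_bound_of_continuousOn hf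
  refine ⟨B, fun e he q => ?_⟩
  have he1 : e ^ 2 ≤ 1 := by
    have := he.trans he0
    rw [← sq_abs]; nlinarith [abs_nonneg e]
  exact hB _ (rt_mem hR hn he1 q)

theorem comp_tendsto {n : 𝒪} {R : ℝ} (hR : 0 ≤ R) (hn : ∀ q, G.ev q n ∈ Icc 0 (R ^ 2 - 1))
    {f : ℝ → ℝ} (hf : ContinuousOn f (Icc 0 R)) (q : M) :
    Tendsto (fun e => f (rt G n e q)) (𝓝 0) (𝓝 (f (rt G n 0 q))) := by
  have h1 : Tendsto (fun e => rt G n e q) (𝓝 0) (𝓝[Icc 0 R] (rt G n 0 q)) := by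
    rw [tendsto_nhdsWithin_iff]
    refine ⟨rt_tendsto n q, ?_⟩
    have : ∀ᶠ e : ℝ in 𝓝 0, |e| < 1 := by
      have := Metric.ball_mem_nhds (0 : ℝ) one_pos
      filter_upwards [this] with e he
      simpa [Real.dist_eq] using he
    filter_upwards [this] with e he
    exact rt_mem hR hn (by rw [← sq_abs]; nlinarith [abs_nonneg e]) q
  exact (hf _ (rt_mem hR hn (by norm_num) q)).tendsto.comp h1

theorem comp_contAt {n : 𝒪} {R : ℝ} (hR : 0 ≤ R) (hn : ∀ q, G.ev q n ∈ Icc 0 (R ^ 2 - 1))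
    {f : ℝ → ℝ} (hf : ContinuousOn f (Icc 0 R)) : Continuous fun q => f (rt G n 0 q) :=
  hf.comp_continuous ((rt_cont n).comp (continuous_const.prodMk continuous_id))
    (rt_mem hR hn (by norm_num))

/-- the total integrand -/
noncomputable def TT (G : Geo2 M 𝒪 V) {ι J : Type*} [Fintype ι] [Fintype J] (z : ι → 𝒪)
    (A A1 A2 A3 : ι → ℝ × ℝ × ℝ → ℝ) (c c' d d' : ℝ → ℝ) (Λ γ s : J → ℝ)
    (φ φ' ψ ψ' : J → ℝ → ℝ) (n m p : 𝒪) (e : ℝ) (q : M) : ℝ :=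
  FF G z A A1 A2 A3 n m p e q + Cc G c c' n e q + Cc G d d' m e q +
  ∑ j, (Λ j * PF G (s j) (φ j) (φ' j) (ψ j) (ψ' j) n m e q +
    γ j * Fs G (s j) (φ j) (ψ j) n m e q)

section main

variable {ι J : Type*} [Fintype ι] [Fintype J] {z : ι → 𝒪} {A A1 A2 A3 : ι → ℝ × ℝ × ℝ → ℝ}
  {Ω : Set (ℝ × ℝ × ℝ)} {n m p : 𝒪} {c c' d d' : ℝ → ℝ} {Λ γ s : J → ℝ}
  {φ φ' ψ ψ' : J → ℝ → ℝ} {R C C' : ℝ}

theorem Fs_bd (hR : 0 ≤ R) (hn : ∀ q, G.ev q n ∈ Icc 0 (R ^ 2 - 1))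
    (hm : ∀ q, G.ev q m ∈ Icc 0 (R ^ 2 - 1)) {φ φ' ψ ψ' : ℝ → ℝ} (hφ : C1on R φ φ')
    (hψ : C1on R ψ ψ') (s : ℝ) {e0 : ℝ} (he0 : e0 ≤ 1) : Bd e0 (Fs G s φ ψ n m) :=
  ((Bd.const s).mul (bd_comp hR hn hφ.cont he0)).sub (bd_comp hR hm hψ.cont he0)

theorem PF_bd (hR : 0 ≤ R) (hn : ∀ q, G.ev q n ∈ Icc 0 (R ^ 2 - 1))
    (hm : ∀ q, G.ev q m ∈ Icc 0 (R ^ 2 - 1))
    (hC : ∀ q, ipg G n n q ≤ C * G.ev q n) (hC' : ∀ q, ipg G m m q ≤ C' * G.ev q m)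
    {φ φ' ψ ψ' : ℝ → ℝ} (hφ : C1on R φ φ')
    (hψ : C1on R ψ ψ') (s : ℝ) {e0 : ℝ} (he0 : e0 ≤ 1) : Bd e0 (PF G s φ φ' ψ ψ' n m) := by
  have hn0 : ∀ q, 0 ≤ G.ev q n := fun q => (hn q).1
  have hm0 : ∀ q, 0 ≤ G.ev q m := fun q => (hm q).1
  have b1 := bd_comp hR hn hφ.2 he0
  have b2 := bd_comp hR hm hψ.2 he0
  exact ((Bd.const 4).mul ((Fs_bd hR hn hm hφ hψ s he0).pow 2)).sub
    ((((Bd.const (s ^ 2)).mul ((b1.pow 2).mul (bd_q1 hn0 hC))).sub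
      ((Bd.const (2 * s)).mul ((b1.mul b2).mul (bd_q2 hn0 hm0 hC hC')))).add
      ((b2.pow 2).mul (bd_q1 hm0 hC')))

theorem Cc_bd (hR : 0 ≤ R) [CompactSpace M] (hn : ∀ q, G.ev q n ∈ Icc 0 (R ^ 2 - 1))
    (hC : ∀ q, ipg G n n q ≤ C * G.ev q n)
    {c c' : ℝ → ℝ} (hc : C1on R c c') {e0 : ℝ} (he0 : e0 ≤ 1) : Bd e0 (Cc G c c' n) := by
  obtain ⟨L, -, hL⟩ := exists_ev_bound (G := G) (G.lap n)
  have hL' : Bd e0 fun _ q => G.ev q (G.lap n) := ⟨L, fun _ _ q => hL q⟩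
  exact (Bd.const (1 / 2)).mul (((bd_comp hR hn hc.2 he0).mul (bd_q0 hR hn hC he0)).add
    ((bd_comp hR hn hc.cont he0).mul hL'))

theorem Fs_lim (hR : 0 ≤ R) (hn : ∀ q, G.ev q n ∈ Icc 0 (R ^ 2 - 1))
    (hm : ∀ q, G.ev q m ∈ Icc 0 (R ^ 2 - 1)) {φ φ' ψ ψ' : ℝ → ℝ} (hφ : C1on R φ φ')
    (hψ : C1on R ψ ψ') (s : ℝ) (q : M) :
    Tendsto (fun e => Fs G s φ ψ n m e q) (𝓝 0) (𝓝 (Fs G s φ ψ n m 0 q)) :=
  ((comp_tendsto hR hn hφ.cont q).const_mul s).sub (comp_tendsto hR hm hψ.cont q)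

theorem PF_lim (hR : 0 ≤ R) (hn : ∀ q, G.ev q n ∈ Icc 0 (R ^ 2 - 1))
    (hm : ∀ q, G.ev q m ∈ Icc 0 (R ^ 2 - 1))
    (hC : ∀ q, ipg G n n q ≤ C * G.ev q n) (hC' : ∀ q, ipg G m m q ≤ C' * G.ev q m)
    {φ φ' ψ ψ' : ℝ → ℝ} (hφ : C1on R φ φ') (hψ : C1on R ψ ψ') (s : ℝ) (q : M) :
    Tendsto (fun e => PF G s φ φ' ψ ψ' n m e q) (𝓝 0) (𝓝 (PF G s φ φ' ψ ψ' n m 0 q)) := by
  have hn0 : ∀ q, 0 ≤ G.ev q n := fun q => (hn q).1
  have hm0 : ∀ q, 0 ≤ G.ev q m := fun q => (hm q).1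
  have b1 := comp_tendsto hR hn hφ.2 q
  have b2 := comp_tendsto hR hm hψ.2 q
  exact (((Fs_lim hR hn hm hφ hψ s q).pow 2).const_mul 4).sub
    (((((b1.pow 2).mul (q1_tendsto hn0 hC q)).const_mul (s ^ 2)).sub
      (((b1.mul b2).mul (q2_tendsto hn0 hm0 hC hC' q)).const_mul (2 * s))).add
      ((b2.pow 2).mul (q1_tendsto hm0 hC' q)))

theorem Cc_lim (hR : 0 ≤ R) (hn : ∀ q, G.ev q n ∈ Icc 0 (R ^ 2 - 1))
    (hC : ∀ q, ipg G n n q ≤ C * G.ev q n)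
    {c c' : ℝ → ℝ} (hc : C1on R c c') (q : M) :
    Tendsto (fun e => Cc G c c' n e q) (𝓝 0) (𝓝 (Cc G c c' n 0 q)) :=
  (((comp_tendsto hR hn hc.2 q).mul (q0_tendsto (fun q => (hn q).1) hC q)).add
    ((comp_tendsto hR hn hc.cont q).mul_const _)).const_mul _

/-- **The integral argument with Poincaré columns**, a.e. form. -/
theorem ae_zero [CompactSpace M] [MeasurableSpace M] [BorelSpace M] {μ : Measure M}
    [IsFiniteMeasure μ] (hμ : μ.real univ ≠ 0) (hdiv : DivThm G μ) (hP : H958.Poin G μ)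
    (hΩo : IsOpen Ω) (hA : ∀ i, Sm3 G Ω (A i) (A1 i) (A2 i) (A3 i)) (hR : 0 ≤ R)
    (hR1 : 0 ≤ R ^ 2 - 1) (hn : ∀ q, G.ev q n ∈ Icc 0 (R ^ 2 - 1))
    (hm : ∀ q, G.ev q m ∈ Icc 0 (R ^ 2 - 1))
    (hC : ∀ q, ipg G n n q ≤ C * G.ev q n) (hC' : ∀ q, ipg G m m q ≤ C' * G.ev q m)
    (hΩ : ∀ q, Ph G n m p 0 q ∈ Ω) (hc : C1on R c c') (hd : C1on R d d')
    (hφ : ∀ j, C1on R (φ j) (φ' j)) (hψ : ∀ j, C1on R (ψ j) (ψ' j)) (hΛ : ∀ j, 0 ≤ Λ j)
    (hs : ∀ j, ∫ q, Fs G (s j) (φ j) (ψ j) n m 0 q ∂μ = 0)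
    (hpos : ∀ q, 0 ≤ TT G z A A1 A2 A3 c c' d d' Λ γ s φ φ' ψ ψ' n m p 0 q) :
    ∀ᵐ q ∂μ, TT G z A A1 A2 A3 c c' d d' Λ γ s φ φ' ψ ψ' n m p 0 q = 0 := by
  have hn0 : ∀ q, 0 ≤ G.ev q n := fun q => (hn q).1
  have hm0 : ∀ q, 0 ≤ G.ev q m := fun q => (hm q).1
  obtain ⟨e1, he1, hΩe'⟩ := exists_e0 hΩo hΩ
  obtain ⟨e0, he0, he0', he01⟩ : ∃ e0 : ℝ, 0 < e0 ∧ e0 ≤ e1 ∧ e0 ≤ 1 :=
    ⟨min e1 1, lt_min he1 one_pos, min_le_left _ _, min_le_right _ _⟩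
  have hΩe : ∀ e, |e| ≤ e0 → ∀ q, Ph G n m p e q ∈ Ω := fun e he => hΩe' e (he.trans he0')
  have hFb : Bd e0 (FF G z A A1 A2 A3 n m p) := FF_bound (z := z) hA hn0 hm0 hC hC' hΩe
  have hTb : Bd e0 (TT G z A A1 A2 A3 c c' d d' Λ γ s φ φ' ψ ψ' n m p) :=
    ((hFb.add (Cc_bd hR hn hC hc he01)).add (Cc_bd hR hm hC' hd he01)).add
      (Bd.sum Finset.univ fun j => ((Bd.const (Λ j)).mul (PF_bd hR hn hm hC hC' (hφ j) (hψ j)
        (s j) he01)).add ((Bd.const (γ j)).mul (Fs_bd hR hn hm (hφ j) (hψ j) (s j) he01)))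
  obtain ⟨B, hB0, hB⟩ := hTb.nn
  have hTlim : ∀ q, Tendsto (fun e => TT G z A A1 A2 A3 c c' d d' Λ γ s φ φ' ψ ψ' n m p e q) (𝓝 0)
      (𝓝 (TT G z A A1 A2 A3 c c' d d' Λ γ s φ φ' ψ ψ' n m p 0 q)) := fun q =>
    (((FF_tendsto hΩo hA hn0 hm0 hC hC' hΩ q).add (Cc_lim hR hn hC hc q)).add
      (Cc_lim hR hm hC' hd q)).add (tendsto_finset_sum _ fun j _ =>
        ((PF_lim hR hn hm hC hC' (hφ j) (hψ j) (s j) q).const_mul (Λ j)).add
          ((Fs_lim hR hn hm (hφ j) (hψ j) (s j) q).const_mul (γ j)))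
  obtain ⟨e, he⟩ : ∃ e : ℕ → ℝ, e = fun k : ℕ => e0 / ((k : ℝ) + 1) := ⟨_, rfl⟩
  have hepos : ∀ k, 0 < e k := fun k => by rw [he]; positivity
  have hele : ∀ k, |e k| ≤ e0 := fun k => by
    rw [abs_of_pos (hepos k), he]
    exact div_le_self he0.le (by have : (0 : ℝ) ≤ k := Nat.cast_nonneg k; linarith)
  have hesq : ∀ k, e k ^ 2 ≤ 1 := fun k => by
    have := (hele k).trans he01
    rw [← sq_abs]; nlinarith [abs_nonneg (e k)]
  have hetend : Tendsto e atTop (𝓝 0) := by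
    rw [he]
    have := (tendsto_one_div_add_atTop_nhds_zero_nat (𝕜 := ℝ)).const_mul e0
    simp only [mul_zero] at this
    refine this.congr fun k => ?_
    rw [mul_one_div]
  have hdvk : ∀ k, ∃ X : V, ∀ q, G.ev q (G.dv X) = FF G z A A1 A2 A3 n m p (e k) q := fun k =>
    FF_div hA hn0 hm0 (hepos k).ne' (hΩe _ (hele k))
  have hFc : ∀ k, Continuous (FF G z A A1 A2 A3 n m p (e k)) := fun k => by
    obtain ⟨X, hX⟩ := hdvk k
    have : FF G z A A1 A2 A3 n m p (e k) = fun q => G.ev q (G.dv X) := by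
      ext q; exact (hX q).symm
    rw [this]; exact G.ev_cont _
  have hFi : ∀ k, ∫ q, FF G z A A1 A2 A3 n m p (e k) q ∂μ = 0 := fun k => by
    obtain ⟨X, hX⟩ := hdvk k
    have : (fun q => FF G z A A1 A2 A3 n m p (e k) q) = fun q => G.ev q (G.dv X) := by
      ext q; exact (hX q).symm
    rw [this]; exact hdiv X
  have hCn := fun k => int_Cc hdiv hR hR1 hn hc (hepos k).ne' (hesq k)
  have hCm := fun k => int_Cc hdiv hR hR1 hm hd (hepos k).ne' (hesq k)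
  have hPF := fun j k => int_PF hμ hP hR hR1 hn hm (hφ j) (hψ j) (s j) (hepos k).ne' (hesq k)
  -- mean values
  obtain ⟨a, ha⟩ : ∃ a : J → ℕ → ℝ, a = fun j k =>
    ∫ q, Fs G (s j) (φ j) (ψ j) n m (e k) q ∂μ := ⟨_, rfl⟩
  have hatend : ∀ j, Tendsto (a j) atTop (𝓝 0) := by
    intro j
    rw [ha, ← hs j]
    obtain ⟨B', hB'⟩ := Fs_bd (G := G) (n := n) (m := m) hR hn hm (hφ j) (hψ j) (s j) he01
    apply tendsto_integral_of_dominated_convergence (fun _ => B')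
    · exact fun k => (hPF j k).1.aestronglyMeasurable
    · exact integrable_const B'
    · exact fun k => Eventually.of_forall fun q => hB' _ (hele k) q
    · exact Eventually.of_forall fun q => (Fs_lim hR hn hm (hφ j) (hψ j) (s j) q).comp hetend
  obtain ⟨η, hη⟩ : ∃ η : ℕ → ℝ, η = fun k => ∑ j, (Λ j * (4 * a j k ^ 2 / μ.real univ) +
    γ j * a j k) := ⟨_, rfl⟩
  have hηtend : Tendsto η atTop (𝓝 0) := by
    have h1 : Tendsto η atTop (𝓝 (∑ j, (Λ j * (4 * 0 ^ 2 / μ.real univ) + γ j * 0))) := by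
      rw [hη]
      exact tendsto_finset_sum _ fun j _ => ((((hatend j).pow 2).const_mul 4).div_const _
        |>.const_mul _).add ((hatend j).const_mul _)
    simpa using h1
  have hi : ∀ {f : M → ℝ}, Continuous f → Integrable f μ := fun hf =>
    hf.integrable_of_hasCompactSupport (HasCompactSupport.of_compactSpace _)
  have hSc : ∀ j k, Continuous fun q => Λ j * PF G (s j) (φ j) (φ' j) (ψ j) (ψ' j) n m (e k) q +
      γ j * Fs G (s j) (φ j) (ψ j) n m (e k) q := fun j k =>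
    (continuous_const.mul (hPF j k).2.1).add (continuous_const.mul (hPF j k).1)
  have hSs : ∀ k, Continuous fun q => ∑ j, (Λ j * PF G (s j) (φ j) (φ' j) (ψ j) (ψ' j) n m (e k) q +
      γ j * Fs G (s j) (φ j) (ψ j) n m (e k) q) := fun k =>
    continuous_finset_sum _ fun j _ => hSc j k
  have hTc : ∀ k, Continuous (TT G z A A1 A2 A3 c c' d d' Λ γ s φ φ' ψ ψ' n m p (e k)) := fun k =>
    (((hFc k).add (hCn k).1).add (hCm k).1).add (hSs k)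
  have hTi : ∀ k, ∫ q, TT G z A A1 A2 A3 c c' d d' Λ γ s φ φ' ψ ψ' n m p (e k) q ∂μ ≤ η k := by
    intro k
    have i1 : Integrable (FF G z A A1 A2 A3 n m p (e k)) μ := hi (hFc k)
    have i2 : Integrable (Cc G c c' n (e k)) μ := hi (hCn k).1
    have i3 : Integrable (Cc G d d' m (e k)) μ := hi (hCm k).1
    have i12 : Integrable (fun q => FF G z A A1 A2 A3 n m p (e k) q + Cc G c c' n (e k) q) μ :=
      i1.add i2
    have i123 : Integrable (fun q => FF G z A A1 A2 A3 n m p (e k) q + Cc G c c' n (e k) q +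
      Cc G d d' m (e k) q) μ := i12.add i3
    unfold TT
    rw [integral_add i123 (hi (hSs k)), integral_add i12 i3, integral_add i1 i2, hFi k,
      (hCn k).2, (hCm k).2, integral_finset_sum _ fun j _ => hi (hSc j k), hη]
    simp only [add_zero, zero_add]
    refine Finset.sum_le_sum fun j _ => ?_
    have k1 : Integrable (fun q => Λ j * PF G (s j) (φ j) (φ' j) (ψ j) (ψ' j) n m (e k) q) μ :=
      (hi (hPF j k).2.1).const_mul _
    have k2 : Integrable (fun q => γ j * Fs G (s j) (φ j) (ψ j) n m (e k) q) μ :=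
      (hi (hPF j k).1).const_mul _
    rw [integral_add k1 k2, integral_const_mul, integral_const_mul, ha]
    exact add_le_add (mul_le_mul_of_nonneg_left (hPF j k).2.2 (hΛ j)) le_rfl
  -- apply Fatou
  obtain ⟨κ, hκ⟩ : ∃ κ : ℕ → ℝ, κ = fun k => η k / μ.real univ := ⟨_, rfl⟩
  have hκtend : Tendsto κ atTop (𝓝 0) := by
    rw [hκ]; simpa using hηtend.div_const (μ.real univ)
  obtain ⟨K, hK⟩ : ∃ K : ℝ, ∀ k, |κ k| ≤ K := by
    obtain ⟨K, hK⟩ := hκtend.abs.bddAbove_range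
    exact ⟨K, fun k => hK ⟨k, rfl⟩⟩
  have hK0 : 0 ≤ K := (abs_nonneg _).trans (hK 0)
  refine fatou_zero (f := fun k q => TT G z A A1 A2 A3 c c' d d' Λ γ s φ φ' ψ ψ' n m p (e k) q - κ k)
    (fun k => (hTc k).sub continuous_const) (fun k => ?_) (B := B + K) (by positivity)
    (fun k q => ?_) (fun q => ?_) hpos
  · rw [integral_sub (hi (hTc k)) (integrable_const _), integral_const, smul_eq_mul]
    have h1 : μ.real univ * κ k = η k := by rw [hκ]; field_simp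
    rw [h1]
    linarith [hTi k]
  · have h1 := neg_abs_le (TT G z A A1 A2 A3 c c' d d' Λ γ s φ φ' ψ ψ' n m p (e k) q)
    have h2 := hB (e k) (hele k) q
    have h3 := hK k
    have h4 := le_abs_self (κ k)
    linarith
  · simpa using ((hTlim q).comp hetend).sub hκtend

theorem Fs_cont (hR : 0 ≤ R) (hn : ∀ q, G.ev q n ∈ Icc 0 (R ^ 2 - 1))
    (hm : ∀ q, G.ev q m ∈ Icc 0 (R ^ 2 - 1)) {φ φ' ψ ψ' : ℝ → ℝ} (hφ : C1on R φ φ')
    (hψ : C1on R ψ ψ') (s : ℝ) : Continuous (Fs G s φ ψ n m 0) :=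
  (continuous_const.mul (comp_contAt hR hn hφ.cont)).sub (comp_contAt hR hm hψ.cont)

theorem q2_contAt {q : M} (h1 : 0 < G.ev q n) (h2 : 0 < G.ev q m) :
    ContinuousAt (fun q => ipg G n m q / ((2 * rt G n 0 q) * (2 * rt G m 0 q))) q := by
  have c1 : Continuous fun q : M => rt G n 0 q :=
    (rt_cont n).comp (continuous_const.prodMk continuous_id)
  have c2 : Continuous fun q : M => rt G m 0 q :=
    (rt_cont m).comp (continuous_const.prodMk continuous_id)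
  refine (ipg_cont n m).continuousAt.div ((continuous_const.mul c1).mul
    (continuous_const.mul c2)).continuousAt ?_
  have := rt0_pos h1; have := rt0_pos h2; positivity

theorem TT_contAt (hΩo : IsOpen Ω) (hA : ∀ i, Sm3 G Ω (A i) (A1 i) (A2 i) (A3 i)) (hR : 0 ≤ R)
    (hn : ∀ q, G.ev q n ∈ Icc 0 (R ^ 2 - 1)) (hm : ∀ q, G.ev q m ∈ Icc 0 (R ^ 2 - 1))
    (hΩ : ∀ q, Ph G n m p 0 q ∈ Ω) (hc : C1on R c c') (hd : C1on R d d')
    (hφ : ∀ j, C1on R (φ j) (φ' j)) (hψ : ∀ j, C1on R (ψ j) (ψ' j)) {q : M} (h1 : 0 < G.ev q n)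
    (h2 : 0 < G.ev q m) :
    ContinuousAt (TT G z A A1 A2 A3 c c' d d' Λ γ s φ φ' ψ ψ' n m p 0) q := by
  have q1 : ∀ {n : 𝒪}, 0 < G.ev q n → ContinuousAt (fun q => ipg G n n q / (2 * rt G n 0 q) ^ 2) q := by
    intro n h
    have := q2_contAt h h
    simpa only [sq] using this
  have q0 : ∀ {n : 𝒪}, 0 < G.ev q n → ContinuousAt (fun q => ipg G n n q / (2 * rt G n 0 q)) q := by
    intro n h
    have c1 : Continuous fun q : M => rt G n 0 q :=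
      (rt_cont n).comp (continuous_const.prodMk continuous_id)
    refine (ipg_cont n n).continuousAt.div (continuous_const.mul c1).continuousAt ?_
    have := rt0_pos h; positivity
  have cCc : ∀ {n : 𝒪} {c c' : ℝ → ℝ}, (∀ q, G.ev q n ∈ Icc 0 (R ^ 2 - 1)) → C1on R c c' →
      0 < G.ev q n → ContinuousAt (Cc G c c' n 0) q := by
    intro n c c' hn hc h
    exact continuousAt_const.mul (((comp_contAt hR hn hc.2).continuousAt.mul (q0 h)).add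
      ((comp_contAt hR hn hc.cont).continuousAt.mul (G.ev_cont _).continuousAt))
  have cF := fun j => (Fs_cont (G := G) (n := n) (m := m) hR hn hm (hφ j) (hψ j) (s j)).continuousAt (x := q)
  have cP : ∀ j, ContinuousAt (PF G (s j) (φ j) (φ' j) (ψ j) (ψ' j) n m 0) q := by
    intro j
    have b1 := (comp_contAt hR hn (hφ j).2).continuousAt (x := q)
    have b2 := (comp_contAt hR hm (hψ j).2).continuousAt (x := q)
    exact (continuousAt_const.mul ((cF j).pow 2)).sub (((continuousAt_const.mul ((b1.pow 2).mul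
      (q1 h1))).sub (continuousAt_const.mul ((b1.mul b2).mul (q2_contAt h1 h2)))).add
        ((b2.pow 2).mul (q1 h2)))
  exact (((FF_contAt hΩo hA hΩ h1 h2).add (cCc hn hc h1)).add (cCc hm hd h2)).add
    (tendsto_finset_sum _ fun j _ => (continuousAt_const.mul (cP j)).add
      (continuousAt_const.mul (cF j)))

/-- **The integral argument with Poincaré columns**, pointwise form. -/
theorem pt_zero [CompactSpace M] [MeasurableSpace M] [BorelSpace M] {μ : Measure M}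
    [IsFiniteMeasure μ] [μ.IsOpenPosMeasure] (hdiv : DivThm G μ) (hP : H958.Poin G μ)
    (hΩo : IsOpen Ω) (hA : ∀ i, Sm3 G Ω (A i) (A1 i) (A2 i) (A3 i)) (hR : 0 ≤ R)
    (hR1 : 0 ≤ R ^ 2 - 1) (hn : ∀ q, G.ev q n ∈ Icc 0 (R ^ 2 - 1))
    (hm : ∀ q, G.ev q m ∈ Icc 0 (R ^ 2 - 1))
    (hC : ∀ q, ipg G n n q ≤ C * G.ev q n) (hC' : ∀ q, ipg G m m q ≤ C' * G.ev q m)
    (hΩ : ∀ q, Ph G n m p 0 q ∈ Ω) (hc : C1on R c c') (hd : C1on R d d')
    (hφ : ∀ j, C1on R (φ j) (φ' j)) (hψ : ∀ j, C1on R (ψ j) (ψ' j)) (hΛ : ∀ j, 0 ≤ Λ j)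
    (hs : ∀ j, ∫ q, Fs G (s j) (φ j) (ψ j) n m 0 q ∂μ = 0)
    (hpos : ∀ q, 0 ≤ TT G z A A1 A2 A3 c c' d d' Λ γ s φ φ' ψ ψ' n m p 0 q) {q0 : M}
    (h1 : 0 < G.ev q0 n) (h2 : 0 < G.ev q0 m) :
    TT G z A A1 A2 A3 c c' d d' Λ γ s φ φ' ψ ψ' n m p 0 q0 = 0 := by
  haveI : Nonempty M := ⟨q0⟩
  have hμ : μ.real univ ≠ 0 := by
    have h := isOpen_univ.measure_pos μ (⟨q0, mem_univ _⟩ : (univ : Set M).Nonempty)
    rw [Measure.real]
    exact (ENNReal.toReal_pos h.ne' (measure_ne_top μ _)).ne'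
  have hae := ae_zero hμ hdiv hP hΩo hA hR hR1 hn hm hC hC' hΩ hc hd hφ hψ hΛ hs hpos
  by_contra hne
  have hpos0 : 0 < TT G z A A1 A2 A3 c c' d d' Λ γ s φ φ' ψ ψ' n m p 0 q0 :=
    lt_of_le_of_ne (hpos q0) (Ne.symm hne)
  have hcont := TT_contAt (z := z) (Λ := Λ) (γ := γ) (s := s) (p := p) hΩo hA hR hn hm hΩ hc hd hφ hψ
    h1 h2
  have hev : ∀ᶠ q in 𝓝 q0, 0 < TT G z A A1 A2 A3 c c' d d' Λ γ s φ φ' ψ ψ' n m p 0 q :=
    hcont.eventually (lt_mem_nhds hpos0)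
  obtain ⟨U, hU, hUo, hqU⟩ := eventually_nhds_iff.1 hev
  have hμU : μ U = 0 := by
    have h3 : U ⊆ {q | ¬ (TT G z A A1 A2 A3 c c' d d' Λ γ s φ φ' ψ ψ' n m p 0 q = 0)} := by
      intro q hq h
      have := hU q hq
      linarith
    exact measure_mono_null h3 hae
  exact (hUo.measure_pos μ ⟨q0, hqU⟩).ne' hμU

end main

end Vale.Agent.P211.H56
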