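import Vale.Agent.P211.H56.Disj

set_option linter.all false

/-! P211, block L-ANA (helper56): the integral argument with Poincaré columns, with singular
functions of one variable. -/

namespace Vale.Agent.P211.H56

open Topology Filter MeasureTheory Set
open scoped ContDiff
open Vale.Agent.P211 Vale.Agent.P211.S4

variable {M 𝒪 V : Type*} [TopologicalSpace M] [CommRing 𝒪] [Algebra ℝ 𝒪]
    [AddCommGroup V] [Module 𝒪 V] {G : Geo2 M 𝒪 V}

/-- `C¹` functions on `(0,R]` -/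
def C1oc (R : ℝ) (φ φ' : ℝ → ℝ) : Prop :=
  (∀ s ∈ Ioc 0 R, HasDerivWithinAt φ (φ' s) (Ioc 0 R) s) ∧ ContinuousOn φ' (Ioc 0 R)

theorem C1oc.cont {R : ℝ} {φ φ' : ℝ → ℝ} (h : C1oc R φ φ') : ContinuousOn φ (Ioc 0 R) :=
  fun s hs => (h.1 s hs).continuousWithinAt

theorem C1on.oc {R : ℝ} {φ φ' : ℝ → ℝ} (h : C1on R φ φ') : C1oc R φ φ' :=
  ⟨fun s hs => (h.1 s (Ioc_subset_Icc_self hs)).mono Ioc_subset_Icc_self,
    h.2.mono Ioc_subset_Icc_self⟩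

theorem C1oc.comp_rt {R : ℝ} {φ φ' : ℝ → ℝ} (h : C1oc R φ φ') (hR : 0 ≤ R) {e : ℝ} (he : e ≠ 0)
    (he1 : e ^ 2 ≤ 1) :
    C1on (R ^ 2 - 1) (fun s => φ (Real.sqrt (s + e ^ 2)))
      (fun s => φ' (Real.sqrt (s + e ^ 2)) * (1 / (2 * Real.sqrt (s + e ^ 2)))) := by
  have hp : 0 < e ^ 2 := by positivity
  have hmap : ∀ s ∈ Icc 0 (R ^ 2 - 1), Real.sqrt (s + e ^ 2) ∈ Ioc 0 R := by
    intro s hs
    refine ⟨Real.sqrt_pos.2 (by have := hs.1; linarith), ?_⟩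
    rw [Real.sqrt_le_left hR]
    have := hs.2
    linarith
  refine ⟨fun s hs => ?_, ?_⟩
  · have h2 : s + e ^ 2 ≠ 0 := by
      have := hs.1
      positivity
    have h3 : HasDerivAt (fun s : ℝ => Real.sqrt (s + e ^ 2)) (1 / (2 * Real.sqrt (s + e ^ 2))) s := by
      have := ((hasDerivAt_id s).add_const (e ^ 2)).sqrt h2
      simpa using this
    exact HasDerivWithinAt.comp s (h.1 _ (hmap s hs)) h3.hasDerivWithinAt hmap
  · have h3 : ContinuousOn (fun s : ℝ => Real.sqrt (s + e ^ 2)) (Icc 0 (R ^ 2 - 1)) :=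
      (Real.continuous_sqrt.comp (continuous_id.add continuous_const)).continuousOn
    refine (h.2.comp h3 hmap).mul (continuousOn_const.div (continuousOn_const.mul h3) ?_)
    intro s hs
    have : 0 < Real.sqrt (s + e ^ 2) := Real.sqrt_pos.2 (by have := hs.1; linarith)
    positivity

theorem rt_mem' {n : 𝒪} {R : ℝ} (hR : 0 ≤ R) (hn : ∀ q, G.ev q n ∈ Icc 0 (R ^ 2 - 1)) {e : ℝ}
    (he : e ≠ 0) (he1 : e ^ 2 ≤ 1) (q : M) : rt G n e q ∈ Ioc 0 R :=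
  ⟨rt_pos (fun q => (hn q).1) he q, (rt_mem hR hn he1 q).2⟩

/-- the column `Cc`, singular form -/
theorem int_Cc' [CompactSpace M] [MeasurableSpace M] [BorelSpace M] {μ : Measure M}
    [IsFiniteMeasure μ] (hdiv : DivThm G μ) {n : 𝒪} {R : ℝ} (hR : 0 ≤ R) (hR1 : 0 ≤ R ^ 2 - 1)
    (hn : ∀ q, G.ev q n ∈ Icc 0 (R ^ 2 - 1)) {c c' : ℝ → ℝ} (hc : C1oc R c c') {e : ℝ}
    (he : e ≠ 0) (he1 : e ^ 2 ≤ 1) :
    Continuous (Cc G c c' n e) ∧ ∫ q, Cc G c c' n e q ∂μ = 0 := by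
  have h := hc.comp_rt hR he he1
  have h0 := int_C1 hdiv hR1 hn h.1 h.2
  have h1 : Cc G c c' n e = fun q => 1 / 2 * (c (Real.sqrt (G.ev q n + e ^ 2)) * G.ev q (G.lap n) +
      c' (Real.sqrt (G.ev q n + e ^ 2)) * (1 / (2 * Real.sqrt (G.ev q n + e ^ 2))) * ipg G n n q) := by
    ext q; unfold Cc rt; ring
  rw [h1]
  refine ⟨continuous_const.mul h0.1, ?_⟩
  rw [integral_const_mul, h0.2, mul_zero]

/-- the Poincaré column, singular form -/
theorem int_PF' [CompactSpace M] [MeasurableSpace M] [BorelSpace M] {μ : Measure M}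
    [IsFiniteMeasure μ] (hμ : μ.real univ ≠ 0) (hP : H958.Poin G μ) {n m : 𝒪} {R : ℝ} (hR : 0 ≤ R)
    (hR1 : 0 ≤ R ^ 2 - 1) (hn : ∀ q, G.ev q n ∈ Icc 0 (R ^ 2 - 1))
    (hm : ∀ q, G.ev q m ∈ Icc 0 (R ^ 2 - 1)) {φ φ' ψ ψ' : ℝ → ℝ} (hφ : C1oc R φ φ')
    (hψ : C1oc R ψ ψ') (s : ℝ) {e : ℝ} (he : e ≠ 0) (he1 : e ^ 2 ≤ 1) :
    Continuous (Fs G s φ ψ n m e) ∧ Continuous (PF G s φ φ' ψ ψ' n m e) ∧
    ∫ q, PF G s φ φ' ψ ψ' n m e q ∂μ ≤
      4 * (∫ q, Fs G s φ ψ n m e q ∂μ) ^ 2 / μ.real univ := by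
  have hp : 0 < e ^ 2 := by positivity
  have hφ' := hφ.comp_rt hR he he1
  have hψ' := hψ.comp_rt hR he he1
  have rtc : ∀ a : 𝒪, Continuous (rt G a e) := fun a =>
    (rt_cont a).comp (continuous_const.prodMk continuous_id)
  have rtp : ∀ q, 0 < rt G n e q := rt_pos (fun q => (hn q).1) he
  have rtp' : ∀ q, 0 < rt G m e q := rt_pos (fun q => (hm q).1) he
  have rmn := rt_mem' hR hn he he1
  have rmm := rt_mem' hR hm he he1
  have cφ : Continuous fun q => φ (rt G n e q) := hφ.cont.comp_continuous (rtc n) rmn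
  have cψ : Continuous fun q => ψ (rt G m e q) := hψ.cont.comp_continuous (rtc m) rmm
  have cφ' : Continuous fun q => φ' (rt G n e q) := hφ.2.comp_continuous (rtc n) rmn
  have cψ' : Continuous fun q => ψ' (rt G m e q) := hψ.2.comp_continuous (rtc m) rmm
  have cF : Continuous (Fs G s φ ψ n m e) := (continuous_const.mul cφ).sub cψ
  have q1 : Continuous fun q => ipg G n n q / (2 * rt G n e q) ^ 2 :=
    (ipg_cont n n).div ((continuous_const.mul (rtc n)).pow 2) fun q => by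
      have := rtp q; positivity
  have q2 : Continuous fun q => ipg G m m q / (2 * rt G m e q) ^ 2 :=
    (ipg_cont m m).div ((continuous_const.mul (rtc m)).pow 2) fun q => by
      have := rtp' q; positivity
  have q3 : Continuous fun q => ipg G n m q / ((2 * rt G n e q) * (2 * rt G m e q)) :=
    (ipg_cont n m).div ((continuous_const.mul (rtc n)).mul (continuous_const.mul (rtc m))) fun q => by
      have := rtp q; have := rtp' q; positivity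
  have cE : Continuous fun q => (s ^ 2 * (φ' (rt G n e q) ^ 2 * (ipg G n n q / (2 * rt G n e q) ^ 2)) -
      2 * s * (φ' (rt G n e q) * ψ' (rt G m e q) *
        (ipg G n m q / ((2 * rt G n e q) * (2 * rt G m e q)))) +
      ψ' (rt G m e q) ^ 2 * (ipg G m m q / (2 * rt G m e q) ^ 2)) :=
    ((continuous_const.mul ((cφ'.pow 2).mul q1)).sub (continuous_const.mul
      ((cφ'.mul cψ').mul q3))).add ((cψ'.pow 2).mul q2)
  refine ⟨cF, (continuous_const.mul (cF.pow 2)).sub cE, ?_⟩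
  obtain ⟨δ, hδ⟩ : ∃ δ, δ = (∫ q, Fs G s φ ψ n m e q ∂μ) / μ.real univ := ⟨_, rfl⟩
  have hi : ∀ {f : M → ℝ}, Continuous f → Integrable f μ := fun hf =>
    hf.integrable_of_hasCompactSupport (HasCompactSupport.of_compactSpace _)
  have h0 : ∫ q, ((fun t => s * φ (Real.sqrt (t + e ^ 2)) - δ) (G.ev q n) -
      (fun t => ψ (Real.sqrt (t + e ^ 2))) (G.ev q m)) ∂μ = 0 := by
    have h1 : (fun q => ((fun t => s * φ (Real.sqrt (t + e ^ 2)) - δ) (G.ev q n) -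
        (fun t => ψ (Real.sqrt (t + e ^ 2))) (G.ev q m))) = fun q => Fs G s φ ψ n m e q - δ := by
      ext q; unfold Fs rt; ring
    rw [h1, integral_sub (hi cF) (integrable_const _), integral_const, smul_eq_mul, hδ]
    field_simp
    ring
  have hPo := H958.poincare_C1 hP hR1 hn hm (γ₁ := fun t => s * φ (Real.sqrt (t + e ^ 2)) - δ)
    (γ₁' := fun t => s * (φ' (Real.sqrt (t + e ^ 2)) * (1 / (2 * Real.sqrt (t + e ^ 2)))))
    (γ₂ := fun t => ψ (Real.sqrt (t + e ^ 2)))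
    (γ₂' := fun t => ψ' (Real.sqrt (t + e ^ 2)) * (1 / (2 * Real.sqrt (t + e ^ 2))))
    (fun t ht => ((hφ'.1 t ht).const_mul s).sub_const δ) (hφ'.2.const_smul s |>.congr fun t _ => rfl)
    hψ'.1 hψ'.2 h0
  have h2 : (fun q => ((fun t => s * φ (Real.sqrt (t + e ^ 2)) - δ) (G.ev q n) -
        (fun t => ψ (Real.sqrt (t + e ^ 2))) (G.ev q m)) ^ 2) =
      fun q => Fs G s φ ψ n m e q ^ 2 - 2 * δ * Fs G s φ ψ n m e q + δ ^ 2 := by
    ext q; unfold Fs rt; ring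
  have h3 : (fun q => ((s * (φ' (Real.sqrt (G.ev q n + e ^ 2)) *
        (1 / (2 * Real.sqrt (G.ev q n + e ^ 2))))) ^ 2 * G.ev q (G.g (G.grad n) (G.grad n))
      - 2 * ((s * (φ' (Real.sqrt (G.ev q n + e ^ 2)) *
        (1 / (2 * Real.sqrt (G.ev q n + e ^ 2))))) * (ψ' (Real.sqrt (G.ev q m + e ^ 2)) *
        (1 / (2 * Real.sqrt (G.ev q m + e ^ 2))))) * G.ev q (G.g (G.grad n) (G.grad m))
      + (ψ' (Real.sqrt (G.ev q m + e ^ 2)) * (1 / (2 * Real.sqrt (G.ev q m + e ^ 2)))) ^ 2 *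
        G.ev q (G.g (G.grad m) (G.grad m)))) =
      fun q => (s ^ 2 * (φ' (rt G n e q) ^ 2 * (ipg G n n q / (2 * rt G n e q) ^ 2)) -
      2 * s * (φ' (rt G n e q) * ψ' (rt G m e q) *
        (ipg G n m q / ((2 * rt G n e q) * (2 * rt G m e q)))) +
      ψ' (rt G m e q) ^ 2 * (ipg G m m q / (2 * rt G m e q) ^ 2)) := by
    ext q
    have r1 : Real.sqrt (G.ev q n + e ^ 2) = rt G n e q := rfl
    have r2 : Real.sqrt (G.ev q m + e ^ 2) = rt G m e q := rfl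
    have i1 : G.ev q (G.g (G.grad n) (G.grad n)) = ipg G n n q := rfl
    have i2 : G.ev q (G.g (G.grad n) (G.grad m)) = ipg G n m q := rfl
    have i3 : G.ev q (G.g (G.grad m) (G.grad m)) = ipg G m m q := rfl
    rw [r1, r2, i1, i2, i3]
    have h1 := (rtp q).ne'
    have h2 := (rtp' q).ne'
    field_simp
  simp only [h2, h3] at hPo
  have h4 : ∫ q, (Fs G s φ ψ n m e q ^ 2 - 2 * δ * Fs G s φ ψ n m e q + δ ^ 2) ∂μ =
      ∫ q, Fs G s φ ψ n m e q ^ 2 ∂μ - 2 * δ * ∫ q, Fs G s φ ψ n m e q ∂μ +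
        δ ^ 2 * μ.real univ := by
    have j1 : Integrable (fun q => Fs G s φ ψ n m e q ^ 2) μ := hi (cF.pow 2)
    have j2 : Integrable (fun q => 2 * δ * Fs G s φ ψ n m e q) μ := (hi cF).const_mul _
    have j3 : Integrable (fun q => Fs G s φ ψ n m e q ^ 2 - 2 * δ * Fs G s φ ψ n m e q) μ :=
      j1.sub j2
    rw [integral_add j3 (integrable_const _), integral_sub j1 j2, integral_const_mul,
      integral_const, smul_eq_mul]
    ring
  rw [h4] at hPo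
  unfold PF
  have j1 : Integrable (fun q => 4 * Fs G s φ ψ n m e q ^ 2) μ := (hi (cF.pow 2)).const_mul 4
  rw [integral_sub j1 (hi cE), integral_const_mul]
  have h5 : 4 * (∫ q, Fs G s φ ψ n m e q ∂μ) ^ 2 / μ.real univ =
      4 * (2 * δ * ∫ q, Fs G s φ ψ n m e q ∂μ - δ ^ 2 * μ.real univ) := by
    rw [hδ]; field_simp; ring
  rw [h5]
  linarith

/-- lower bound of `½ div (c(N) ∇n)` -/
noncomputable def Tc (G : Geo2 M 𝒪 V) (c c' : ℝ → ℝ) (n : 𝒪) (e : ℝ) (q : M) : ℝ :=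
  ipg G n n q / (2 * rt G n e q) ^ 2 * (5 / 3 * c (rt G n e q) + rt G n e q * c' (rt G n e q)) +
    6 * c (rt G n e q) * G.ev q n * (1 - Real.sqrt (G.ev q n))

theorem Tc_le {n : 𝒪} (h : KFun G n) {c c' : ℝ → ℝ} {e : ℝ} (he : e ≠ 0) (q : M)
    (hc : 0 ≤ c (rt G n e q)) : Tc G c c' n e q ≤ Cc G c c' n e q := by
  have hx := rt_pos h.nonneg he q
  have hx2 : rt G n e q ^ 2 = G.ev q n + e ^ 2 :=
    Real.sq_sqrt (by have := h.nonneg q; positivity)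
  have hk := h.kato q
  have hi := ipg_nonneg (G := G) n q
  obtain ⟨x, hxe⟩ : ∃ x, x = rt G n e q := ⟨_, rfl⟩
  have key : 5 / 6 * (ipg G n n q / x ^ 2) + 12 * G.ev q n * (1 - Real.sqrt (G.ev q n)) ≤
      G.ev q (G.lap n) := by
    rcases (h.nonneg q).lt_or_eq with h0 | h0
    · have h1 : ipg G n n q / x ^ 2 ≤ ipg G n n q / G.ev q n := by
        apply div_le_div_of_nonneg_left hi h0
        rw [hxe, hx2]; nlinarith [sq_nonneg e]
      have h2 : (5 / 6 * (ipg G n n q / G.ev q n) +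
          12 * G.ev q n * (1 - Real.sqrt (G.ev q n))) * G.ev q n ≤ G.ev q (G.lap n) * G.ev q n := by
        have h3 : (5 / 6 * (ipg G n n q / G.ev q n) +
          12 * G.ev q n * (1 - Real.sqrt (G.ev q n))) * G.ev q n =
          12 * G.ev q n ^ 2 * (1 - Real.sqrt (G.ev q n)) + 5 / 6 * ipg G n n q := by
          field_simp; ring
        rw [h3]; linarith
      have h4 := le_of_mul_le_mul_right h2 h0
      linarith
    · obtain ⟨C, hC⟩ := h.grad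
      rw [ipg_zero hC h0.symm, ← h0]
      have := h.lap0 q h0.symm
      simpa using this
  unfold Tc Cc
  rw [← hxe]
  rw [← hxe] at hx hc
  have h5 : ipg G n n q / (2 * x) ^ 2 = 1 / 4 * (ipg G n n q / x ^ 2) := by field_simp; ring
  have h6 : c' x * (ipg G n n q / (2 * x)) = 1 / 2 * (ipg G n n q / x ^ 2) * (x * c' x) := by
    field_simp
  rw [h5, h6]
  have h7 := mul_le_mul_of_nonneg_left key hc
  linarith

/-- interpolation between `Tc` and `Cc` -/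
noncomputable def Ts (G : Geo2 M 𝒪 V) (c c' : ℝ → ℝ) (n : 𝒪) (e : ℝ) (q : M) : ℝ :=
  Tc G c c' n e q + G.ev q n / rt G n e q ^ 2 * (Cc G c c' n e q - Tc G c c' n e q)

theorem Ts_le {n : 𝒪} (h : KFun G n) {c c' : ℝ → ℝ} {e : ℝ} (he : e ≠ 0) (q : M)
    (hc : 0 ≤ c (rt G n e q)) :
    Tc G c c' n e q ≤ Ts G c c' n e q ∧ Ts G c c' n e q ≤ Cc G c c' n e q := by
  have h1 := Tc_le h (c' := c') he q hc
  have hx := rt_pos h.nonneg he q
  have hx2 : rt G n e q ^ 2 = G.ev q n + e ^ 2 :=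
    Real.sq_sqrt (by have := h.nonneg q; positivity)
  have h2 : 0 ≤ G.ev q n / rt G n e q ^ 2 := div_nonneg (h.nonneg q) (sq_nonneg _)
  have h3 : G.ev q n / rt G n e q ^ 2 ≤ 1 := by
    rw [div_le_one (by positivity), hx2]
    linarith [sq_nonneg e]
  unfold Ts
  constructor
  · linarith [mul_nonneg h2 (sub_nonneg.2 h1)]
  · nlinarith [mul_nonneg (sub_nonneg.2 h3) (sub_nonneg.2 h1)]

/-- the total integrand, with singular columns -/
noncomputable def TS (G : Geo2 M 𝒪 V) {ι J : Type*} [Fintype ι] [Fintype J] (z : ι → 𝒪)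
    (A A1 A2 A3 : ι → ℝ × ℝ × ℝ → ℝ) (c c' d d' cs cs' ds ds' : ℝ → ℝ) (Λ γ s : J → ℝ)
    (φ φ' ψ ψ' : J → ℝ → ℝ) (n m p : 𝒪) (e : ℝ) (q : M) : ℝ :=
  FF G z A A1 A2 A3 n m p e q + Cc G c c' n e q + Cc G d d' m e q +
  ∑ j, γ j * Fs G (s j) (φ j) (ψ j) n m e q +
  (Ts G cs cs' n e q + Ts G ds ds' m e q +
    ∑ j, Λ j * PF G (s j) (φ j) (φ' j) (ψ j) (ψ' j) n m e q)

section main

variable {ι J : Type*} [Fintype ι] [Fintype J] {z : ι → 𝒪} {A A1 A2 A3 : ι → ℝ × ℝ × ℝ → ℝ}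
  {Ω : Set (ℝ × ℝ × ℝ)} {n m p : 𝒪} {c c' d d' cs cs' ds ds' : ℝ → ℝ} {Λ γ s : J → ℝ}
  {φ φ' ψ ψ' : J → ℝ → ℝ} {R C C' : ℝ}

theorem comp_tendsto' (hR : 0 ≤ R) (hn : ∀ q, G.ev q n ∈ Icc 0 (R ^ 2 - 1))
    {f : ℝ → ℝ} (hf : ContinuousOn f (Ioc 0 R)) {q : M} (h0 : 0 < G.ev q n) :
    Tendsto (fun e => f (rt G n e q)) (𝓝 0) (𝓝 (f (rt G n 0 q))) := by
  have hmem : ∀ e : ℝ, e ^ 2 ≤ 1 → rt G n e q ∈ Ioc 0 R := fun e he =>
    ⟨Real.sqrt_pos.2 (by positivity), (rt_mem hR hn he q).2⟩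
  have h1 : Tendsto (fun e => rt G n e q) (𝓝 0) (𝓝[Ioc 0 R] (rt G n 0 q)) := by
    rw [tendsto_nhdsWithin_iff]
    refine ⟨rt_tendsto n q, ?_⟩
    have : ∀ᶠ e : ℝ in 𝓝 0, |e| < 1 := by
      have := Metric.ball_mem_nhds (0 : ℝ) one_pos
      filter_upwards [this] with e he
      simpa [Real.dist_eq] using he
    filter_upwards [this] with e he
    exact hmem e (by rw [← sq_abs]; nlinarith [abs_nonneg e])
  exact (hf _ (hmem 0 (by norm_num))).tendsto.comp h1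

theorem comp_contAt' (hR : 0 ≤ R) (hn : ∀ q, G.ev q n ∈ Icc 0 (R ^ 2 - 1))
    {f : ℝ → ℝ} (hf : ContinuousOn f (Ioc 0 R)) {q : M} (h0 : 0 < G.ev q n) :
    ContinuousAt (fun q => f (rt G n 0 q)) q := by
  have c1 : Continuous fun q : M => rt G n 0 q :=
    (rt_cont n).comp (continuous_const.prodMk continuous_id)
  have hev : ∀ᶠ q' in 𝓝 q, 0 < G.ev q' n := (G.ev_cont n).continuousAt.eventually (lt_mem_nhds h0)
  have h1 : Tendsto (fun q => rt G n 0 q) (𝓝 q) (𝓝[Ioc 0 R] (rt G n 0 q)) := by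
    rw [tendsto_nhdsWithin_iff]
    refine ⟨c1.continuousAt, ?_⟩
    filter_upwards [hev] with q' hq'
    exact ⟨rt0_pos hq', (rt_mem hR hn (by norm_num) q').2⟩
  exact (hf _ ⟨rt0_pos h0, (rt_mem hR hn (by norm_num) q).2⟩).tendsto.comp h1

theorem Fs_bd' (hR : 0 ≤ R) (hn : ∀ q, G.ev q n ∈ Icc 0 (R ^ 2 - 1))
    (hm : ∀ q, G.ev q m ∈ Icc 0 (R ^ 2 - 1)) {φ ψ : ℝ → ℝ} (hφ : ContinuousOn φ (Icc 0 R))
    (hψ : ContinuousOn ψ (Icc 0 R)) (s : ℝ) {e0 : ℝ} (he0 : e0 ≤ 1) : Bd e0 (Fs G s φ ψ n m) :=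
  ((Bd.const s).mul (bd_comp hR hn hφ he0)).sub (bd_comp hR hm hψ he0)

theorem Fs_lim' (hR : 0 ≤ R) (hn : ∀ q, G.ev q n ∈ Icc 0 (R ^ 2 - 1))
    (hm : ∀ q, G.ev q m ∈ Icc 0 (R ^ 2 - 1)) {φ ψ : ℝ → ℝ} (hφ : ContinuousOn φ (Icc 0 R))
    (hψ : ContinuousOn ψ (Icc 0 R)) (s : ℝ) (q : M) :
    Tendsto (fun e => Fs G s φ ψ n m e q) (𝓝 0) (𝓝 (Fs G s φ ψ n m 0 q)) :=
  ((comp_tendsto hR hn hφ q).const_mul s).sub (comp_tendsto hR hm hψ q)

theorem PF_lim' (hR : 0 ≤ R) (hn : ∀ q, G.ev q n ∈ Icc 0 (R ^ 2 - 1))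
    (hm : ∀ q, G.ev q m ∈ Icc 0 (R ^ 2 - 1))
    (hC : ∀ q, ipg G n n q ≤ C * G.ev q n) (hC' : ∀ q, ipg G m m q ≤ C' * G.ev q m)
    {φ φ' ψ ψ' : ℝ → ℝ} (hφ : ContinuousOn φ (Icc 0 R)) (hψ : ContinuousOn ψ (Icc 0 R))
    (hφ' : ContinuousOn φ' (Ioc 0 R)) (hψ' : ContinuousOn ψ' (Ioc 0 R)) (s : ℝ) (q : M) :
    Tendsto (fun e => PF G s φ φ' ψ ψ' n m e q) (𝓝 0) (𝓝 (PF G s φ φ' ψ ψ' n m 0 q)) := by
  have hn0 : ∀ q, 0 ≤ G.ev q n := fun q => (hn q).1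
  have hm0 : ∀ q, 0 ≤ G.ev q m := fun q => (hm q).1
  have k1 : ∀ {n : 𝒪} {C : ℝ} {φ' : ℝ → ℝ}, (∀ q, G.ev q n ∈ Icc 0 (R ^ 2 - 1)) →
      (∀ q, ipg G n n q ≤ C * G.ev q n) → ContinuousOn φ' (Ioc 0 R) →
      Tendsto (fun e => φ' (rt G n e q) ^ 2 * (ipg G n n q / (2 * rt G n e q) ^ 2)) (𝓝 0)
      (𝓝 (φ' (rt G n 0 q) ^ 2 * (ipg G n n q / (2 * rt G n 0 q) ^ 2))) := by
    intro n C φ' hn hC hφ'
    rcases (hn q).1.lt_or_eq with h | h
    · exact ((comp_tendsto' hR hn hφ' h).pow 2).mul (q1_tendsto (fun q => (hn q).1) hC q)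
    · rw [ipg_zero hC h.symm]; simp
  have k2 : Tendsto (fun e => φ' (rt G n e q) * ψ' (rt G m e q) *
      (ipg G n m q / ((2 * rt G n e q) * (2 * rt G m e q)))) (𝓝 0)
      (𝓝 (φ' (rt G n 0 q) * ψ' (rt G m 0 q) *
      (ipg G n m q / ((2 * rt G n 0 q) * (2 * rt G m 0 q))))) := by
    rcases (hn0 q).lt_or_eq with h | h
    · rcases (hm0 q).lt_or_eq with h' | h'
      · exact ((comp_tendsto' hR hn hφ' h).mul (comp_tendsto' hR hm hψ' h')).mul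
          (q2_tendsto hn0 hm0 hC hC' q)
      · rw [ipg_zero' hC' h'.symm]; simp
    · rw [ipg_zero hC h.symm]; simp
  exact (((Fs_lim' hR hn hm hφ hψ s q).pow 2).const_mul 4).sub
    ((((k1 hn hC hφ').const_mul (s ^ 2)).sub (k2.const_mul (2 * s))).add (k1 hm hC' hψ'))

theorem Tc_lim (hR : 0 ≤ R) (hn : ∀ q, G.ev q n ∈ Icc 0 (R ^ 2 - 1))
    (hC : ∀ q, ipg G n n q ≤ C * G.ev q n) {c c' : ℝ → ℝ} (hc : C1oc R c c') (q : M) :
    Tendsto (fun e => Tc G c c' n e q) (𝓝 0) (𝓝 (Tc G c c' n 0 q)) := by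
  rcases (hn q).1.lt_or_eq with h | h
  · have t0 := comp_tendsto' hR hn hc.cont h
    have t1 := comp_tendsto' hR hn hc.2 h
    exact ((q1_tendsto (fun q => (hn q).1) hC q).mul ((t0.const_mul (5 / 3)).add
      ((rt_tendsto n q).mul t1))).add ((((t0.const_mul 6).mul_const _).mul_const _))
  · unfold Tc
    rw [ipg_zero hC h.symm, ← h]; simp

theorem Ts_lim (hR : 0 ≤ R) (hn : ∀ q, G.ev q n ∈ Icc 0 (R ^ 2 - 1))
    (hC : ∀ q, ipg G n n q ≤ C * G.ev q n) {c c' : ℝ → ℝ} (hc : C1oc R c c') (q : M) :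
    Tendsto (fun e => Ts G c c' n e q) (𝓝 0) (𝓝 (Ts G c c' n 0 q)) := by
  have t := Tc_lim hR hn hC hc q
  rcases (hn q).1.lt_or_eq with h | h
  · have t0 := comp_tendsto' hR hn hc.cont h
    have t1 := comp_tendsto' hR hn hc.2 h
    have t2 : Tendsto (fun e => Cc G c c' n e q) (𝓝 0) (𝓝 (Cc G c c' n 0 q)) :=
      ((t1.mul (q0_tendsto (fun q => (hn q).1) hC q)).add (t0.mul_const _)).const_mul _
    refine t.add ((tendsto_const_nhds.div ((rt_tendsto n q).pow 2) ?_).mul (t2.sub t))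
    have := rt0_pos h
    positivity
  · unfold Ts
    rw [← h]
    simpa using t

/-- values at `e = 0` -/
theorem Ts_zero {n : 𝒪} {c c' : ℝ → ℝ} {q : M} (h : 0 < G.ev q n) :
    Ts G c c' n 0 q = Cc G c c' n 0 q := by
  unfold Ts
  rw [rt0_sq h.le, div_self h.ne']
  ring

theorem Ts_zero' {n : 𝒪} (hC : ∀ q, ipg G n n q ≤ C * G.ev q n) {c c' : ℝ → ℝ} {q : M}
    (h : G.ev q n = 0) : Ts G c c' n 0 q = 0 := by
  unfold Ts Tc
  rw [ipg_zero hC h, h]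
  simp

theorem abs_le_aux {a b X : ℝ} (ha : 0 ≤ a) (hb : 0 ≤ b) (h : X ^ 2 ≤ 4 * (a * b)) :
    |X| ≤ a + b := by
  refine abs_le_of_sq_le_sq ?_ (add_nonneg ha hb)
  linarith only [h, sq_nonneg (a - b)]

theorem sing_aux {c x n B R r e : ℝ} (a1 : 0 ≤ c) (a2 : c * x ^ 2 ≤ B) (hx2 : x ^ 2 = n + e ^ 2)
    (hn : 0 ≤ n) (r0 : 0 ≤ r) (hr : r ≤ R) (hB0 : 0 ≤ B) :
    -(6 * R * B) ≤ 6 * c * n * (1 - r) := by
  have v1 : 0 ≤ c * n := mul_nonneg a1 hn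
  have v2 : c * n ≤ B := by
    refine le_trans (mul_le_mul_of_nonneg_left ?_ a1) a2
    rw [hx2]; nlinarith [sq_nonneg e]
  have v4 : c * n * r ≤ B * R := mul_le_mul v2 hr r0 hB0
  nlinarith

/-- the lower bound of the singular part -/
theorem sing_lb (hR : 0 ≤ R) (hn : ∀ q, G.ev q n ∈ Icc 0 (R ^ 2 - 1))
    (hm : ∀ q, G.ev q m ∈ Icc 0 (R ^ 2 - 1))
    (hC : ∀ q, ipg G n n q ≤ C * G.ev q n) (hC' : ∀ q, ipg G m m q ≤ C' * G.ev q m)
    (hΛ : ∀ j, 0 ≤ Λ j) {B : ℝ} (hB0 : 0 ≤ B)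
    (hcs : ∀ x ∈ Ioc 0 R, 0 ≤ cs x ∧ cs x * x ^ 2 ≤ B ∧
      2 * ∑ j, Λ j * s j ^ 2 * φ' j x ^ 2 ≤ 5 / 3 * cs x + x * cs' x + B)
    (hds : ∀ x ∈ Ioc 0 R, 0 ≤ ds x ∧ ds x * x ^ 2 ≤ B ∧
      2 * ∑ j, Λ j * ψ' j x ^ 2 ≤ 5 / 3 * ds x + x * ds' x + B) {e : ℝ} (he : e ≠ 0)
    (he1 : e ^ 2 ≤ 1) (q : M) :
    - (B * |C| + B * |C'| + 12 * R * B) ≤ Tc G cs cs' n e q + Tc G ds ds' m e q +
      ∑ j, Λ j * PF G (s j) (φ j) (φ' j) (ψ j) (ψ' j) n m e q := by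
  have hn0 : ∀ q, 0 ≤ G.ev q n := fun q => (hn q).1
  have hm0 : ∀ q, 0 ≤ G.ev q m := fun q => (hm q).1
  have rmn := rt_mem' hR hn he he1 q
  have rmm := rt_mem' hR hm he he1 q
  have g1 := q1_le hn0 hC e q
  have g2 := q1_le hm0 hC' e q
  have g3 := q1_nn (G := G) (n := n) e q
  have g4 := q1_nn (G := G) (n := m) e q
  have hx2 : rt G n e q ^ 2 = G.ev q n + e ^ 2 := Real.sq_sqrt (by have := hn0 q; positivity)
  have hy2 : rt G m e q ^ 2 = G.ev q m + e ^ 2 := Real.sq_sqrt (by have := hm0 q; positivity)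
  have hcs2 : (ipg G n m q / ((2 * rt G n e q) * (2 * rt G m e q))) ^ 2 ≤
      (ipg G n n q / (2 * rt G n e q) ^ 2) * (ipg G m m q / (2 * rt G m e q) ^ 2) := by
    rw [div_pow, mul_pow, div_mul_div_comm]
    exact div_le_div_of_nonneg_right (ipg_cs (G := G) n m q) (by positivity)
  obtain ⟨a1, a2, a3⟩ := hcs _ rmn
  obtain ⟨b1, b2, b3⟩ := hds _ rmm
  have sn : Real.sqrt (G.ev q n) ≤ rt G n e q := Real.sqrt_le_sqrt (by nlinarith [sq_nonneg e])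
  have sm : Real.sqrt (G.ev q m) ≤ rt G m e q := Real.sqrt_le_sqrt (by nlinarith [sq_nonneg e])
  have sn0 := Real.sqrt_nonneg (G.ev q n)
  have sm0 := Real.sqrt_nonneg (G.ev q m)
  unfold Tc
  obtain ⟨x, hx⟩ : ∃ x, rt G n e q = x := ⟨_, rfl⟩
  obtain ⟨y, hy⟩ : ∃ y, rt G m e q = y := ⟨_, rfl⟩
  rw [hx] at a1 a2 a3 hx2 sn rmn g1 g3 hcs2
  rw [hy] at b1 b2 b3 hy2 sm rmm g2 g4 hcs2
  obtain ⟨gg, hgg⟩ : ∃ gg, ipg G n n q / (2 * x) ^ 2 = gg := ⟨_, rfl⟩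
  obtain ⟨hh, hhh⟩ : ∃ hh, ipg G m m q / (2 * y) ^ 2 = hh := ⟨_, rfl⟩
  obtain ⟨gh, hgh⟩ : ∃ gh, ipg G n m q / ((2 * x) * (2 * y)) = gh := ⟨_, rfl⟩
  rw [hgg] at g1 g3 hcs2
  rw [hhh] at g2 g4 hcs2
  rw [hgh] at hcs2
  have hPFj : ∀ j, - (2 * (Λ j * s j ^ 2 * φ' j x ^ 2) * gg + 2 * (Λ j * ψ' j y ^ 2) * hh) ≤
      Λ j * PF G (s j) (φ j) (φ' j) (ψ j) (ψ' j) n m e q := by
    intro j
    unfold PF
    rw [hx, hy, hgg, hhh, hgh]
    have e1 : -(2 * (Λ j * s j ^ 2 * φ' j x ^ 2) * gg + 2 * (Λ j * ψ' j y ^ 2) * hh) =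
        Λ j * (-(2 * (s j ^ 2 * φ' j x ^ 2 * gg) + 2 * (ψ' j y ^ 2 * hh))) := by ring
    rw [e1]
    apply mul_le_mul_of_nonneg_left _ (hΛ j)
    have e2 : -(s j ^ 2 * φ' j x ^ 2 * gg + ψ' j y ^ 2 * hh) ≤
        2 * s j * (φ' j x * ψ' j y * gh) := by
      have u1 : 0 ≤ s j ^ 2 * φ' j x ^ 2 * gg := by positivity
      have u2 : 0 ≤ ψ' j y ^ 2 * hh := by positivity
      have u3 : (2 * s j * (φ' j x * ψ' j y * gh)) ^ 2 ≤
          4 * ((s j ^ 2 * φ' j x ^ 2 * gg) * (ψ' j y ^ 2 * hh)) := by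
        have : (2 * s j * (φ' j x * ψ' j y * gh)) ^ 2 =
            4 * ((s j ^ 2 * φ' j x ^ 2) * (ψ' j y ^ 2)) * gh ^ 2 := by ring
        rw [this]
        have v := mul_le_mul_of_nonneg_left hcs2
          (show 0 ≤ 4 * ((s j ^ 2 * φ' j x ^ 2) * (ψ' j y ^ 2)) by positivity)
        linarith only [v]
      have u4 : |2 * s j * (φ' j x * ψ' j y * gh)| ≤
          s j ^ 2 * φ' j x ^ 2 * gg + ψ' j y ^ 2 * hh := by
        exact abs_le_aux u1 u2 u3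
      linarith only [neg_abs_le (2 * s j * (φ' j x * ψ' j y * gh)), u4]
    have e3 := sq_nonneg (Fs G (s j) (φ j) (ψ j) n m e q)
    linarith only [e2, e3]
  have hsum := Finset.sum_le_sum fun j (_ : j ∈ Finset.univ) => hPFj j
  have hsum2 : ∑ j, -(2 * (Λ j * s j ^ 2 * φ' j x ^ 2) * gg + 2 * (Λ j * ψ' j y ^ 2) * hh) =
      -((2 * ∑ j, Λ j * s j ^ 2 * φ' j x ^ 2) * gg + (2 * ∑ j, Λ j * ψ' j y ^ 2) * hh) := by
    rw [Finset.sum_neg_distrib, Finset.sum_add_distrib, Finset.mul_sum, Finset.mul_sum,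
      Finset.sum_mul, Finset.sum_mul]
  rw [hsum2] at hsum
  rw [hx, hy, hgg, hhh]
  have w1 := mul_le_mul_of_nonneg_right a3 g3
  have w2 := mul_le_mul_of_nonneg_right b3 g4
  have w3 := sing_aux a1 a2 hx2 (hn0 q) sn0 (sn.trans rmn.2) hB0
  have w4 := sing_aux b1 b2 hy2 (hm0 q) sm0 (sm.trans rmm.2) hB0
  have w5 := mul_le_mul_of_nonneg_left g1 hB0
  have w6 := mul_le_mul_of_nonneg_left g2 hB0
  linarith only [w1, w2, w3, w4, w5, w6, hsum]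

/-- hypotheses on the one-variable functions -/
structure Cols (J : Type*) [Fintype J] (R B : ℝ) (c c' d d' cs cs' ds ds' : ℝ → ℝ) (Λ s : J → ℝ)
    (φ φ' ψ ψ' : J → ℝ → ℝ) : Prop where
  fc : C1on R c c'
  fd : C1on R d d'
  fcs : C1oc R cs cs'
  fds : C1oc R ds ds'
  fφ : ∀ j, C1oc R (φ j) (φ' j)
  fψ : ∀ j, C1oc R (ψ j) (ψ' j)
  kφ : ∀ j, ContinuousOn (φ j) (Icc 0 R)
  kψ : ∀ j, ContinuousOn (ψ j) (Icc 0 R)
  Λ0 : ∀ j, 0 ≤ Λ j
  hcs : ∀ x ∈ Ioc 0 R, 0 ≤ cs x ∧ cs x * x ^ 2 ≤ B ∧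
      2 * ∑ j, Λ j * s j ^ 2 * φ' j x ^ 2 ≤ 5 / 3 * cs x + x * cs' x + B
  hds : ∀ x ∈ Ioc 0 R, 0 ≤ ds x ∧ ds x * x ^ 2 ≤ B ∧
      2 * ∑ j, Λ j * ψ' j x ^ 2 ≤ 5 / 3 * ds x + x * ds' x + B

/-- **The integral argument with Poincaré columns, singular form**, a.e. version. -/
theorem ae_zero' [CompactSpace M] [MeasurableSpace M] [BorelSpace M] {μ : Measure M}
    [IsFiniteMeasure μ] (hμ : μ.real univ ≠ 0) (hdiv : DivThm G μ) (hP : H958.Poin G μ)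
    (hΩo : IsOpen Ω) (hA : ∀ i, Sm3 G Ω (A i) (A1 i) (A2 i) (A3 i)) (hR : 0 ≤ R)
    (hR1 : 0 ≤ R ^ 2 - 1) (kn : KFun G n) (km : KFun G m)
    (hn : ∀ q, G.ev q n ∈ Icc 0 (R ^ 2 - 1)) (hm : ∀ q, G.ev q m ∈ Icc 0 (R ^ 2 - 1))
    (hΩ : ∀ q, Ph G n m p 0 q ∈ Ω) {B : ℝ} (hB0 : 0 ≤ B)
    (hc : Cols J R B c c' d d' cs cs' ds ds' Λ s φ φ' ψ ψ')
    (hs : ∀ j, ∫ q, Fs G (s j) (φ j) (ψ j) n m 0 q ∂μ = 0)
    (hpos : ∀ q, 0 ≤ TS G z A A1 A2 A3 c c' d d' cs cs' ds ds' Λ γ s φ φ' ψ ψ' n m p 0 q) :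
    ∀ᵐ q ∂μ, TS G z A A1 A2 A3 c c' d d' cs cs' ds ds' Λ γ s φ φ' ψ ψ' n m p 0 q = 0 := by
  obtain ⟨C, hC⟩ := kn.grad
  obtain ⟨C', hC'⟩ := km.grad
  have hn0 : ∀ q, 0 ≤ G.ev q n := fun q => (hn q).1
  have hm0 : ∀ q, 0 ≤ G.ev q m := fun q => (hm q).1
  obtain ⟨e1, he1, hΩe'⟩ := exists_e0 hΩo hΩ
  obtain ⟨e0, he0, he0', he01⟩ : ∃ e0 : ℝ, 0 < e0 ∧ e0 ≤ e1 ∧ e0 ≤ 1 :=
    ⟨min e1 1, lt_min he1 one_pos, min_le_left _ _, min_le_right _ _⟩
  have hΩe : ∀ e, |e| ≤ e0 → ∀ q, Ph G n m p e q ∈ Ω := fun e he => hΩe' e (he.trans he0')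
  have hFb : Bd e0 (FF G z A A1 A2 A3 n m p) := FF_bound (z := z) hA hn0 hm0 hC hC' hΩe
  have hFs : ∀ j, Bd e0 (Fs G (s j) (φ j) (ψ j) n m) := fun j =>
    Fs_bd' hR hn hm (hc.kφ j) (hc.kψ j) (s j) he01
  have hTb : Bd e0 fun e q => FF G z A A1 A2 A3 n m p e q + Cc G c c' n e q + Cc G d d' m e q +
      ∑ j, γ j * Fs G (s j) (φ j) (ψ j) n m e q :=
    ((hFb.add (Cc_bd hR hn hC hc.fc he01)).add (Cc_bd hR hm hC' hc.fd he01)).add
      (Bd.sum Finset.univ fun j => ((Bd.const (γ j)).mul (hFs j)))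
  obtain ⟨B1, hB10, hB1⟩ := hTb.nn
  have hTlim : ∀ q, Tendsto (fun e => TS G z A A1 A2 A3 c c' d d' cs cs' ds ds' Λ γ s φ φ' ψ ψ'
      n m p e q) (𝓝 0) (𝓝 (TS G z A A1 A2 A3 c c' d d' cs cs' ds ds' Λ γ s φ φ' ψ ψ' n m p 0 q)) :=
    fun q =>
    ((((FF_tendsto hΩo hA hn0 hm0 hC hC' hΩ q).add (Cc_lim hR hn hC hc.fc q)).add
      (Cc_lim hR hm hC' hc.fd q)).add (tendsto_finset_sum _ fun j _ =>
        ((Fs_lim' hR hn hm (hc.kφ j) (hc.kψ j) (s j) q).const_mul (γ j)))).add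
    (((Ts_lim hR hn hC hc.fcs q).add (Ts_lim hR hm hC' hc.fds q)).add
      (tendsto_finset_sum _ fun j _ => ((PF_lim' hR hn hm hC hC' (hc.kφ j) (hc.kψ j) (hc.fφ j).2
        (hc.fψ j).2 (s j) q).const_mul (Λ j))))
  obtain ⟨e, he⟩ : ∃ e : ℕ → ℝ, e = fun k : ℕ => e0 / ((k : ℝ) + 1) := ⟨_, rfl⟩
  have hepos : ∀ k, 0 < e k := fun k => by rw [he]; positivity
  have hele : ∀ k, |e k| ≤ e0 := fun k => by
    rw [abs_of_pos (hepos k), he]
    exact div_le_self he0.le (by have : (0 : ℝ) ≤ k := Nat.cast_nonneg k; linarith)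
  have hesq : ∀ k, e k ^ 2 ≤ 1 := fun k => by
    have := (hele k).trans he01
    rw [← sq_abs]; nlinarith [abs_nonneg (e k)]
  have hetend : Tendsto e atTop (𝓝 0) := by
    rw [he]
    have := (tendsto_one_div_add_atTop_nhds_zero_nat (𝕜 := ℝ)).const_mul e0
    simp only [mul_zero] at this
    refine this.congr fun k => ?_
    rw [mul_one_div]
  have hdvk : ∀ k, ∃ X : V, ∀ q, G.ev q (G.dv X) = FF G z A A1 A2 A3 n m p (e k) q := fun k =>
    FF_div hA hn0 hm0 (hepos k).ne' (hΩe _ (hele k))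
  have hFc : ∀ k, Continuous (FF G z A A1 A2 A3 n m p (e k)) := fun k => by
    obtain ⟨X, hX⟩ := hdvk k
    have : FF G z A A1 A2 A3 n m p (e k) = fun q => G.ev q (G.dv X) := by
      ext q; exact (hX q).symm
    rw [this]; exact G.ev_cont _
  have hFi : ∀ k, ∫ q, FF G z A A1 A2 A3 n m p (e k) q ∂μ = 0 := fun k => by
    obtain ⟨X, hX⟩ := hdvk k
    have : (fun q => FF G z A A1 A2 A3 n m p (e k) q) = fun q => G.ev q (G.dv X) := by
      ext q; exact (hX q).symm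
    rw [this]; exact hdiv X
  have hCn := fun k => int_Cc' hdiv hR hR1 hn hc.fc.oc (hepos k).ne' (hesq k)
  have hCm := fun k => int_Cc' hdiv hR hR1 hm hc.fd.oc (hepos k).ne' (hesq k)
  have hSn := fun k => int_Cc' hdiv hR hR1 hn hc.fcs (hepos k).ne' (hesq k)
  have hSm := fun k => int_Cc' hdiv hR hR1 hm hc.fds (hepos k).ne' (hesq k)
  have hPF := fun j k => int_PF' hμ hP hR hR1 hn hm (hc.fφ j) (hc.fψ j) (s j) (hepos k).ne' (hesq k)
  have rmn := fun k => rt_mem' hR hn (hepos k).ne' (hesq k)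
  have rmm := fun k => rt_mem' hR hm (hepos k).ne' (hesq k)
  have hi : ∀ {f : M → ℝ}, Continuous f → Integrable f μ := fun hf =>
    hf.integrable_of_hasCompactSupport (HasCompactSupport.of_compactSpace _)
  -- the columns Ts
  have hTcc : ∀ {n : 𝒪} {cs cs' : ℝ → ℝ}, KFun G n → (∀ q, G.ev q n ∈ Icc 0 (R ^ 2 - 1)) →
      C1oc R cs cs' → ∀ k, Continuous (Ts G cs cs' n (e k)) := by
    intro n cs cs' kn hn hcs k
    have rm := rt_mem' hR hn (hepos k).ne' (hesq k)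
    have rtc : Continuous (rt G n (e k)) := (rt_cont n).comp (continuous_const.prodMk continuous_id)
    have q1 : Continuous fun q => ipg G n n q / (2 * rt G n (e k) q) ^ 2 :=
      (ipg_cont n n).div ((continuous_const.mul rtc).pow 2) fun q => by
        have := (rm q).1; positivity
    have c0 : Continuous fun q => cs (rt G n (e k) q) := hcs.cont.comp_continuous rtc rm
    have c1 : Continuous fun q => cs' (rt G n (e k) q) := hcs.2.comp_continuous rtc rm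
    have c2 : Continuous (Tc G cs cs' n (e k)) :=
      (q1.mul ((continuous_const.mul c0).add (rtc.mul c1))).add
      (((continuous_const.mul c0).mul (G.ev_cont n)).mul (continuous_const.sub
        (Real.continuous_sqrt.comp (G.ev_cont n))))
    have c3 := (int_Cc' hdiv hR hR1 hn hcs (hepos k).ne' (hesq k)).1
    exact c2.add (((G.ev_cont n).div (rtc.pow 2) fun q =>
      pow_ne_zero 2 (rm q).1.ne').mul (c3.sub c2))
  have hTcn := hTcc kn hn hc.fcs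
  have hTcm := hTcc km hm hc.fds
  have hTin : ∀ k, ∫ q, Ts G cs cs' n (e k) q ∂μ ≤ 0 := fun k => by
    rw [← (hSn k).2]
    exact integral_mono (hi (hTcn k)) (hi (hSn k).1) fun q =>
      (Ts_le kn (hepos k).ne' q (hc.hcs _ (rmn k q)).1).2
  have hTim : ∀ k, ∫ q, Ts G ds ds' m (e k) q ∂μ ≤ 0 := fun k => by
    rw [← (hSm k).2]
    exact integral_mono (hi (hTcm k)) (hi (hSm k).1) fun q =>
      (Ts_le km (hepos k).ne' q (hc.hds _ (rmm k q)).1).2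
  -- mean values
  obtain ⟨a, ha⟩ : ∃ a : J → ℕ → ℝ, a = fun j k =>
    ∫ q, Fs G (s j) (φ j) (ψ j) n m (e k) q ∂μ := ⟨_, rfl⟩
  have hatend : ∀ j, Tendsto (a j) atTop (𝓝 0) := by
    intro j
    rw [ha, ← hs j]
    obtain ⟨B', hB'⟩ := hFs j
    apply tendsto_integral_of_dominated_convergence (fun _ => B')
    · exact fun k => (hPF j k).1.aestronglyMeasurable
    · exact integrable_const B'
    · exact fun k => Eventually.of_forall fun q => hB' _ (hele k) q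
    · exact Eventually.of_forall fun q => (Fs_lim' hR hn hm (hc.kφ j) (hc.kψ j) (s j) q).comp hetend
  obtain ⟨η, hη⟩ : ∃ η : ℕ → ℝ, η = fun k => ∑ j, γ j * a j k +
    ∑ j, Λ j * (4 * a j k ^ 2 / μ.real univ) := ⟨_, rfl⟩
  have hηtend : Tendsto η atTop (𝓝 0) := by
    have h1 : Tendsto η atTop (𝓝 (∑ j, γ j * 0 + ∑ j, Λ j * (4 * 0 ^ 2 / μ.real univ))) := by
      rw [hη]
      exact (tendsto_finset_sum _ fun j _ => (hatend j).const_mul _).add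
        (tendsto_finset_sum _ fun j _ => ((((hatend j).pow 2).const_mul 4).div_const _
          |>.const_mul _))
    simpa using h1
  have hS1c : ∀ k, Continuous fun q => ∑ j, γ j * Fs G (s j) (φ j) (ψ j) n m (e k) q := fun k =>
    continuous_finset_sum _ fun j _ => continuous_const.mul (hPF j k).1
  have hS2c : ∀ k, Continuous fun q => ∑ j, Λ j * PF G (s j) (φ j) (φ' j) (ψ j) (ψ' j) n m (e k) q :=
    fun k => continuous_finset_sum _ fun j _ => continuous_const.mul (hPF j k).2.1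
  have hTc : ∀ k, Continuous (TS G z A A1 A2 A3 c c' d d' cs cs' ds ds' Λ γ s φ φ' ψ ψ' n m p (e k)) :=
    fun k => ((((hFc k).add (hCn k).1).add (hCm k).1).add (hS1c k)).add
      (((hTcn k).add (hTcm k)).add (hS2c k))
  have hTi : ∀ k, ∫ q, TS G z A A1 A2 A3 c c' d d' cs cs' ds ds' Λ γ s φ φ' ψ ψ' n m p (e k) q ∂μ ≤
      η k := by
    intro k
    have i1 : Integrable (FF G z A A1 A2 A3 n m p (e k)) μ := hi (hFc k)
    have i2 : Integrable (Cc G c c' n (e k)) μ := hi (hCn k).1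
    have i3 : Integrable (Cc G d d' m (e k)) μ := hi (hCm k).1
    have i12 : Integrable (fun q => FF G z A A1 A2 A3 n m p (e k) q + Cc G c c' n (e k) q) μ :=
      i1.add i2
    have i123 : Integrable (fun q => FF G z A A1 A2 A3 n m p (e k) q + Cc G c c' n (e k) q +
      Cc G d d' m (e k) q) μ := i12.add i3
    have i4 := hi (hS1c k)
    have i1234 : Integrable (fun q => FF G z A A1 A2 A3 n m p (e k) q + Cc G c c' n (e k) q +
      Cc G d d' m (e k) q + ∑ j, γ j * Fs G (s j) (φ j) (ψ j) n m (e k) q) μ := i123.add i4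
    have i5 := hi (hTcn k)
    have i6 := hi (hTcm k)
    have i56 : Integrable (fun q => Ts G cs cs' n (e k) q + Ts G ds ds' m (e k) q) μ := i5.add i6
    have i7 := hi (hS2c k)
    have i567 : Integrable (fun q => Ts G cs cs' n (e k) q + Ts G ds ds' m (e k) q +
      ∑ j, Λ j * PF G (s j) (φ j) (φ' j) (ψ j) (ψ' j) n m (e k) q) μ := i56.add i7
    have hint : ∫ q, TS G z A A1 A2 A3 c c' d d' cs cs' ds ds' Λ γ s φ φ' ψ ψ' n m p (e k) q ∂μ =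
        ∑ j, γ j * a j k + (∫ q, Ts G cs cs' n (e k) q ∂μ + ∫ q, Ts G ds ds' m (e k) q ∂μ +
          ∑ j, Λ j * ∫ q, PF G (s j) (φ j) (φ' j) (ψ j) (ψ' j) n m (e k) q ∂μ) := by
      unfold TS
      rw [integral_add i1234 i567, integral_add i123 i4, integral_add i12 i3, integral_add i1 i2,
        integral_add i56 i7, integral_add i5 i6, hFi k, (hCn k).2, (hCm k).2,
        integral_finset_sum _ fun j _ => (hi (hPF j k).1).const_mul _,
        integral_finset_sum _ fun j _ => (hi (hPF j k).2.1).const_mul _]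
      simp only [integral_const_mul, add_zero, zero_add, ha]
    rw [hint, hη]
    have h1 : ∑ j, Λ j * ∫ q, PF G (s j) (φ j) (φ' j) (ψ j) (ψ' j) n m (e k) q ∂μ ≤
        ∑ j, Λ j * (4 * a j k ^ 2 / μ.real univ) :=
      Finset.sum_le_sum fun j _ => mul_le_mul_of_nonneg_left (by
        have := (hPF j k).2.2
        rw [ha]; exact this) (hc.Λ0 j)
    have h2 := hTin k
    have h3 := hTim k
    show _ ≤ ∑ j, γ j * a j k + ∑ j, Λ j * (4 * a j k ^ 2 / μ.real univ)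
    linarith
  -- apply Fatou
  obtain ⟨κ, hκ⟩ : ∃ κ : ℕ → ℝ, κ = fun k => η k / μ.real univ := ⟨_, rfl⟩
  have hκtend : Tendsto κ atTop (𝓝 0) := by
    rw [hκ]; simpa using hηtend.div_const (μ.real univ)
  obtain ⟨K, hK⟩ : ∃ K : ℝ, ∀ k, |κ k| ≤ K := by
    obtain ⟨K, hK⟩ := hκtend.abs.bddAbove_range
    exact ⟨K, fun k => hK ⟨k, rfl⟩⟩
  have hK0 : 0 ≤ K := (abs_nonneg _).trans (hK 0)
  obtain ⟨B2, hB2⟩ : ∃ B2, B2 = B * |C| + B * |C'| + 12 * R * B := ⟨_, rfl⟩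
  have hB20 : 0 ≤ B2 := by rw [hB2]; positivity
  refine fatou_zero (f := fun k q => TS G z A A1 A2 A3 c c' d d' cs cs' ds ds' Λ γ s φ φ' ψ ψ'
    n m p (e k) q - κ k)
    (fun k => (hTc k).sub continuous_const) (fun k => ?_) (B := B1 + B2 + K) (by positivity)
    (fun k q => ?_) (fun q => ?_) hpos
  · rw [integral_sub (hi (hTc k)) (integrable_const _), integral_const, smul_eq_mul]
    have h1 : μ.real univ * κ k = η k := by rw [hκ]; field_simp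
    rw [h1]
    linarith [hTi k]
  · have h1 := neg_abs_le (FF G z A A1 A2 A3 n m p (e k) q + Cc G c c' n (e k) q +
      Cc G d d' m (e k) q + ∑ j, γ j * Fs G (s j) (φ j) (ψ j) n m (e k) q)
    have h2 := hB1 (e k) (hele k) q
    have h3 := hK k
    have h4 := le_abs_self (κ k)
    have h5 := sing_lb (φ := φ) (ψ := ψ) hR hn hm hC hC' hc.Λ0 hB0 hc.hcs hc.hds (hepos k).ne'
      (hesq k) q
    rw [← hB2] at h5
    have h6 := (Ts_le (c' := cs') kn (hepos k).ne' q (hc.hcs _ (rmn k q)).1).1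
    have h7 := (Ts_le (c' := ds') km (hepos k).ne' q (hc.hds _ (rmm k q)).1).1
    show _ ≤ (FF G z A A1 A2 A3 n m p (e k) q + Cc G c c' n (e k) q +
      Cc G d d' m (e k) q + ∑ j, γ j * Fs G (s j) (φ j) (ψ j) n m (e k) q) +
      (Ts G cs cs' n (e k) q + Ts G ds ds' m (e k) q +
      ∑ j, Λ j * PF G (s j) (φ j) (φ' j) (ψ j) (ψ' j) n m (e k) q) - κ k
    linarith
  · simpa using ((hTlim q).comp hetend).sub hκtend

theorem TS_contAt (hΩo : IsOpen Ω) (hA : ∀ i, Sm3 G Ω (A i) (A1 i) (A2 i) (A3 i)) (hR : 0 ≤ R)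
    (hn : ∀ q, G.ev q n ∈ Icc 0 (R ^ 2 - 1)) (hm : ∀ q, G.ev q m ∈ Icc 0 (R ^ 2 - 1))
    (hΩ : ∀ q, Ph G n m p 0 q ∈ Ω) {B : ℝ}
    (hc : Cols J R B c c' d d' cs cs' ds ds' Λ s φ φ' ψ ψ') {q : M} (h1 : 0 < G.ev q n)
    (h2 : 0 < G.ev q m) :
    ContinuousAt (TS G z A A1 A2 A3 c c' d d' cs cs' ds ds' Λ γ s φ φ' ψ ψ' n m p 0) q := by
  have c1 : ∀ n : 𝒪, Continuous fun q : M => rt G n 0 q := fun n =>
    (rt_cont n).comp (continuous_const.prodMk continuous_id)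
  have q1 : ∀ {n : 𝒪}, 0 < G.ev q n → ContinuousAt (fun q => ipg G n n q / (2 * rt G n 0 q) ^ 2) q := by
    intro n h
    have := q2_contAt h h
    simpa only [sq] using this
  have q0 : ∀ {n : 𝒪}, 0 < G.ev q n → ContinuousAt (fun q => ipg G n n q / (2 * rt G n 0 q)) q := by
    intro n h
    refine (ipg_cont n n).continuousAt.div (continuous_const.mul (c1 n)).continuousAt ?_
    have := rt0_pos h; positivity
  have cCc : ∀ {n : 𝒪} {c c' : ℝ → ℝ}, (∀ q, G.ev q n ∈ Icc 0 (R ^ 2 - 1)) → C1on R c c' →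
      0 < G.ev q n → ContinuousAt (Cc G c c' n 0) q := by
    intro n c c' hn hc h
    exact continuousAt_const.mul (((comp_contAt hR hn hc.2).continuousAt.mul (q0 h)).add
      ((comp_contAt hR hn hc.cont).continuousAt.mul (G.ev_cont _).continuousAt))
  have cTc : ∀ {n : 𝒪} {c c' : ℝ → ℝ}, (∀ q, G.ev q n ∈ Icc 0 (R ^ 2 - 1)) → C1oc R c c' →
      0 < G.ev q n → ContinuousAt (Ts G c c' n 0) q := by
    intro n c c' hn hc h
    have t0 := comp_contAt' hR hn hc.cont h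
    have t1 := comp_contAt' hR hn hc.2 h
    have t2 : ContinuousAt (Tc G c c' n 0) q :=
      ((q1 h).mul ((continuousAt_const.mul t0).add ((c1 n).continuousAt.mul t1))).add
      (((continuousAt_const.mul t0).mul (G.ev_cont n).continuousAt).mul
        (continuousAt_const.sub (Real.continuous_sqrt.comp (G.ev_cont n)).continuousAt))
    have t3 : ContinuousAt (Cc G c c' n 0) q :=
      continuousAt_const.mul ((t1.mul (q0 h)).add (t0.mul (G.ev_cont _).continuousAt))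
    exact t2.add (((G.ev_cont n).continuousAt.div ((c1 n).continuousAt.pow 2)
      (pow_ne_zero 2 (rt0_pos h).ne')).mul (t3.sub t2))
  have cF : ∀ j, ContinuousAt (Fs G (s j) (φ j) (ψ j) n m 0) q := fun j =>
    ((continuous_const.mul (comp_contAt hR hn (hc.kφ j))).sub
      (comp_contAt hR hm (hc.kψ j))).continuousAt
  have cP : ∀ j, ContinuousAt (PF G (s j) (φ j) (φ' j) (ψ j) (ψ' j) n m 0) q := by
    intro j
    have b1 := comp_contAt' hR hn (hc.fφ j).2 h1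
    have b2 := comp_contAt' hR hm (hc.fψ j).2 h2
    exact (continuousAt_const.mul ((cF j).pow 2)).sub (((continuousAt_const.mul ((b1.pow 2).mul
      (q1 h1))).sub (continuousAt_const.mul ((b1.mul b2).mul (q2_contAt h1 h2)))).add
        ((b2.pow 2).mul (q1 h2)))
  exact ((((FF_contAt hΩo hA hΩ h1 h2).add (cCc hn hc.fc h1)).add (cCc hm hc.fd h2)).add
    (tendsto_finset_sum _ fun j _ => continuousAt_const.mul (cF j))).add
    (((cTc hn hc.fcs h1).add (cTc hm hc.fds h2)).add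
      (tendsto_finset_sum _ fun j _ => continuousAt_const.mul (cP j)))

/-- **The integral argument with Poincaré columns, singular form**, pointwise version. -/
theorem pt_zero' [CompactSpace M] [MeasurableSpace M] [BorelSpace M] {μ : Measure M}
    [IsFiniteMeasure μ] [μ.IsOpenPosMeasure] (hdiv : DivThm G μ) (hP : H958.Poin G μ)
    (hΩo : IsOpen Ω) (hA : ∀ i, Sm3 G Ω (A i) (A1 i) (A2 i) (A3 i)) (hR : 0 ≤ R)
    (hR1 : 0 ≤ R ^ 2 - 1) (kn : KFun G n) (km : KFun G m)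
    (hn : ∀ q, G.ev q n ∈ Icc 0 (R ^ 2 - 1)) (hm : ∀ q, G.ev q m ∈ Icc 0 (R ^ 2 - 1))
    (hΩ : ∀ q, Ph G n m p 0 q ∈ Ω) {B : ℝ} (hB0 : 0 ≤ B)
    (hc : Cols J R B c c' d d' cs cs' ds ds' Λ s φ φ' ψ ψ')
    (hs : ∀ j, ∫ q, Fs G (s j) (φ j) (ψ j) n m 0 q ∂μ = 0)
    (hpos : ∀ q, 0 ≤ TS G z A A1 A2 A3 c c' d d' cs cs' ds ds' Λ γ s φ φ' ψ ψ' n m p 0 q) {q0 : M}
    (h1 : 0 < G.ev q0 n) (h2 : 0 < G.ev q0 m) :
    TS G z A A1 A2 A3 c c' d d' cs cs' ds ds' Λ γ s φ φ' ψ ψ' n m p 0 q0 = 0 := by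
  haveI : Nonempty M := ⟨q0⟩
  have hμ : μ.real univ ≠ 0 := by
    have h := isOpen_univ.measure_pos μ (⟨q0, mem_univ _⟩ : (univ : Set M).Nonempty)
    rw [Measure.real]
    exact (ENNReal.toReal_pos h.ne' (measure_ne_top μ _)).ne'
  have hae := ae_zero' hμ hdiv hP hΩo hA hR hR1 kn km hn hm hΩ hB0 hc hs hpos
  by_contra hne
  have hpos0 : 0 < TS G z A A1 A2 A3 c c' d d' cs cs' ds ds' Λ γ s φ φ' ψ ψ' n m p 0 q0 :=
    lt_of_le_of_ne (hpos q0) (Ne.symm hne)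
  have hcont := TS_contAt (z := z) (γ := γ) (p := p) hΩo hA hR hn hm hΩ hc h1 h2
  have hev : ∀ᶠ q in 𝓝 q0, 0 < TS G z A A1 A2 A3 c c' d d' cs cs' ds ds' Λ γ s φ φ' ψ ψ' n m p 0 q :=
    hcont.eventually (lt_mem_nhds hpos0)
  obtain ⟨U, hU, hUo, hqU⟩ := eventually_nhds_iff.1 hev
  have hμU : μ U = 0 := by
    have h3 : U ⊆ {q | ¬ (TS G z A A1 A2 A3 c c' d d' cs cs' ds ds' Λ γ s φ φ' ψ ψ' n m p 0 q = 0)} := by
      intro q hq h
      have := hU q hq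
      linarith
    exact measure_mono_null h3 hae
  exact (hUo.measure_pos μ ⟨q0, hqU⟩).ne' hμU

end main

end Vale.Agent.P211.H56
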