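import Vale.Agent.P211.Bdl.S0
import Vale.Agent.P211.Bdl.S3

set_option linter.all false

/-! P211, block L-ANA (helper56): a closed set which is neither empty nor everything is touched
from outside by a coordinate ball at a single point. -/

namespace Vale.Agent.P211.H56

open scoped Manifold ContDiff Topology
open Bundle Filter VectorField MeasureTheory Set
open Vale.Agent.P211 Vale.Agent.P211.S4

/-- the euclidean lemma -/
theorem touch_euclid {n : ℕ} (K : Set (EuclideanSpace ℝ (Fin n))) (hK : IsCompact K)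
    (w q : EuclideanSpace ℝ (Fin n)) (r : ℝ) (hw : w ∈ K) (hq : q ∉ K) (hqw : dist q w < r / 2) :
    ∃ z ∈ K, dist z w < r ∧ ∃ a, a ≠ z ∧ ∀ y ∈ K, y ≠ z → ‖z - a‖ ^ 2 < ‖y - a‖ ^ 2 := by
  obtain ⟨z, hz, hmin⟩ := hK.exists_infDist_eq_dist ⟨w, hw⟩ q
  have hle : ∀ y ∈ K, dist q z ≤ dist q y := by
    intro y hy
    rw [← hmin]
    exact Metric.infDist_le_dist_of_mem hy
  have hqz : q ≠ z := fun h => hq (h ▸ hz)
  refine ⟨z, hz, ?_, (2⁻¹ : ℝ) • (q + z), ?_, ?_⟩
  · have h1 := hle w hw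
    calc dist z w ≤ dist z q + dist q w := dist_triangle _ _ _
      _ = dist q z + dist q w := by rw [dist_comm z q]
      _ < r := by linarith
  · intro h
    apply hqz
    have h2 : (2 : ℝ) • ((2⁻¹ : ℝ) • (q + z)) = (2 : ℝ) • z := by rw [h]
    rw [smul_smul, show (2 : ℝ) * 2⁻¹ = 1 by norm_num, one_smul, two_smul] at h2
    exact add_right_cancel h2
  · intro y hy hyz
    obtain ⟨a, ha⟩ : ∃ a, a = (2⁻¹ : ℝ) • (q + z) := ⟨_, rfl⟩
    rw [← ha]
    have e1 : z - a = (2⁻¹ : ℝ) • (z - q) := by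
      rw [ha]; module
    have e2 : a - q = (2⁻¹ : ℝ) • (z - q) := by
      rw [ha]; module
    have n1 : ‖z - a‖ = 2⁻¹ * ‖z - q‖ := by rw [e1, norm_smul]; norm_num
    have n2 : ‖a - q‖ = 2⁻¹ * ‖z - q‖ := by rw [e2, norm_smul]; norm_num
    have h3 : ‖z - q‖ ≤ ‖y - q‖ := by
      have := hle y hy
      rw [dist_comm q z, dist_comm q y, dist_eq_norm, dist_eq_norm] at this
      exact this
    by_contra hcon
    push Not at hcon
    have h4 : ‖y - a‖ ≤ ‖z - a‖ :=
      (pow_le_pow_iff_left₀ (norm_nonneg _) (norm_nonneg _) two_ne_zero).1 hcon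
    have e3 : (y - a) + (a - q) = y - q := by abel
    have h5 : ‖y - q‖ ≤ ‖y - a‖ + ‖a - q‖ := by
      rw [← e3]; exact norm_add_le _ _
    have h6 : ‖y - a‖ = ‖a - q‖ := by linarith
    have h7 : ‖(y - a) + (a - q)‖ = ‖y - a‖ + ‖a - q‖ := by rw [e3]; linarith
    have h8 := eq_of_norm_eq_of_norm_add_eq h6 h7
    apply hyz
    have h9 : y = 2 • a - q := by rw [two_smul]; rw [sub_eq_sub_iff_add_eq_add] at h8; exact eq_sub_of_add_eq h8
    rw [h9, ha]; module

section mfd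

variable {E : Type*} [NormedAddCommGroup E] [NormedSpace ℝ E] [FiniteDimensional ℝ E]
  {M : Type*} [TopologicalSpace M] [ChartedSpace E M] [IsManifold 𝓘(ℝ, E) ∞ M] [T2Space M]

/-- the touching lemma on a manifold -/
theorem touch_SF [PreconnectedSpace M] (Z : Set M) (hZ : IsClosed Z) (hne : Z.Nonempty)
    (hun : Z ≠ univ) : ∃ z ∈ Z, ∃ ρ : SF E M, (∃ X : VF E M, DVF X ρ z ≠ 0) ∧
      ∀ᶠ y in 𝓝 z, y ∈ Z → y ≠ z → ρ z < ρ y := by
  classical
  -- a boundary point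
  obtain ⟨p, hp⟩ : (frontier Z).Nonempty := by
    rw [nonempty_iff_ne_empty]
    intro h
    rcases frontier_eq_empty_iff.1 h with h | h
    · rw [h] at hne; exact not_nonempty_empty hne
    · exact hun h
  have hpZ : p ∈ Z := hZ.frontier_subset hp
  -- the chart
  obtain ⟨T, hT⟩ : ∃ T : E ≃L[ℝ] EuclideanSpace ℝ (Fin (Module.finrank ℝ E)), T = toEuclidean :=
    ⟨_, rfl⟩
  obtain ⟨φ, hφ⟩ : ∃ φ : PartialEquiv M E, φ = extChartAt 𝓘(ℝ, E) p := ⟨_, rfl⟩
  obtain ⟨b⟩ : Nonempty (SmoothBumpFunction 𝓘(ℝ, E) p) := inferInstance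
  have hpsrc : p ∈ φ.source := by rw [hφ]; exact mem_extChartAt_source p
  have hsrc : IsOpen φ.source := by rw [hφ]; exact isOpen_extChartAt_source p
  have htgt : IsOpen φ.target := by rw [hφ]; exact isOpen_extChartAt_target p
  have hcφ : ContinuousOn φ φ.source := by rw [hφ]; exact continuousOn_extChartAt p
  have hcφs : ContinuousOn φ.symm φ.target := by rw [hφ]; exact continuousOn_extChartAt_symm p
  -- a neighbourhood on which the bump function is one
  obtain ⟨N, hN, hNo, hpN⟩ : ∃ N : Set M, (∀ y ∈ N, b y = 1) ∧ IsOpen N ∧ p ∈ N :=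
    eventually_nhds_iff.1 b.eventuallyEq_one
  -- preimage of N in E is open
  obtain ⟨r, hr, hball⟩ : ∃ r : ℝ, 0 < r ∧ ∀ w : EuclideanSpace ℝ (Fin (Module.finrank ℝ E)),
      dist w (T (φ p)) ≤ r → T.symm w ∈ φ.target ∧ φ.symm (T.symm w) ∈ N := by
    have h1 : IsOpen (φ.target ∩ φ.symm ⁻¹' N) := hcφs.isOpen_inter_preimage htgt hNo
    have h2 : IsOpen (T.symm ⁻¹' (φ.target ∩ φ.symm ⁻¹' N)) := h1.preimage T.symm.continuous
    have h3 : T (φ p) ∈ T.symm ⁻¹' (φ.target ∩ φ.symm ⁻¹' N) := by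
      simp only [mem_preimage, mem_inter_iff, ContinuousLinearEquiv.symm_apply_apply]
      exact ⟨φ.map_source hpsrc, by rw [φ.left_inv hpsrc]; exact hpN⟩
    obtain ⟨r, hr, h4⟩ := Metric.isOpen_iff.1 h2 _ h3
    refine ⟨r / 2, by positivity, fun w hw => ?_⟩
    have h5 : w ∈ Metric.ball (T (φ p)) r := by
      rw [Metric.mem_ball]; linarith
    exact h4 h5
  obtain ⟨K, hK⟩ : ∃ K : Set (EuclideanSpace ℝ (Fin (Module.finrank ℝ E))),
    K = Metric.closedBall (T (φ p)) r ∩ {w | φ.symm (T.symm w) ∈ Z} := ⟨_, rfl⟩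
  have hcont : ContinuousOn (fun w => φ.symm (T.symm w)) (Metric.closedBall (T (φ p)) r) := by
    apply hcφs.comp T.symm.continuous.continuousOn
    intro w hw
    exact (hball w (Metric.mem_closedBall.1 hw)).1
  have hKc : IsCompact K := by
    rw [hK]
    have : IsClosed (Metric.closedBall (T (φ p)) r ∩ (fun w => φ.symm (T.symm w)) ⁻¹' Z) :=
      hcont.preimage_isClosed_of_isClosed Metric.isClosed_closedBall hZ
    exact (isCompact_closedBall _ _).of_isClosed_subset this inter_subset_left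
  have hKp : T (φ p) ∈ K := by
    rw [hK]
    refine ⟨Metric.mem_closedBall_self hr.le, ?_⟩
    simp only [mem_setOf_eq, ContinuousLinearEquiv.symm_apply_apply]
    rw [φ.left_inv hpsrc]; exact hpZ
  -- a point of the complement near p
  obtain ⟨q, hqZ, hqs, hqd⟩ : ∃ q, q ∉ Z ∧ q ∈ φ.source ∧ dist (T (φ q)) (T (φ p)) < r / 2 := by
    have h1 : ∀ᶠ y in 𝓝 p, y ∈ φ.source ∧ dist (T (φ y)) (T (φ p)) < r / 2 := by
      have h2 : ContinuousAt (fun y => T (φ y)) p :=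
        T.continuous.continuousAt.comp (hcφ.continuousAt (hsrc.mem_nhds hpsrc))
      have h3 : ∀ᶠ y in 𝓝 p, dist (T (φ y)) (T (φ p)) < r / 2 :=
        h2 (Metric.ball_mem_nhds _ (by positivity))
      exact (hsrc.eventually_mem hpsrc).and h3
    have h4 : p ∈ closure Zᶜ := by
      rw [frontier_eq_closure_inter_closure] at hp
      exact hp.2
    obtain ⟨q, hq1, hq2⟩ := (mem_closure_iff_nhds.1 h4) _ h1
    exact ⟨q, hq2, hq1.1, hq1.2⟩
  have hqK : T (φ q) ∉ K := by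
    rw [hK]
    rintro ⟨-, h⟩
    simp only [mem_setOf_eq, ContinuousLinearEquiv.symm_apply_apply] at h
    rw [φ.left_inv hqs] at h
    exact hqZ h
  obtain ⟨z, hz, hzr, a, haz, hmin⟩ := touch_euclid K hKc (T (φ p)) (T (φ q)) r hKp hqK hqd
  have hzt := hball z hzr.le
  have hzZ : φ.symm (T.symm z) ∈ Z := by
    rw [hK] at hz; exact hz.2
  obtain ⟨z', hz'⟩ : ∃ z', z' = φ.symm (T.symm z) := ⟨_, rfl⟩
  have hz's : z' ∈ φ.source := by rw [hz']; exact φ.map_target hzt.1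
  have hTz' : T (φ z') = z := by
    rw [hz', φ.right_inv hzt.1, ContinuousLinearEquiv.apply_symm_apply]
  -- the function
  have hsm : ContMDiff 𝓘(ℝ, E) 𝓘(ℝ, ℝ) ∞ fun x => b x • ‖T (φ x) - a‖ ^ 2 := by
    apply b.contMDiff_smul
    have h1 : ContMDiffOn 𝓘(ℝ, E) 𝓘(ℝ, E) ∞ φ (chartAt E p).source := by
      rw [hφ]; exact contMDiffOn_extChartAt
    have h2 : ContDiff ℝ ∞ fun v : E => ‖T v - a‖ ^ 2 :=
      (contDiff_norm_sq ℝ).comp (T.contDiff.sub contDiff_const)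
    exact h2.contMDiff.comp_contMDiffOn h1
  obtain ⟨ρ, hρ⟩ : ∃ ρ : SF E M, ∀ x, ρ x = b x • ‖T (φ x) - a‖ ^ 2 := ⟨⟨_, hsm⟩, fun x => rfl⟩
  have hnear : ∀ᶠ y in 𝓝 z', y ∈ φ.source ∧ dist (T (φ y)) (T (φ p)) < r := by
    have h2 : ContinuousAt (fun y => T (φ y)) z' :=
      T.continuous.continuousAt.comp (hcφ.continuousAt (hsrc.mem_nhds hz's))
    have h3 : ∀ᶠ y in 𝓝 z', dist (T (φ y)) (T (φ p)) < r := by
      refine h2.eventually (p := fun w => dist w (T (φ p)) < r) ?_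
      apply Metric.isOpen_ball.mem_nhds
      change dist (T (φ z')) (T (φ p)) < r
      rw [hTz']; exact hzr
    exact (hsrc.eventually_mem hz's).and h3
  have hloc : ∀ y, y ∈ φ.source → dist (T (φ y)) (T (φ p)) < r → ρ y = ‖T (φ y) - a‖ ^ 2 := by
    intro y hy hd
    have h1 := hball _ hd.le
    rw [ContinuousLinearEquiv.symm_apply_apply, φ.left_inv hy] at h1
    rw [hρ, hN y h1.2, one_smul]
  refine ⟨z', by rw [hz']; exact hzZ, ρ, ?_, ?_⟩
  · -- nonvanishing derivative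
    by_contra hcon
    push Not at hcon
    subst hz'
    have h0 : ∀ v : TangentSpace 𝓘(ℝ, E) (φ.symm (T.symm z)),
        mvfderiv 𝓘(ℝ, E) ρ (φ.symm (T.symm z)) v = 0 := by
      intro v
      obtain ⟨X, hX⟩ := exists_ext (E := E) (φ.symm (T.symm z)) v
      have := hcon X
      rw [DVF_apply, hX] at this
      exact this
    have h1 : MDifferentiableAt 𝓘(ℝ, E) 𝓘(ℝ, E) φ.symm (T.symm z) := by
      have : ContMDiffOn 𝓘(ℝ, E) 𝓘(ℝ, E) ∞ φ.symm φ.target := by
        rw [hφ]; exact contMDiffOn_extChartAt_symm p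
      exact (this.contMDiffAt (htgt.mem_nhds hzt.1)).mdifferentiableAt (by simp)
    have h2 : HasMFDerivAt 𝓘(ℝ, E) 𝓘(ℝ, ℝ) (fun v => ρ (φ.symm v)) (T.symm z)
        ((mfderiv 𝓘(ℝ, E) 𝓘(ℝ, ℝ) ρ (φ.symm (T.symm z))).comp
          (mfderiv 𝓘(ℝ, E) 𝓘(ℝ, E) φ.symm (T.symm z))) :=
      (ρ.mdiff (φ.symm (T.symm z))).hasMFDerivAt.comp (T.symm z) h1.hasMFDerivAt
    rw [hasMFDerivAt_iff_hasFDerivAt] at h2
    have h4 : (fun v => ρ (φ.symm v)) =ᶠ[𝓝 (T.symm z)] fun v => ‖T v - a‖ ^ 2 := by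
      have h5 : ∀ᶠ v in 𝓝 (T.symm z), v ∈ φ.target ∧ dist (T v) (T (φ p)) < r := by
        refine (htgt.eventually_mem hzt.1).and ?_
        have h6 : ContinuousAt (fun v => T v) (T.symm z) := T.continuous.continuousAt
        refine h6.eventually (p := fun w => dist w (T (φ p)) < r) ?_
        apply Metric.isOpen_ball.mem_nhds
        change dist (T (T.symm z)) (T (φ p)) < r
        rw [ContinuousLinearEquiv.apply_symm_apply]; exact hzr
      filter_upwards [h5] with v hv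
      rw [hloc _ (φ.map_target hv.1) (by rw [φ.right_inv hv.1]; exact hv.2), φ.right_inv hv.1]
    have h6 := h2.congr_of_eventuallyEq h4.symm
    have h7 : HasFDerivAt (fun v => ‖T v - a‖ ^ 2)
        ((2 • (innerSL ℝ (T (T.symm z) - a))).comp (T : E →L[ℝ] _)) (T.symm z) := by
      have h8 : HasFDerivAt (fun v => T v - a) (T : E →L[ℝ] _) (T.symm z) :=
        T.hasFDerivAt.sub_const a
      exact h8.norm_sq
    obtain ⟨L, hL, hL0⟩ : ∃ L : E →L[ℝ] ℝ, HasFDerivAt (fun v => ‖T v - a‖ ^ 2) L (T.symm z) ∧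
        ∀ v, L v = 0 := ⟨_, h6, fun v => h0 (mfderiv 𝓘(ℝ, E) 𝓘(ℝ, E) φ.symm (T.symm z) v)⟩
    have h9 := hL.unique h7
    have h11 : ((2 • (innerSL ℝ (T (T.symm z) - a))).comp (T : E →L[ℝ] _)) (T.symm (z - a))
        = 2 * ‖z - a‖ ^ 2 := by
      simp only [ContinuousLinearMap.comp_apply, ContinuousLinearMap.smul_apply,
        ContinuousLinearEquiv.coe_coe, ContinuousLinearEquiv.apply_symm_apply, innerSL_apply_apply]
      rw [real_inner_self_eq_norm_sq]; simp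
    have h13 : (0 : ℝ) = 2 * ‖z - a‖ ^ 2 := by
      rw [← h11, ← h9, hL0]
    have h14 : 0 < ‖z - a‖ := norm_pos_iff.2 (sub_ne_zero.2 haz.symm)
    nlinarith [pow_pos h14 2]
  · filter_upwards [hnear] with y hy hyZ hyz
    rw [hloc y hy.1 hy.2, hloc z' hz's (by rw [hTz']; exact hzr), hTz']
    apply hmin
    · rw [hK]
      refine ⟨hy.2.le, ?_⟩
      simp only [mem_setOf_eq, ContinuousLinearEquiv.symm_apply_apply]
      rw [φ.left_inv hy.1]; exact hyZ
    · intro h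
      apply hyz
      rw [hz', ← h, ContinuousLinearEquiv.symm_apply_apply, φ.left_inv hy.1]

end mfd

end Vale.Agent.P211.H56
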