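import Vale.Agent.P211.H56.Touch
import Vale.Agent.P211.H56.Smp

set_option linter.all false

/-! P211, block L-ANA (helper56): the touching property of a connected Riemannian manifold. -/

namespace Vale.Agent.P211.H56

open scoped Manifold ContDiff Topology
open Bundle Filter VectorField MeasureTheory Set
open Vale.Agent.P211 Vale.Agent.P211.S4

/-- a function with a nonvanishing derivative has a gradient of positive length -/
theorem grad_pos {M 𝒪 V : Type*} [TopologicalSpace M] [CommRing 𝒪] [Algebra ℝ 𝒪]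
    [AddCommGroup V] [Module 𝒪 V] {G : Geo2 M 𝒪 V} {ρ : 𝒪} {z : M} {X : V}
    (h : G.ev z (G.D X ρ) ≠ 0) : 0 < G.ev z (G.g (G.grad ρ) (G.grad ρ)) := by
  rcases (G.g_nonneg z (G.grad ρ)).lt_or_eq with h1 | h1
  · exact h1
  · exfalso
    apply h
    have h2 := G.ptwise z ⟨⟨fun Y => G.g Y X, fun a b => G.g_add_left a b _⟩,
      fun a b => G.g_smul_left a b _⟩ (G.grad ρ) h1.symm
    have h3 : G.ev z (G.g (G.grad ρ) X) = 0 := h2
    rw [← G.grad_spec]; exact h3

section mfd

variable {E : Type*} [NormedAddCommGroup E] [NormedSpace ℝ E] [FiniteDimensional ℝ E]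
  {M : Type*} [TopologicalSpace M] [ChartedSpace E M] [IsManifold 𝓘(ℝ, E) ∞ M] [T2Space M]
  [RiemannianBundle (fun x : M => TangentSpace 𝓘(ℝ, E) x)]
  [IsContMDiffRiemannianBundle 𝓘(ℝ, E) ∞ E (fun x : M => TangentSpace 𝓘(ℝ, E) x)]

variable {cov : CovariantDerivative 𝓘(ℝ, E) E (TangentSpace 𝓘(ℝ, E) : M → Type _)}

theorem touch_geo2Of [PreconnectedSpace M] (hcov : IsLC cov) (hE : Module.finrank ℝ E = 4) :
    Touch (geo2Of hcov hE) := by
  intro Z hZ hne hun
  obtain ⟨z, hz, ρ, ⟨X, hX⟩, hev⟩ := touch_SF (E := E) Z hZ hne hun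
  exact ⟨z, hz, ρ, grad_pos (G := geo2Of hcov hE) (X := X) hX, hev⟩

end mfd

end Vale.Agent.P211.H56
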